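import Vale.Agent.P218E.Spec

/-!
# P218Z: weak flows with a small singular set
-/

open MeasureTheory Metric Filter Topology Set
open scoped ContDiff ENNReal RealInnerProductSpace
open Vale.Agent.P366W (trc dvg Fr)
open Vale.Agent.P218R Vale.Agent.P218E

noncomputable section

namespace Vale.Agent.P218Z

/-! ### the class in the statement -/

/-- near `(t, x)` the space-time track of `M` is a smooth mean curvature flow: it is the zero set of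
a smooth function `u` with nonvanishing spatial gradient, and `∂u/∂t = |∇u| div (∇u / |∇u|)` on the
track -/
def RegPt (M : ℝ → Set E3) (t : ℝ) (x : E3) : Prop :=
  ∃ u : ℝ → E3 → ℝ, ContDiff ℝ ∞ (Function.uncurry u) ∧
    gradient (u t) x ≠ 0 ∧ ∀ᶠ p : ℝ × E3 in 𝓝 (t, x), (p.2 ∈ M p.1 ↔ u p.1 p.2 = 0) ∧
      (p.2 ∈ M p.1 → deriv (fun s => u s p.2) p.1 = ‖gradient (u p.1) p.2‖ *
        dvg (fun z => ‖gradient (u p.1) z‖⁻¹ • gradient (u p.1) z) p.2)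

/-- the singular set -/
def Sing (M : ℝ → Set E3) : Set (ℝ × E3) := {p | p.2 ∈ M p.1 ∧ ¬ RegPt M p.1 p.2}

/-- a regular time -/
def RegT (M : ℝ → Set E3) (t : ℝ) : Prop := ∀ x ∈ M t, RegPt M t x

/-- the open parabolic cylinder of radius `r` about `p` -/
def pcyl (p : ℝ × E3) (r : ℝ) : Set (ℝ × E3) := Ioo (p.1 - r ^ 2) (p.1 + r ^ 2) ×ˢ ball p.2 r

/-- the two-dimensional parabolic Hausdorff measure of `Z` is zero -/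
def PNull (Z : Set (ℝ × E3)) : Prop := ∀ δ > (0 : ℝ), ∃ (p : ℕ → ℝ × E3) (r : ℕ → ℝ),
  (∀ i, 0 < r i) ∧ Z ⊆ ⋃ i, pcyl (p i) (r i) ∧ ∑' i, ENNReal.ofReal (r i ^ 2) ≤ ENNReal.ofReal δ

/-- `(M t)_{a < t < b}` is a unit-regular flow of compact sets with small singular set and bounded
genus: the track is proper over `(a, b)` and is the closure of its regular part, the singular set
has two-dimensional parabolic Hausdorff measure zero, points of Gaussian density one are regular,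
and at regular times the total curvature `4 π (1 - genus)` of the components is bounded below -/
structure IsSmallSing (M : ℝ → Set E3) (a b : ℝ) : Prop where
  cpt : ∀ c d, a < c → d < b → IsCompact {p : ℝ × E3 | p.1 ∈ Icc c d ∧ p.2 ∈ M p.1}
  dense : ∀ t ∈ Ioo a b, ∀ x ∈ M t,
    (t, x) ∈ closure {p : ℝ × E3 | p.2 ∈ M p.1 ∧ RegPt M p.1 p.2}
  small : PNull (Sing M ∩ Ioo a b ×ˢ univ)
  unit : ∀ t ∈ Ioo a b, ∀ x ∈ M t,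
    Tendsto (fun r => gs (H2.restrict (M (t - r ^ 2))) x r) (𝓝[>] 0) (𝓝 1) → RegPt M t x
  genus : ∃ g : ℝ, ∀ t ∈ Ioo a b, RegT M t → ∀ S : Srf, S.Ok → S.G = M t → ∀ x ∈ M t,
    -g ≤ ∫ y in connectedComponentIn (M t) x, S.K y ∂S.μ

/-! ### the working classes: `F` is only a choice of slices, without regularity in time -/

/-- the track of `F` -/
def trk (F : Flw) (t : ℝ) : Set E3 := (F.sl t).G

/-- small singular set, area ratios, Gauss-Bonnet bound at regular times -/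
structure Zc (F : Flw) (a b Λ G : ℝ) : Prop where
  cpt : ∀ c d, a < c → d < b → IsCompact {p : ℝ × E3 | p.1 ∈ Icc c d ∧ p.2 ∈ trk F p.1}
  cov : ∀ c d, a < c → d < b → ∀ δ > (0 : ℝ), ∃ T : Finset ((ℝ × E3) × ℝ), (∀ q ∈ T, 0 < q.2) ∧
    Sing (trk F) ∩ Icc c d ×ˢ univ ⊆ ⋃ q ∈ T, pcyl q.1 q.2 ∧ ∑ q ∈ T, q.2 ^ 2 ≤ δ
  ok : ∀ t ∈ Ioo a b, RegT (trk F) t → (F.sl t).Ok ∧ (F.sl t).GBd G
  ar : ∀ t ∈ Ioo a b, AR Λ (F.μ t)

/-- monotonicity across all times, and the lower density bound -/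
structure Zm (F : Flw) (a b Λ G : ℝ) : Prop extends Zc F a b Λ G where
  mono : ∀ (s₁ s₂ t₀ : ℝ) (x : E3), a < s₁ → s₁ ≤ s₂ → s₂ < b → s₂ < t₀ →
    gs (F.μ s₂) x √(t₀ - s₂) ≤ gs (F.μ s₁) x √(t₀ - s₁)
  ld : ∀ (s t : ℝ) (y : E3), a < t → t < s → s < b → F.u (s, y) = 0 → 1 ≤ gs (F.μ t) y √(s - t)

/-- the density gap at singular points -/
structure Zf (F : Flw) (a b Λ G ε : ℝ) : Prop extends Zm F a b Λ G where
  gap : ∀ (s t : ℝ) (y : E3), a < t → t < s → s < b → (s, y) ∈ Sing (trk F) →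
    1 + ε ≤ gs (F.μ t) y √(s - t)

/-- the slice `F.rsl x₀ t₀ τ` is regular -/
def RegS (F : Flw) (t₀ τ : ℝ) : Prop := RegT (trk F) (t₀ - Real.exp (-2 * τ))

/-- **DPZ**: the pair estimate across singular times (block P218M2) -/
def DPZ : Prop := ∀ Λ G κ m₀ R₀ : ℝ, 0 < κ → 0 < m₀ → ∃ R' > (0 : ℝ), ∃ m' > (0 : ℝ),
  ∃ D₀ > (0 : ℝ), ∃ e₀ > (0 : ℝ), ∃ J : ℕ, ∀ (F : Flw) (a b t₀ τ₁ τ₂ e : ℝ) (x₀ : E3),
    Zc F a b Λ G → τ₁ ≤ τ₂ → a < t₀ - Real.exp (-2 * τ₁) → t₀ ≤ b → 0 < e → e ≤ e₀ →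
    RegS F t₀ τ₁ → RegS F t₀ τ₂ →
    ∫⁻ τ in Icc τ₁ τ₂, dsb (F.rsl x₀ t₀ τ) R' ≤ ENNReal.ofReal D₀ →
    (F.rsl x₀ t₀ τ₁).μ {x ∈ ball (0 : E3) R' | Pair (F.rsl x₀ t₀ τ₁) x e} ≤ ENNReal.ofReal m' →
    dsb (F.rsl x₀ t₀ τ₂) R' ≤ 1 → ∃ j ≤ J, ¬ Many (F.rsl x₀ t₀ τ₂).μ R₀ κ m₀ (e / 10 / 2 ^ j)

/-! ### local flows -/

/-- a smooth family of surfaces -/
structure Pre (F : Flw) (a b : ℝ) : Prop where
  su : ContDiffOn ℝ ∞ F.u (Ioo a b ×ˢ univ)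
  sn : ContDiffOn ℝ ∞ F.n (Ioo a b ×ˢ univ)
  reg : ∀ t ∈ Ioo a b, ∀ x, F.u (t, x) = 0 → gradient (F.sl t).w x ≠ 0
  nrm : ∀ t ∈ Ioo a b, ∀ x, F.u (t, x) = 0 → ∀ᶠ p in 𝓝 (t, x),
    F.n p = ‖gradient (F.sl p.1).w p.2‖⁻¹ • gradient (F.sl p.1).w p.2

/-- a smooth family which moves by mean curvature in `B` -/
structure OkL (F : Flw) (a b : ℝ) (B : Set E3) : Prop extends Pre F a b where
  eq : ∀ t ∈ Ioo a b, ∀ x ∈ B, F.u (t, x) = 0 →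
    deriv (fun s => F.u (s, x)) t = ‖gradient (F.sl t).w x‖ * (F.sl t).H x

/-- ancestors -/
def Anc (F : Flw) (a b : ℝ) (B : Set E3) (R : ℝ) : Prop := ∀ (s t : ℝ) (y : E3), a < t → t < s →
  s < b → F.u (s, y) = 0 → closedBall y (R * √(s - t)) ⊆ B →
    ∃ z, F.u (t, z) = 0 ∧ ‖z - y‖ ≤ R * √(s - t)

/-- the use of two centres -/
def Two (F : Flw) (a b : ℝ) (B : Set E3) (R K δ η : ℝ) : Prop :=
  ∀ (s s' ρ : ℝ) (y₁ y₂ y : E3), 0 < ρ → a ≤ s' - 2 * (δ * ρ) ^ 2 → s' ≤ s → s ≤ s' + (K * ρ) ^ 2 →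
    s < b → F.u (s, y₁) = 0 → F.u (s, y₂) = 0 → F.u (s', y) = 0 → ‖y₁ - y‖ ≤ K * ρ →
    ‖y₂ - y‖ ≤ K * ρ → y₁ ∈ B → y₂ ∈ B → closedBall y (2 * R * δ * ρ) ⊆ B →
    ∃ t ∈ Ioo (s' - 2 * (δ * ρ) ^ 2) (s' - (δ * ρ) ^ 2), ∃ z, F.u (t, z) = 0 ∧
      ‖z - y‖ ≤ 2 * R * δ * ρ ∧ |⟪y₁ - y₂, F.n (t, z)⟫| ≤ η * ρ

/-! ### weak flows, for the density gap -/

/-- the heat operator of the plane with the unit normal `ν` -/
def hop (ψ : ℝ × E3 → ℝ) (t : ℝ) (x ν : E3) : ℝ := deriv (fun s => ψ (s, x)) t -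
  (dvg (gradient fun y => ψ (t, y)) x - ⟪fderiv ℝ (gradient fun y => ψ (t, y)) x ν, ν⟫)

/-- an admissible weight on `[s, t]` -/
structure Adm (T : ℝ → Set E3) (ψ : ℝ × E3 → ℝ) (s t : ℝ) : Prop where
  sm : ∃ c < s, ContDiffOn ℝ 2 ψ (Ioi c ×ˢ univ)
  nn : ∀ p, 0 ≤ ψ p
  cs : ∃ K, IsCompact K ∧ ∀ t, ∀ x ∉ K, ψ (t, x) = 0
  sub : ∀ r ∈ Icc s t, ∀ x ∈ T r, ∀ ν, ‖ν‖ = 1 → hop ψ r x ν ≤ 0

/-- measures carried by the track `T`, with the mean value inequality -/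
structure Wk (μ : ℝ → Measure E3) (T : ℝ → Set E3) (a b Λ : ℝ) : Prop where
  ar : ∀ t ∈ Ioo a b, AR Λ (μ t)
  car : ∀ t ∈ Ioo a b, ∀ᵐ x ∂μ t, x ∈ T t
  mv : ∀ (ψ : ℝ × E3 → ℝ) (s t : ℝ) (x : E3), a < s → s < t → t < b → x ∈ T t → Adm T ψ s t →
    ψ (t, x) ≤ ∫ y, ψ (s, y) * hk x t s y ∂μ s

/-- Gaussian ratios at most `θ` about all points of the track in the cylinder below `(t, x)` -/
def UB (μ : ℝ → Measure E3) (T : ℝ → Set E3) (t : ℝ) (x : E3) (ρ θ : ℝ) : Prop :=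
  ∀ s s', t - ρ ^ 2 ≤ s' → s' < s → s ≤ t → ∀ y ∈ T s, ‖y - x‖ ≤ ρ → gs (μ s') y √(s - s') ≤ θ

/-- in the cylinder of radius `ρ` below `(t, x)` the track lies in a slab of half width `h` -/
def Slab (T : ℝ → Set E3) (t : ℝ) (x : E3) (ρ : ℝ) (e : E3) (h : ℝ) : Prop :=
  ∀ s ∈ Icc (t - ρ ^ 2) t, ∀ y ∈ T s, ‖y - x‖ ≤ ρ → |⟪y - x, e⟫| ≤ h

end Vale.Agent.P218Z
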