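import Vale.Agent.P218Z.Spec
import Vale.Agent.P218E.Clo2

/-!
# P218Z: regular points and regular times
-/

open MeasureTheory Metric Filter Topology Set
open scoped ContDiff ENNReal RealInnerProductSpace
open Vale.Agent.P218R Vale.Agent.P218E

noncomputable section

namespace Vale.Agent.P218Z

namespace Tp

variable {M : ℝ → Set E3} {a b c d t : ℝ}

theorem reg_ev {x : E3} (h : RegPt M t x) : ∀ᶠ p : ℝ × E3 in 𝓝 (t, x), RegPt M p.1 p.2 := by
  obtain ⟨u, su, h1, h2⟩ := h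
  have sg := (Flw.sm_grad (a := t - 1) (b := t + 1) (m := 0) su.contDiffOn (by simp)).continuousOn
  have := (sg.continuousAt (Flw.mem_dom (t := t) ⟨by linarith, by linarith⟩ x)).eventually_ne h1
  filter_upwards [this, h2.eventually_nhds] with p p1 p2
  exact ⟨u, su, p1, p2⟩

theorem open_reg : IsOpen {p : ℝ × E3 | RegPt M p.1 p.2} :=
  isOpen_iff_mem_nhds.2 fun _ hp => reg_ev hp

theorem pcyl_open (p : ℝ × E3) (r : ℝ) : IsOpen (pcyl p r) := isOpen_Ioo.prod isOpen_ball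

variable (h : ∀ c d, a < c → d < b → IsCompact {p : ℝ × E3 | p.1 ∈ Icc c d ∧ p.2 ∈ M p.1})
include h

theorem sing_cpt (hc : a < c) (hd : d < b) : IsCompact (Sing M ∩ Icc c d ×ˢ univ) := by
  convert (h c d hc hd).inter_right open_reg.isClosed_compl using 1
  ext p
  simp only [Sing, mem_inter_iff, mem_ofPred_eq, mem_prod, mem_univ, mem_compl_iff]
  tauto

theorem open_T : IsOpen {t | t ∈ Ioo a b ∧ RegT M t} := isOpen_iff_mem_nhds.2 fun t ⟨ht, hr⟩ => by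
  have h1 := ((sing_cpt h (c := (a + t) / 2) (d := (t + b) / 2) (by linarith [ht.1])
    (by linarith [ht.2])).image continuous_fst).isClosed.isOpen_compl.mem_nhds
      (show t ∈ _ from fun ⟨p, hp, e⟩ => hp.1.2 (by subst e; exact hr _ hp.1.1))
  filter_upwards [h1, Ioo_mem_nhds (show (a + t) / 2 < t by linarith [ht.1])
    (show t < (t + b) / 2 by linarith [ht.2])] with s s1 s2
  refine ⟨⟨by linarith [s2.1, ht.1], by linarith [s2.2, ht.2]⟩, fun x hx => by_contra fun h2 => ?_⟩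
  exact s1 ⟨(s, x), ⟨⟨hx, h2⟩, Ioo_subset_Icc_self s2, trivial⟩, rfl⟩

theorem smooth (hc : a ≤ c) (hd : d ≤ b) (hr : ∀ t ∈ Ioo c d, RegT M t) : IsSmoothFlow M c d :=
  ⟨fun c' d' p q => h c' d' (hc.trans_lt p) (q.trans_le hd), hr⟩

theorem cover (hN : PNull (Sing M ∩ Ioo a b ×ˢ univ)) (hc : a < c) (hd : d < b) {δ : ℝ}
    (hδ : 0 < δ) : ∃ T : Finset ((ℝ × E3) × ℝ), (∀ q ∈ T, 0 < q.2) ∧
      Sing M ∩ Icc c d ×ˢ univ ⊆ ⋃ q ∈ T, pcyl q.1 q.2 ∧ ∑ q ∈ T, q.2 ^ 2 ≤ δ := by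
  classical
  obtain ⟨p, r, r0, h1, h2⟩ := hN δ hδ
  obtain ⟨s, hs⟩ := (sing_cpt h hc hd).elim_finite_subcover _ (fun i => pcyl_open (p i) (r i))
    ((inter_subset_inter_right _ (prod_mono (Icc_subset_Ioo hc hd) subset_rfl)).trans h1)
  refine ⟨s.image fun i => (p i, r i), fun q hq => ?_, ?_, ?_⟩
  · obtain ⟨i, -, rfl⟩ := Finset.mem_image.1 hq
    exact r0 i
  · rwa [Finset.set_biUnion_finset_image]
  · refine (Finset.sum_image_le_of_nonneg (f := fun q : (ℝ × E3) × ℝ => q.2 ^ 2)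
      fun q _ => sq_nonneg _).trans ((ENNReal.ofReal_le_ofReal_iff hδ.le).1 ?_)
    rw [ENNReal.ofReal_sum_of_nonneg fun i _ => sq_nonneg _]
    exact (ENNReal.sum_le_tsum s).trans h2

omit h in
theorem ae_reg {F : Flw} {Λ G : ℝ} (hF : Zc F a b Λ G) : ∀ᵐ t, t ∈ Ioo a b → RegT (trk F) t := by
  have key : ∀ c d, a < c → d < b → ∀ᵐ t, t ∈ Icc c d → RegT (trk F) t := fun c d hc hd => by
    refine le_antisymm (ENNReal.le_of_forall_pos_le_add fun ε hε _ => ?_) zero_le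
    obtain ⟨T, -, h1, h2⟩ := hF.cov c d hc hd (ε / 2) (half_pos hε)
    refine (measure_mono (t := ⋃ q ∈ T, Ioo (q.1.1 - q.2 ^ 2) (q.1.1 + q.2 ^ 2))
      fun t ht => ?_).trans ((measure_biUnion_finset_le _ _).trans ?_)
    · simp only [RegT, mem_compl_iff, mem_ofPred_eq, not_forall] at ht
      obtain ⟨t1, x, x1, x2⟩ := ht
      obtain ⟨q, q1, q2⟩ := mem_iUnion₂.1 (h1 (show (t, x) ∈ _ from ⟨⟨x1, x2⟩, t1, trivial⟩))
      exact mem_iUnion₂.2 ⟨q, q1, q2.1⟩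
    · simp only [Real.volume_Ioo, add_sub_sub_cancel, zero_add]
      rw [← ENNReal.ofReal_sum_of_nonneg fun q _ => by positivity, Finset.sum_add_distrib,
        ← ENNReal.ofReal_coe_nnreal]
      exact ENNReal.ofReal_le_ofReal (by linarith)
  have h1 : ∀ᵐ t, ∀ n : ℕ, t ∈ Icc (a + 1 / (n + 1)) (b - 1 / (n + 1)) → RegT (trk F) t :=
    ae_all_iff.2 fun n => key _ _ (lt_add_of_pos_right _ Nat.one_div_pos_of_nat)
      (sub_lt_self _ Nat.one_div_pos_of_nat)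
  filter_upwards [h1] with t h2 ht
  obtain ⟨n, hn⟩ := exists_nat_one_div_lt (lt_min (sub_pos.2 ht.1) (sub_pos.2 ht.2))
  rw [lt_min_iff] at hn
  exact h2 n ⟨by linarith [hn.1], by linarith [hn.2]⟩

end Tp

open Tp

theorem top : TOP := by
  refine ⟨fun M t x h => (reg_ev h).mono fun _ a _ => a, fun M a b h => ⟨fun t ht => ?_,
    fun t ht y hy => ?_, fun c d => sing_cpt h, open_T h, fun c d => smooth h,
    fun hN c d hc hd δ => cover h hN hc hd⟩, fun F a b Λ G hF => ⟨ae_reg hF,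
    fun c d hc hcd hd hr => ?_⟩⟩
  · convert (h t t ht.1 ht.2).image continuous_snd using 1
    exact Set.ext fun x => ⟨fun hx => ⟨(t, x), ⟨⟨le_rfl, le_rfl⟩, hx⟩, rfl⟩,
      fun ⟨p, ⟨p1, p2⟩, e⟩ => e ▸ le_antisymm p1.2 p1.1 ▸ p2⟩
  · have h1 := (h ((a + t) / 2) ((t + b) / 2) (by linarith [ht.1])
      (by linarith [ht.2])).isClosed.isOpen_compl.mem_nhds (show (t, y) ∈ _ from fun q => hy q.2)
    filter_upwards [h1, continuous_fst.continuousAt.eventually (Icc_mem_nhds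
      (show (a + t) / 2 < (t, y).1 by linarith [ht.1])
      (show (t, y).1 < (t + b) / 2 by linarith [ht.2]))] with p p1 p2 p3
    exact p1 ⟨p2, p3⟩
  · have m : ∀ t ∈ Icc c d, {t | t ∈ Ioo a b ∧ RegT (trk F) t} ∈ 𝓝 t := fun t ht =>
      (open_T hF.cpt).mem_nhds ⟨⟨hc.trans_le ht.1, ht.2.trans_lt hd⟩, hr t ht⟩
    obtain ⟨l, u, h1, h2⟩ := mem_nhds_iff_exists_Ioo_subset.1 (m c ⟨le_rfl, hcd⟩)
    obtain ⟨l', u', h3, h4⟩ := mem_nhds_iff_exists_Ioo_subset.1 (m d ⟨hcd, le_rfl⟩)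
    have k : ∀ t ∈ Ioo (max a l) (min b u'), t ∈ Ioo a b ∧ RegT (trk F) t := fun t ht => by
      rw [mem_Ioo, max_lt_iff, lt_min_iff] at ht
      rcases lt_or_ge t c with p | p
      · exact h2 ⟨ht.1.2, p.trans h1.2⟩
      rcases le_or_gt t d with q | q
      · exact (mem_of_mem_nhds (m t ⟨p, q⟩) :)
      · exact h4 ⟨h3.1.trans q, ht.2.2⟩
    have k1 := max_lt hc h1.1
    have k2 := lt_min hd h3.2
    obtain ⟨F', f1, f2⟩ := cfl2 (smooth hF.cpt (le_max_left _ _) (min_le_left _ _)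
      fun t ht => (k t ht).2) (k1.trans (hcd.trans_lt k2))
    refine ⟨F', _, _, le_max_left _ _, k1, k2, min_le_left _ _, ⟨f1, fun t ht => ?_⟩,
      fun t ht => ⟨(k t ht).2, f2 t ht⟩⟩
    rw [Flw.μ, Srf.μ, f2 t ht]
    exact hF.ar t (k t ht).1

end Vale.Agent.P218Z
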