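import Vale.Agent.P218Z.Spec
import Vale.Agent.P218E.Fin

/-!
# P218Z: the choice of slices and the bridge from Brakke flows
-/

open MeasureTheory Metric Filter Topology Set
open scoped ContDiff ENNReal RealInnerProductSpace NNReal
open Vale.Agent.P218 (limitSet WeakTendsto Slow IsIntegralBrakkeFlow IsTangentFlow rescaled)
open Vale.Agent.P218.H552
open Vale.Agent.P218R Vale.Agent.P218E

noncomputable section

namespace Vale.Agent.P218Z

theorem slc : SLC := by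
  classical
  intro M
  have key : ∀ t, ∃ S : Srf, S.G = M t ∧ (IsClosed (M t) → RegT M t → S.Ok) := fun t => by
    by_cases h : IsClosed (M t) ∧ RegT M t
    · obtain ⟨w, h1, h2, h3⟩ := ori E3 (M t) h.1 fun p hp => by
        obtain ⟨u, su, a, b⟩ := h.2 p hp
        exact ⟨u t, su.comp (contDiff_prodMk_right t), grad_ne_iff.1 a,
          ((continuous_const.prodMk continuous_id).continuousAt.eventually b).mono
            fun y hy => hy.1⟩
      exact ⟨.of w, Set.ext fun x => (h2 x).symm, fun _ _ =>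
        Srf.of_ok h1 fun x hx => grad_ne_iff.2 (h3 x ((h2 x).2 hx))⟩
    · exact ⟨⟨fun x => if x ∈ M t then 0 else 1, 0⟩, Set.ext fun x => by simp [Srf.G],
        fun a b => (h ⟨a, b⟩).elim⟩
  choose S h1 h2 using key
  exact ⟨⟨fun p => (S p.1).w p.2, fun p => (S p.1).n p.2⟩, h1, h2⟩

namespace Slc

variable {μ : ℝ → Measure E3}

theorem gs_smul (c : ℝ≥0) (ν : Measure E3) (x : E3) (ρ : ℝ) : gs (c • ν) x ρ = c * gs ν x ρ := by
  rw [gs, gs, integral_smul_nnreal_measure, NNReal.smul_def, smul_eq_mul]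
  ring

theorem ar_smul {Λ : ℝ} {ν : Measure E3} (h : AR Λ ν) (c : ℝ≥0) : AR (c * Λ) (c • ν) :=
  fun x r hr => by
    rw [Measure.smul_apply, mul_assoc, ENNReal.ofReal_mul c.coe_nonneg, ENNReal.ofReal_coe_nnreal]
    exact mul_le_mul_right (h x r hr) _

theorem gs_anti (hB : IsIntegralBrakkeFlow 2 μ) (h0 : μ 0 univ < ⊤) {s₁ s₂ t₀ : ℝ} (x : E3)
    (h1 : 0 ≤ s₁) (h2 : s₁ ≤ s₂) (h3 : s₂ < t₀) :
    gs (μ s₂) x √(t₀ - s₂) ≤ gs (μ s₁) x √(t₀ - s₁) := by
  obtain ⟨T, H, hB⟩ := exists_BF hB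
  have h := hB.Th_anti h0 x h1 h2 h3
  rwa [th_gs _ _ h3, th_gs _ _ (h2.trans_lt h3), mul_le_mul_iff_right₀ (by positivity)] at h

theorem ar_B (hB : IsIntegralBrakkeFlow 2 μ) (h0 : μ 0 univ < ⊤) {a t : ℝ} (ha : 0 < a)
    (h : a ≤ t) : AR (2 * (μ 0).real univ / a) (μ t) := fun x r hr => by
  have t0 : 0 < t := by linarith
  have r2 := pow_pos hr 2
  have h1 := gs_anti hB h0 x (t₀ := t + r ^ 2) le_rfl t0.le (by linarith)
  obtain ⟨T, H, hB⟩ := exists_BF hB
  have := hB.finite h0 t0.le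
  have := hB.finite h0 le_rfl
  rw [add_sub_cancel_left, Real.sqrt_sq hr.le, sub_zero] at h1
  have h3 := Cfl.gs_le (μ 0) x √(t + r ^ 2)
  rw [Real.sq_sqrt (by linarith)] at h3
  have h5 := ((Cfl.le_gs (μ t) x hr).trans (h1.trans h3)).trans (mul_le_mul_of_nonneg_right
    (inv_anti₀ (mul_pos (by positivity) ha) (mul_le_mul_of_nonneg_left
      (show a ≤ t + r ^ 2 by linarith) (by positivity))) measureReal_nonneg)
  rw [inv_mul_le_iff₀ (by positivity)] at h5
  rw [← ofReal_measureReal]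
  refine ENNReal.ofReal_le_ofReal ?_
  have h6 : 4 * Real.pi * r ^ 2 * ((4 * Real.pi * a)⁻¹ * (μ 0).real univ) =
      1 / 2 * (2 * (μ 0).real univ / a * r ^ 2) := by
    field_simp
  have : 0 ≤ 2 * (μ 0).real univ / a * r ^ 2 := by positivity
  linarith

theorem slow_smul {N N' : ℝ → Measure E3} {τ₀ τ₁ : ℝ} (h : Slow N τ₀) (c : ℝ≥0) (h1 : τ₀ ≤ τ₁)
    (e : ∀ τ, τ₁ ≤ τ → N' τ = c • N τ) : Slow N' τ₁ where
  bdd K hK := by
    obtain ⟨C, hC⟩ := h.bdd K hK
    refine ⟨c * C, fun τ hτ => ?_⟩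
    rw [e τ hτ, Measure.smul_apply, ENNReal.coe_mul]
    exact mul_le_mul_right (hC τ (h1.trans hτ)) _
  slow φ a b k hk ε hε := by
    have c1 : (0 : ℝ) < c + 1 := by positivity
    obtain ⟨T, -, hT⟩ := h.slow φ a b k hk (ε / (c + 1)) (by positivity)
    refine ⟨max T τ₁, le_max_right _ _, fun τ τ' p q r => ?_⟩
    have h2 := (le_max_right _ _).trans p
    rw [e τ h2, e τ' (h2.trans q), integral_smul_nnreal_measure, integral_smul_nnreal_measure,
      NNReal.smul_def, NNReal.smul_def, smul_eq_mul, smul_eq_mul, ← mul_sub, abs_mul,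
      abs_of_nonneg c.coe_nonneg]
    have h3 := (le_div_iff₀ c1).1 (hT τ τ' ((le_max_left _ _).trans p) q r)
    nlinarith [abs_nonneg (∫ x, φ x ∂N τ' - ∫ x, φ x ∂N τ)]

theorem nn_smul {μ' : ℝ → Measure E3} {a b : ℝ} (hab : a < b) {c : ℝ≥0}
    (e : ∀ t ∈ Ioo a b, μ' t = c • μ t) (x₀ : E3) :
    ∀ᶠ τ in atTop, NN 2 μ' x₀ b τ = c • NN 2 μ x₀ b τ := by
  have h2 : Tendsto (fun τ => Real.exp τ ^ 2) atTop atTop :=
    (tendsto_pow_atTop two_ne_zero).comp Real.tendsto_exp_atTop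
  filter_upwards [h2.eventually_gt_atTop (1 / (b - a))] with τ hi
  have h4 : 0 < Real.exp τ ^ 2 := by positivity
  have h3 : b + -1 / Real.exp τ ^ 2 ∈ Ioo a b := by
    have h5 : 1 / Real.exp τ ^ 2 < b - a := by
      rw [div_lt_iff₀ h4]
      rw [div_lt_iff₀ (sub_pos.2 hab)] at hi
      linarith
    rw [neg_div]
    exact ⟨by linarith, by linarith [one_div_pos.2 h4]⟩
  unfold NN rescaled
  rw [e _ h3, Measure.map_smul, smul_comm]

end Slc

open Slc

theorem brf : BRF := by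
  intro μ M a b hB h0 ha hab hμ
  obtain ⟨c, hc, hcH⟩ := exists_cH
  have e : ∀ t ∈ Ioo a b, H2.restrict (M t) = c • μ t := fun t ht => by
    rw [hμ t ht, hcH, Measure.restrict_smul]
  refine ⟨⟨_, fun t ht => e t ht ▸ ar_smul (ar_B hB h0 ha ht.1.le) c⟩,
    fun s₁ s₂ t₀ x h1 h2 h3 h4 => ?_, fun x₀ => ?_, fun x₀ ν ⟨hf, l, hl, hw⟩ => ?_⟩
  · rw [e _ ⟨h1.trans_le h2, h3⟩, e _ ⟨h1, h2.trans_lt h3⟩, gs_smul, gs_smul]
    exact mul_le_mul_of_nonneg_left (gs_anti hB h0 x (ha.trans h1).le h2 h4) c.coe_nonneg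
  · obtain ⟨T, H, hB⟩ := exists_BF hB
    obtain ⟨τ, hτ⟩ := eventually_atTop.1 (nn_smul hab e x₀)
    exact ⟨max _ τ, slow_smul (slow_NN hB h0 x₀ (ha.trans hab)) c (le_max_left _ _) fun σ hσ =>
      hτ σ ((le_max_right _ _).trans hσ)⟩
  · have := hf (-1) neg_one_lt_zero
    have hl' := Real.tendsto_log_atTop.comp hl
    refine ⟨c • ν (-1), ⟨inferInstance, _, hl', fun φ p q => ?_⟩, fun A hA => ?_⟩
    · rw [integral_smul_nnreal_measure, NNReal.smul_def, smul_eq_mul]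
      refine ((hw (-1) neg_one_lt_zero φ p q).const_mul (c : ℝ)).congr' ?_
      filter_upwards [hl.eventually_gt_atTop 0, hl'.eventually (nn_smul hab e x₀)] with i h1 h2
      rw [h2, integral_smul_nnreal_measure, NNReal.smul_def, smul_eq_mul, NN, Function.comp,
        Real.exp_log h1]
    · rw [hcH, Measure.restrict_smul] at hA
      simpa [smul_smul, inv_mul_cancel₀ hc] using congrArg (fun m : Measure E3 => c⁻¹ • m) hA

end Vale.Agent.P218Z
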