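import Vale.Agent.P218Z.Spec
import Vale.Agent.P218R.Base

/-!
# P218Z: the geometry does not depend on the defining function
-/

set_option linter.all false

open MeasureTheory Metric Filter Topology Set
open scoped ContDiff ENNReal RealInnerProductSpace
open Vale.Agent.P366.Stmt (E)
open Vale.Agent.P366W (trc dvg Fr)
open Vale.Agent.P218R Vale.Agent.P218E

noncomputable section

namespace Vale.Agent.P218Z

namespace Ind

variable {S T : Srf}

theorem pt (hS : S.Ok) (hT : T.Ok) (e : S.G = T.G) {x : E3} (hx : S.w x = 0) :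
    S.A2 x = T.A2 x ∧ S.K x = T.K x ∧ (∀ v : E3, |⟪v, S.n x⟫| = |⟪v, T.n x⟫|) ∧
      ∀ (v : E3) (c : ℝ), (S.H x - ⟪v, S.n x⟫ / c) ^ 2 = (T.H x - ⟪v, T.n x⟫ / c) ^ 2 := by
  obtain ⟨ε, hε, h1⟩ := hS.same hx hT (Eventually.of_forall fun y => Set.ext_iff.1 e y)
  obtain ⟨a, -, b⟩ := h1.self_of_nhds hx
  rcases hε with rfl | rfl
  · simp only [one_smul] at a b
    simp only [Srf.A2, Srf.H, Srf.K, a, b, implies_true, and_self]
  · rw [neg_one_smul] at a
    replace b : T.A x = -S.A x := b.trans (by ext; simp)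
    simp only [Srf.A2, Srf.H, Srf.K, dt, a, b, ContinuousLinearMap.neg_comp,
      ContinuousLinearMap.comp_neg, neg_neg, trc_neg, neg_sq, true_and, inner_neg_right, abs_neg,
      implies_true]
    intro v c
    ring

theorem sign (hT : T.Ok) {y e : E3} {L : E 2 →ₗᵢ[ℝ] E3} {r ε b : ℝ} {v : E 2 → ℝ} (hr : 0 < r)
    (hy : T.w y = 0) (he : ‖e‖ = 1) (hε : ε * ε = 1) (hn : T.n y = ε • e)
    (hv : ContinuousOn v (ball 0 r)) (hv0 : v 0 = 0) (hb : |b| = r)
    (hz : ∀ p, ‖p‖ < r → |v p| < r ∧ ∀ s, |s| < r → T.w (y + L p + s • e) = 0 → s = v p)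
    {p : E 2} (hp : ‖p‖ < r) {θ : ℝ} (hθ : θ ∈ Ioo (0 : ℝ) 1) :
    0 < ε * b * T.w (y + L p + (v p + θ * (b - v p)) • e) := by
  have hb0 : b ≠ 0 := fun h => by rw [h, abs_zero] at hb; exact hr.ne hb
  have hε0 : ε ≠ 0 := fun h => by rw [h, zero_mul] at hε; exact zero_ne_one hε
  set g : E 2 × ℝ → ℝ := fun q => ε * b * T.w (y + L q.1 + (v q.1 + q.2 * (b - v q.1)) • e)
    with hg
  have hD : IsPreconnected (ball (0 : E 2) r ×ˢ Ioo (0 : ℝ) 1) :=
    ((convex_ball _ _).prod (convex_Ioo _ _)).isPreconnected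
  have hv' : ContinuousOn (fun q : E 2 × ℝ => v q.1) (ball (0 : E 2) r ×ˢ Ioo (0 : ℝ) 1) :=
    hv.comp continuousOn_fst fun q hq => hq.1
  have hc : ContinuousOn g (ball (0 : E 2) r ×ˢ Ioo (0 : ℝ) 1) :=
    continuousOn_const.mul (hT.sw.continuous.comp_continuousOn
      ((continuous_const.add (L.continuous.comp continuous_fst)).continuousOn.add
        ((hv'.add (continuousOn_snd.mul (continuousOn_const.sub hv'))).smul continuousOn_const)))
  have hne : ∀ q ∈ ball (0 : E 2) r ×ˢ Ioo (0 : ℝ) 1, g q ≠ 0 := by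
    rintro ⟨q, t⟩ ⟨h1, h2, h3⟩ h
    obtain ⟨h4, h5⟩ := hz q (mem_ball_zero_iff.1 h1)
    have h6 : |v q + t * (b - v q)| < r := by
      calc |v q + t * (b - v q)| = |(1 - t) * v q + t * b| := by congr 1; ring
        _ ≤ |(1 - t) * v q| + |t * b| := abs_add_le _ _
        _ = (1 - t) * |v q| + t * r := by
          rw [abs_mul, abs_mul, abs_of_pos (sub_pos.2 h3), abs_of_pos h2, hb]
        _ < (1 - t) * r + t * r := by
          have := mul_lt_mul_of_pos_left h4 (sub_pos.2 h3)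
          linarith
        _ = r := by ring
    have h7 := h5 _ h6 ((mul_eq_zero.1 h).resolve_left (mul_ne_zero hε0 hb0))
    have h8 : t * (b - v q) = 0 := by linarith
    have h9 : b = v q := sub_eq_zero.1 ((mul_eq_zero.1 h8).resolve_left (ne_of_gt h2))
    rw [← h9, hb] at h4
    exact lt_irrefl _ h4
  obtain ⟨t, ht, ht'⟩ : ∃ t ∈ Ioo (0 : ℝ) 1, 0 < g (0, t) := by
    have h1 : HasDerivAt (fun t : ℝ => y + (t * b) • e) (b • e) 0 := by
      simpa using (((hasDerivAt_id (0 : ℝ)).mul_const b).smul_const e).const_add y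
    have h2 : HasFDerivAt T.w (fderiv ℝ T.w y) (y + ((0 : ℝ) * b) • e) := by
      simpa using (hT.dw y).hasFDerivAt
    have h3 := (h2.comp_hasDerivAt (0 : ℝ) h1).const_mul (ε * b)
    have h4 : 0 < ε * b * fderiv ℝ T.w y (b • e) := by
      rw [hT.fderiv_w hy, hn, real_inner_smul_left, real_inner_smul_right,
        real_inner_self_eq_norm_sq, he]
      calc 0 < ‖gradient T.w y‖ * b ^ 2 := mul_pos (hT.gpos hy) (by positivity)
        _ = ‖gradient T.w y‖ * b ^ 2 * (ε * ε) := by rw [hε, mul_one]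
        _ = _ := by ring
    have h5 := eventually_nhdsWithin_sign_eq_of_deriv_pos (h3.deriv ▸ h4) (by simp [hy])
    obtain ⟨t, h6, h7⟩ := ((h5.filter_mono (nhdsWithin_le_nhds (s := Ioi 0))).and
      (Ioo_mem_nhdsGT one_pos)).exists
    refine ⟨t, h7, ?_⟩
    rw [sub_zero, sign_pos h7.1, sign_eq_one_iff] at h6
    simpa [hg, hv0] using h6
  by_contra hlt
  have h1 := hD.intermediate_value (a := (p, θ)) (b := (0, t)) ⟨mem_ball_zero_iff.2 hp, hθ⟩
    ⟨mem_ball_self hr, ht⟩ hc ⟨not_lt.1 hlt, ht'.le⟩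
  obtain ⟨q, h2, h3⟩ := h1
  exact hne q h2 h3

theorem reg (hS : S.Ok) (hT : T.Ok) {y : E3} {L : E 2 →ₗᵢ[ℝ] E3} {r : ℝ} {C : ℕ → ℝ} (hr : 0 < r)
    (hy : S.w y = 0) (h : ∀ z ∈ ball y (2 * r), S.w z = 0 ↔ T.w z = 0) (hF : Fr (S.n y) L)
    (hR : S.Reg y (S.n y) L r C) : Fr (T.n y) L ∧ T.Reg y (T.n y) L r C := by
  obtain ⟨v, hv, hG, hC⟩ := hR
  have hy2 : y ∈ ball y (2 * r) := mem_ball_self (by linarith)
  obtain ⟨ε, hε, h1⟩ := hS.same hy hT (mem_of_superset (isOpen_ball.mem_nhds hy2) h)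
  have hn : T.n y = ε • S.n y := (h1.self_of_nhds hy).1
  have hε2 : ε * ε = 1 := by rcases hε with rfl | rfl <;> norm_num
  have hv0 : v 0 = 0 := by
    have := ((hG 0 (by simpa using hr)).2 0 (by simpa using hr)).2.1 (by simpa using hy)
    exact this.symm
  have hz : ∀ p, ‖p‖ < r → ∀ s, |s| < r → (T.w (y + L p + s • S.n y) = 0 ↔ s = v p) := by
    intro p hp s hs
    rw [← ((hG p hp).2 s hs).2]
    refine (h _ (mem_ball_iff_norm.2 ?_)).symm
    rw [add_assoc, add_sub_cancel_left]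
    refine (norm_add_le _ _).trans_lt ?_
    rw [L.norm_map, norm_smul, hF.one, Real.norm_eq_abs]
    linarith
  have hs := fun (b : ℝ) (hb : |b| = r) (p : E 2) (hp : ‖p‖ < r) (θ : ℝ)
      (hθ : θ ∈ Ioo (0 : ℝ) 1) => sign hT hr ((h y hy2).1 hy) hF.one hε2 hn hv.continuousOn hv0 hb
    (fun p hp => ⟨(hG p hp).1, fun s hs => (hz p hp s hs).1⟩) hp hθ
  have hup : ∀ p, ‖p‖ < r → ∀ s, |s| < r → v p < s → 0 < ε * T.w (y + L p + s • S.n y) := by
    intro p hp s h2 h3
    have h4 : 0 < r - v p := by linarith [(abs_lt.1 (hG p hp).1).2]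
    have h5 := hs r (abs_of_pos hr) p hp ((s - v p) / (r - v p)) ⟨div_pos (sub_pos.2 h3) h4,
      (div_lt_one h4).2 (by linarith [(abs_lt.1 h2).2])⟩
    rw [div_mul_cancel₀ _ h4.ne', add_sub_cancel, mul_right_comm] at h5
    exact (mul_pos_iff_of_pos_right hr).1 h5
  have hlo : ∀ p, ‖p‖ < r → ∀ s, |s| < r → s < v p → ε * T.w (y + L p + s • S.n y) < 0 := by
    intro p hp s h2 h3
    have h4 : -r - v p < 0 := by linarith [(abs_lt.1 (hG p hp).1).1]
    have h5 := hs (-r) (by rw [abs_neg, abs_of_pos hr]) p hp ((s - v p) / (-r - v p))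
      ⟨div_pos_of_neg_of_neg (sub_neg.2 h3) h4,
        (div_lt_one_of_neg h4).2 (by linarith [(abs_lt.1 h2).1])⟩
    rw [div_mul_cancel₀ _ h4.ne, add_sub_cancel, mul_right_comm] at h5
    nlinarith
  rcases hε with rfl | rfl
  · rw [one_smul] at hn
    rw [hn]
    refine ⟨hF, v, hv, fun p hp => ⟨(hG p hp).1, fun s h2 => ⟨⟨fun h3 => ?_, fun h3 => ?_⟩,
      hz p hp s h2⟩⟩, hC⟩
    · rcases lt_trichotomy s (v p) with h4 | h4 | h4
      · exact h4
      · linarith [(hz p hp s h2).2 h4]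
      · linarith [hup p hp s h2 h4]
    · linarith [hlo p hp s h2 h3]
  · rw [neg_one_smul] at hn
    rw [hn]
    refine ⟨⟨by rw [norm_neg, hF.one], fun p => by rw [inner_neg_left, hF.ort, neg_zero]⟩,
      fun p => -v p, hv.neg, fun p hp => ⟨by rw [abs_neg]; exact (hG p hp).1, fun s h2 => ?_⟩,
      fun k p hp => ?_⟩
    · have h3 : |-s| < r := by rwa [abs_neg]
      rw [smul_neg, ← neg_smul]
      refine ⟨⟨fun h4 => ?_, fun h4 => ?_⟩, (hz p hp _ h3).trans neg_eq_iff_eq_neg⟩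
      · rcases lt_trichotomy (-s) (v p) with h5 | h5 | h5
        · linarith [hlo p hp _ h3 h5]
        · linarith [(hz p hp _ h3).2 h5]
        · show s < -v p
          linarith
      · have h5 : s < -v p := h4
        linarith [hup p hp _ h3 (by linarith)]
    · have : (fun p => -v p) = -v := rfl
      rw [this, iteratedFDeriv_neg_apply, norm_neg]
      exact hC k p hp

end Ind

theorem ind : IND := by
  intro S T hS hT
  refine ⟨fun e => ?_, fun y L r C hr hy h hF hR => Ind.reg hS hT hr hy h hF hR⟩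
  have hμ : S.μ = T.μ := by rw [Srf.μ, Srf.μ, e]
  have h1 : ∀ s : Set E3, ∫ x in s, S.A2 x ∂S.μ = ∫ x in s, T.A2 x ∂T.μ := fun s => by
    rw [← hμ]
    exact integral_congr_ae ((hS.ae_set s).mono fun x hx => (Ind.pt hS hT e hx).1)
  have h2 : ∀ s : Set E3, ∫ x in s, S.H x ^ 2 ∂S.μ = ∫ x in s, T.H x ^ 2 ∂T.μ := fun s => by
    rw [← hμ]
    refine integral_congr_ae ((hS.ae_set s).mono fun x hx => ?_)
    simpa using (Ind.pt hS hT e hx).2.2.2 0 1
  refine ⟨hμ, fun R => ?_, fun x hx r => ?_, fun G => ?_, fun x hx => ?_⟩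
  · rw [dsb, dsb, ← hμ]
    refine lintegral_congr_ae ((hS.ae_set _).mono fun x hx => ?_)
    exact congrArg ENNReal.ofReal ((Ind.pt hS hT e hx).2.2.2 x 2)
  · simp only [P218E.Pair, e, (Ind.pt hS hT e hx).2.2.1]
  · simp only [Srf.GBd, h1, h2]
  · obtain ⟨a, b, -, c⟩ := Ind.pt hS hT e hx
    exact ⟨a, b, c⟩

end Vale.Agent.P218Z
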