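import Vale.Agent.P218Z.Spec
import Vale.Agent.P218R.Base

/-!
# P218Z: smooth families of surfaces
-/

open MeasureTheory Metric Filter Topology Set
open scoped ContDiff ENNReal RealInnerProductSpace
open Vale.Agent.P218R Vale.Agent.P218R.Flw

noncomputable section

namespace Vale.Agent.P218Z

variable {F : Flw} {a b s t ρ σ : ℝ} {y e : E3} {B : Set E3}

namespace Pre

theorem sl (h : Pre F a b) (ht : t ∈ Ioo a b) : (F.sl t).Ok where
  sw := slice h.su ht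
  sn := slice h.sn ht
  reg := h.reg t ht
  nrm x hx := (continuous_const.prodMk continuous_id).continuousAt.eventually (h.nrm t ht x hx)

theorem mono (h : Pre F a b) {c d : ℝ} (hc : a ≤ c) (hd : d ≤ b) : Pre F c d :=
  have s := Ioo_subset_Ioo hc hd
  ⟨h.su.mono (prod_mono_left s), h.sn.mono (prod_mono_left s), fun t ht => h.reg t (s ht),
    fun t ht => h.nrm t (s ht)⟩

theorem sg (h : Pre F a b) :
    ContDiffOn ℝ ∞ (fun p : ℝ × E3 => gradient (F.sl p.1).w p.2) (Ioo a b ×ˢ univ) :=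
  sm_grad h.su (by simp)

theorem cu (h : Pre F a b) (ht : t ∈ Ioo a b) (z : E3) : ContinuousAt F.u (t, z) :=
  (h.su.contDiffAt (mem_dom ht z)).continuousAt

theorem cn (h : Pre F a b) (ht : t ∈ Ioo a b) (z : E3) : ContinuousAt F.n (t, z) :=
  (h.sn.contDiffAt (mem_dom ht z)).continuousAt

theorem line (h : Pre F a b) (ht : t ∈ Ioo a b) (p z : E3) (c : ℝ) :
    HasDerivAt (fun c : ℝ => F.u (t, p + c • z)) (fderiv ℝ (F.sl t).w (p + c • z) z) c :=
  ((h.sl ht).dw _).hasFDerivAt.comp_hasDerivAt c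
    (by simpa using ((hasDerivAt_id c).smul_const z).const_add p)

theorem ev_tilt (h : Pre F a b) (hs : s ∈ Ioo a b) {K : Set E3} (hK : IsCompact K) {σ' : ℝ}
    (hσ : σ < σ') (ht : ∀ z ∈ K, F.u (s, z) = 0 → ‖F.n (s, z) - e‖ ≤ σ) :
    ∀ᶠ t in 𝓝 s, ∀ z ∈ K, F.u (t, z) = 0 → ‖F.n (t, z) - e‖ ≤ σ' := by
  refine hK.eventually_forall_of_forall_eventually fun z hz => ?_
  by_cases h0 : F.u (s, z) = 0
  · exact (((h.cn hs z).sub continuousAt_const).norm.eventually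
      (gt_mem_nhds ((ht z hz h0).trans_lt hσ))).mono fun _ h1 _ => h1.le
  · exact ((h.cu hs z).eventually_ne h0).mono fun _ h1 h2 => absurd h2 h1

theorem ev_zero (h : Pre F a b) (hs : s ∈ Ioo a b) (h0 : F.u (s, y) = 0) (hρ : 0 < ρ) :
    ∀ᶠ t in 𝓝 s, ∃ q ∈ ball y ρ, F.u (t, q) = 0 := by
  have hd := h.line hs y (F.n (s, y)) 0
  have hS := h.sl hs
  have e1 : (F.sl s).w y = 0 := h0
  have e2 : ‖F.n (s, y)‖ = 1 := hS.norm_n e1
  rw [zero_smul, add_zero, hS.fderiv_w e1] at hd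
  have hp : 0 < ‖gradient (F.sl s).w y‖ * ⟪(F.sl s).n y, F.n (s, y)⟫ :=
    mul_pos (hS.gpos e1) (by rw [show F.n (s, y) = (F.sl s).n y from rfl, hS.nn e1]; exact one_pos)
  obtain ⟨c, c1, c2⟩ := ((hd.tendsto_slope_zero_right.eventually (lt_mem_nhds hp)).and
    (Ioo_mem_nhdsGT hρ)).exists
  obtain ⟨d, d1, d2⟩ := ((hd.tendsto_slope_zero_left.eventually (lt_mem_nhds hp)).and
    (Ioo_mem_nhdsLT (neg_lt_zero.2 hρ))).exists
  simp only [zero_add, zero_smul, add_zero, h0, sub_zero, smul_eq_mul] at c1 d1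
  have c3 : 0 < F.u (s, y + c • F.n (s, y)) := (mul_pos_iff_of_pos_left (inv_pos.2 c2.1)).1 c1
  have d3 : F.u (s, y + d • F.n (s, y)) < 0 := by
    by_contra! d4
    exact absurd d1 (not_lt.2 (mul_nonpos_of_nonpos_of_nonneg (inv_nonpos.2 d2.2.le) d4))
  have k : ∀ z, ContinuousAt (fun t => F.u (t, z)) s := fun z =>
    ContinuousAt.comp (f := fun t => (t, z)) (h.cu hs z) (by fun_prop)
  filter_upwards [(k _).eventually (lt_mem_nhds c3), (k _).eventually (gt_mem_nhds d3),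
    Ioo_mem_nhds hs.1 hs.2] with t t1 t2 t3
  obtain ⟨x, x1, x2⟩ := intermediate_value_Icc (d2.2.trans c2.1).le
    (fun x _ => (h.line t3 y (F.n (s, y)) x).continuousAt.continuousWithinAt) ⟨t2.le, t1.le⟩
  refine ⟨_, ?_, x2⟩
  rw [mem_ball_iff_norm, add_sub_cancel_left, norm_smul, e2, mul_one]
  exact abs_lt.2 ⟨d2.1.trans_le x1.1, x1.2.trans_lt c2.2⟩

theorem of {u : ℝ × E3 → ℝ} (su : ContDiffOn ℝ ∞ u (Ioo a b ×ˢ univ))
    (reg : ∀ t ∈ Ioo a b, ∀ x, u (t, x) = 0 → gradient (fun x => u (t, x)) x ≠ 0) :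
    Pre (Flw.of u) a b where
  su := su
  sn := (of_sq su reg).smul (sm_grad su (by simp))
  reg := reg
  nrm t ht x hx := (of_ev su ht hx (reg t ht x hx)).mono fun p e => by
    simp only [Flw.of, e]; rfl

end Pre

theorem OkL.mono (h : OkL F a b B) {c d : ℝ} {B' : Set E3} (hc : a ≤ c) (hd : d ≤ b)
    (hB : B' ⊆ B) : OkL F c d B' :=
  ⟨h.toPre.mono hc hd, fun t ht x hx => h.eq t (Ioo_subset_Ioo hc hd ht) x (hB hx)⟩

theorem mem_trk : y ∈ trk F t ↔ F.u (t, y) = 0 := Iff.rfl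

theorem mu_trk (F : Flw) (t : ℝ) : F.μ t = H2.restrict (trk F t) := rfl

theorem rs_time (t₀ τ : ℝ) : t₀ + -1 / Real.exp τ ^ 2 = t₀ - Real.exp (-2 * τ) := by
  rw [← Real.exp_nat_mul, neg_div, one_div, ← Real.exp_neg, ← sub_eq_add_neg]
  norm_num

theorem rsl_eq (F : Flw) (x₀ : E3) (t₀ τ : ℝ) :
    F.rsl x₀ t₀ τ = (F.sl (t₀ - Real.exp (-2 * τ))).sc x₀ (Real.exp τ) := by
  rw [← rs_time]; rfl

variable {Λ G ε c d : ℝ}

theorem Zc.mono' (h : Zc F a b Λ G) (hc : a ≤ c) (hd : d ≤ b) : Zc F c d Λ G :=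
  have s := Ioo_subset_Ioo hc hd
  ⟨fun c' d' h1 h2 => h.cpt c' d' (hc.trans_lt h1) (h2.trans_le hd),
    fun c' d' h1 h2 => h.cov c' d' (hc.trans_lt h1) (h2.trans_le hd),
    fun t ht => h.ok t (s ht), fun t ht => h.ar t (s ht)⟩

end Vale.Agent.P218Z
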