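import Vale.Agent.P218Z.Spec
import Vale.Agent.P218R.Rsc

/-!
# P218Z, row RSZ: rescaling
-/

open MeasureTheory Metric Filter Topology Set
open scoped ContDiff ENNReal RealInnerProductSpace
open Vale.Agent.P366W (dvg)
open Vale.Agent.P218R

noncomputable section

namespace Vale.Agent.P218Z

namespace Rsz

variable {M : ℝ → Set E3} {F : Flw} {x₀ y : E3} {t₀ l s a b Λ G : ℝ}

/-- the rescaled track -/
def sc (M : ℝ → Set E3) (x₀ : E3) (t₀ l s : ℝ) : Set E3 :=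
  {y | x₀ + l⁻¹ • y ∈ M (t₀ + s / l ^ 2)}

theorem reg (hl : 0 < l) (h : RegPt M (t₀ + s / l ^ 2) (x₀ + l⁻¹ • y)) :
    RegPt (sc M x₀ t₀ l) s y := by
  obtain ⟨u, h1, h2, h3⟩ := h
  have c : ContDiff ℝ ∞ fun p : ℝ × E3 => (t₀ + p.1 / l ^ 2, x₀ + l⁻¹ • p.2) := by fun_prop
  have i0 := inv_pos.2 hl
  refine ⟨fun s y => u (t₀ + s / l ^ 2) (x₀ + l⁻¹ • y), h1.comp c, ?_, ?_⟩
  · rw [gradient_sc]
    exact smul_ne_zero i0.ne' h2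
  filter_upwards [(c.continuous.tendsto (s, y)).eventually h3] with p hp
  refine ⟨hp.1, fun hm => ?_⟩
  have e : ∀ s : ℝ, s / l ^ 2 = (l ^ 2)⁻¹ * s := fun s => div_eq_inv_mul _ _
  have := hp.2 hm
  simp only [gradient_sc, unit_smul i0, e] at this ⊢
  rw [deriv_comp_mul_left (f := fun s => u (t₀ + s) (x₀ + l⁻¹ • p.2)),
    deriv_comp_const_add (f := fun s => u s (x₀ + l⁻¹ • p.2)), this, norm_smul,
    Real.norm_of_nonneg i0.le, dvg, dvg, fderiv_sc fun z => ‖gradient (u _) z‖⁻¹ • gradient (u _) z]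
  simp only [smul_apply, PiLp.smul_apply, smul_eq_mul, ← Finset.mul_sum]
  ring

theorem reg_iff (hl : 0 < l) :
    RegPt (sc M x₀ t₀ l) s y ↔ RegPt M (t₀ + s / l ^ 2) (x₀ + l⁻¹ • y) := by
  refine ⟨fun h => ?_, reg hl⟩
  have e1 : ∀ y, x₀ + l⁻¹ • (-(l • x₀) + l⁻¹⁻¹ • y) = y := fun y => by simp [smul_smul, hl.ne']
  have e2 : ∀ t, t₀ + (-(l ^ 2 * t₀) + t / l⁻¹ ^ 2) / l ^ 2 = t := fun t => by field_simp; ring
  have e3 : sc (sc M x₀ t₀ l) (-(l • x₀)) (-(l ^ 2 * t₀)) l⁻¹ = M :=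
    funext fun t => Set.ext fun y => by simp only [sc, mem_ofPred_eq, e1, e2]
  rw [← e3]
  refine reg (inv_pos.2 hl) ?_
  convert h using 1
  · field_simp; ring
  · simp [smul_smul, hl.ne']

theorem regT (hl : 0 < l) : RegT (sc M x₀ t₀ l) s ↔ RegT M (t₀ + s / l ^ 2) :=
  ⟨fun h x hx => by
    rw [← sc_left x₀ hl x] at hx ⊢
    exact (reg_iff hl).1 (h _ hx), fun h y hy => reg hl (h _ hy)⟩

theorem sing (hl : 0 < l) {p : ℝ × E3} (h : p ∈ Sing (sc M x₀ t₀ l)) :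
    (t₀ + p.1 / l ^ 2, x₀ + l⁻¹ • p.2) ∈ Sing M := ⟨h.1, fun a => h.2 (reg hl a)⟩

theorem lt (hl : 0 < l) {s' : ℝ} (h : s < s') : t₀ + s / l ^ 2 < t₀ + s' / l ^ 2 := by gcongr

theorem le (hl : 0 < l) {s' : ℝ} : t₀ + s / l ^ 2 ≤ t₀ + s' / l ^ 2 ↔ s ≤ s' := by
  rw [add_le_add_iff_left, div_le_div_iff_of_pos_right (pow_pos hl 2)]

theorem lo (hl : 0 < l) (h : l ^ 2 * (a - t₀) < s) : a < t₀ + s / l ^ 2 := by
  rwa [← sub_lt_iff_lt_add', lt_div_iff₀' (pow_pos hl 2)]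

theorem hi (hl : 0 < l) (h : s < l ^ 2 * (b - t₀)) : t₀ + s / l ^ 2 < b := by
  rwa [← lt_sub_iff_add_lt', div_lt_iff₀' (pow_pos hl 2)]

theorem gs_rs (hl : 0 < l) (s' : ℝ) : gs ((F.rs x₀ t₀ l).μ s) y √(s' - s) =
    gs (F.μ (t₀ + s / l ^ 2)) (x₀ + l⁻¹ • y) √(t₀ + s' / l ^ 2 - (t₀ + s / l ^ 2)) := by
  rw [add_sub_add_left_eq_sub, ← sub_div, Real.sqrt_div' _ (sq_nonneg l), Real.sqrt_sq hl.le]
  exact gs_sc (F.sl (t₀ + s / l ^ 2)) x₀ hl y _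

theorem zc (hl : 0 < l) (h : Zc F a b Λ G) :
    Zc (F.rs x₀ t₀ l) (l ^ 2 * (a - t₀)) (l ^ 2 * (b - t₀)) Λ G := by
  have l2 := pow_pos hl 2
  refine ⟨fun c d hc hd => ?_, fun c d hc hd δ δ0 => ?_, fun s hs hr => ?_,
    fun s hs => AR.sc (S := F.sl _) (h.ar _ ((rs_mem hl).1 hs)) x₀ hl⟩
  · convert (((Homeomorph.mulRight₀ _ (inv_ne_zero l2.ne')).trans (Homeomorph.addLeft t₀)).prodCongr
      (scE x₀ hl).symm).isCompact_preimage.2 (h.cpt _ _ (lo hl hc) (hi hl hd)) using 1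
    exact Set.ext fun p => and_congr (and_congr (le hl).symm (le hl).symm) Iff.rfl
  · classical
    obtain ⟨T, h1, h2, h3⟩ := h.cov _ _ (lo hl hc) (hi hl hd) _ (div_pos δ0 l2)
    refine ⟨T.image fun q => ((l ^ 2 * (q.1.1 - t₀), l • (q.1.2 - x₀)), l * q.2),
      Finset.forall_mem_image.2 fun q hq => mul_pos hl (h1 q hq), fun p hp => ?_,
      (Finset.sum_image_le_of_nonneg fun _ _ => sq_nonneg _).trans ?_⟩
    · obtain ⟨q, hq, a1, a2⟩ := mem_iUnion₂.1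
        (h2 ⟨sing hl hp.1, ⟨(le hl).2 hp.2.1.1, (le hl).2 hp.2.1.2⟩, trivial⟩)
      refine mem_iUnion₂.2 ⟨_, Finset.mem_image_of_mem _ hq, ?_, ?_⟩
      · convert (rs_mem hl).2 a1 using 2 <;> ring
      · rw [mem_ball_iff_norm'] at a2 ⊢
        exact (sc_dist x₀ hl _ _).trans_lt (mul_lt_mul_of_pos_left a2 hl)
    · simp only [mul_pow, ← Finset.mul_sum]
      exact (le_div_iff₀' l2).1 h3
  · have := h.ok _ ((rs_mem hl).1 hs) ((regT hl).1 hr)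
    exact ⟨this.1.sc x₀ hl, this.2.sc x₀ hl⟩

theorem zm (hl : 0 < l) (h : Zm F a b Λ G) :
    Zm (F.rs x₀ t₀ l) (l ^ 2 * (a - t₀)) (l ^ 2 * (b - t₀)) Λ G :=
  ⟨zc hl h.toZc, fun s₁ s₂ t x h1 h2 h3 h4 => by
    rw [gs_rs hl, gs_rs hl]
    exact h.mono _ _ _ _ (lo hl h1) ((le hl).2 h2) (hi hl h3) (lt hl h4),
  fun s t y h1 h2 h3 h4 => by
    rw [gs_rs hl]
    exact h.ld _ _ _ (lo hl h1) (lt hl h2) (hi hl h3) h4⟩

end Rsz

theorem rsz : RSZ := fun F _ _ _ _ _ _ _ hl =>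
  ⟨fun _ _ => Rsz.reg_iff (M := trk F) hl, fun _ => Rsz.regT (M := trk F) hl, Rsz.zc hl, Rsz.zm hl,
    fun _ h => ⟨Rsz.zm hl h.toZm, fun s t y h1 h2 h3 h4 => by
      rw [Rsz.gs_rs hl]
      exact h.gap _ _ _ (Rsz.lo hl h1) (Rsz.lt hl h2) (Rsz.hi hl h3)
        (Rsz.sing (M := trk F) hl h4)⟩⟩

end Vale.Agent.P218Z
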