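import Vale.Agent.P218Z.Spec
import Vale.Agent.P218R.All1

/-!
# P218Z, row CHI: the total curvature and the degree (helper80)
-/

set_option linter.all false

open MeasureTheory Metric Filter Topology Set
open scoped ContDiff ENNReal RealInnerProductSpace
open Vale.Agent.P218R Vale.Agent.P218R.Dg

noncomputable section

namespace Vale.Agent.P218Z

namespace Chi

variable {S : Srf}

/-- the signed area formula -/
theorem sgn (h : S.Ok) (hG : IsCompact S.G) {g : E3 → ℝ} (hg : Continuous g)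
    (hc : HasCompactSupport g) :
    ∫ x, (∫ s, g (x + s • S.n x) * S.J x s) ∂S.μ = (∫ y, g y) * S.chi := by
  haveI := (low' S h).1
  haveI := Dg.fin h hG
  obtain ⟨l1, a1⟩ := Dg.area ar3' fin' h hG (σ := 1) abs_one
  obtain ⟨l2, a2⟩ := Dg.area ar3' fin' h hG (σ := -1) (by simp)
  have e : ∀ y, (NN S 1 y).toReal - (NN S (-1) y).toReal =
      ((S.ext (dq y)).ncard : ℝ) - (S.sad (dq y)).ncard := fun y => by
    simp only [NN, toReal_enc, one_mul, neg_one_mul, neg_pos, Srf.ext, Srf.sad]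
  have D : ∫ p, g (ex S p) * S.J p.1 p.2 ∂S.μ.prod volume =
      ∫ y, g y * ((NN S 1 y).toReal - (NN S (-1) y).toReal) := by
    have i : ∀ σ : ℝ, Integrable (fun p => g (ex S p) * max (σ * S.J p.1 p.2) 0)
        (S.μ.prod volume) := fun σ =>
      integ h hG ((hg.comp (cont_ex h)).mul ((continuous_const.mul (cont_J h)).max
        continuous_const)) hc fun p hp => by simp [image_eq_zero_of_notMem_tsupport hp]
    simp only [mul_sub]
    refine Eq.trans ?_ (integral_sub (l1.integrable_smul_left_of_hasCompactSupport hg hc)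
      (l2.integrable_smul_left_of_hasCompactSupport hg hc)).symm
    simp only [smul_eq_mul]
    rw [← a1 g hg, ← a2 g hg, ← integral_sub (i 1) (i (-1))]
    simp only [← mul_sub, one_mul, neg_one_mul, max_zero_sub_max_neg_zero_eq_self]
  refine (integral_prod (fun p => g (ex S p) * S.J p.1 p.2) (integ h hG
    ((hg.comp (cont_ex h)).mul (cont_J h)) hc fun p hp => by
      simp [image_eq_zero_of_notMem_tsupport hp])).symm.trans (D.trans ?_)
  rw [← integral_mul_const]
  exact integral_congr_ae ((deg' S h hG).mono fun y hy => congrArg (g y * ·) ((e y).trans hy))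

/-- the profile -/
def ph (r : ℝ) : ℝ := max (1 - r) 0

theorem ph0 {r : ℝ} (h : 1 ≤ r) : ph r = 0 := max_eq_right (by linarith)

theorem cph : Continuous fun y : E3 => ph ‖y‖ :=
  (continuous_const.sub continuous_norm).max continuous_const

theorem sph {ε : ℝ} (h : 0 < ε) : HasCompactSupport fun y : E3 => ph ‖ε • y‖ :=
  HasCompactSupport.intro (isCompact_closedBall 0 ε⁻¹) fun y hy => ph0 (by
    rw [mem_closedBall_zero_iff, not_le] at hy
    rw [norm_smul, Real.norm_of_nonneg h.le, ← div_le_iff₀' h, one_div]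
    exact hy.le)

theorem int3 : ∫ y : E3, ph ‖y‖ = 4 * Real.pi * ∫ r in Ioi (0 : ℝ), r ^ 2 * ph r := by
  rw [integral_fun_norm_addHaar volume ph, Measure.real, EuclideanSpace.volume_ball_fin_three]
  simp only [finrank_euclideanSpace, Fintype.card_fin, ENNReal.ofReal_one, one_pow, one_mul,
    ENNReal.toReal_ofReal (by positivity : 0 ≤ Real.pi * 4 / 3), smul_eq_mul, nsmul_eq_mul]
  push_cast
  ring_nf

theorem pos3 : 0 < ∫ y : E3, ph ‖y‖ :=
  cph.integral_pos_of_hasCompactSupport_nonneg_nonzero (x := 0) (by simpa using sph one_pos)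
    (fun _ => le_max_right _ _) (by simp [ph])

/-- the rescaled integrand -/
def ff (S : Srf) (ε : ℝ) (p : E3 × ℝ) : ℝ :=
  ph ‖ε • p.1 + p.2 • S.n p.1‖ * (ε ^ 2 + ε * p.2 * S.H p.1 + p.2 ^ 2 * S.K p.1)

theorem cff (h : S.Ok) : Continuous (ff S).uncurry := by
  have c1 := h.sn.continuous
  have c2 := h.sH.continuous
  have c3 := h.sK.continuous
  refine (cph.comp (f := fun q : ℝ × E3 × ℝ => q.1 • q.2.1 + q.2.2 • S.n q.2.1) ?_).mul ?_ <;>
    fun_prop

theorem scale (h : S.Ok) (hG : IsCompact S.G) {ε : ℝ} (e0 : 0 < ε) :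
    ∫ x, (∫ s, ff S ε (x, s)) ∂S.μ = (∫ y : E3, ph ‖y‖) * S.chi := by
  have a := sgn h hG (g := fun y => ph ‖ε • y‖) (cph.comp (continuous_const_smul ε)) (sph e0)
  have b (x : E3) : ∫ s, ff S ε (x, s) = ε ^ 3 * ∫ s, ph ‖ε • (x + s • S.n x)‖ * S.J x s := by
    have := Measure.integral_comp_mul_left (fun s => ff S ε (x, s)) ε
    rw [abs_of_pos (inv_pos.2 e0), smul_eq_mul, eq_inv_mul_iff_mul_eq₀ e0.ne'] at this
    rw [← this, pow_succ', mul_assoc, ← integral_const_mul (ε ^ 2)]
    congr 2 with s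
    simp only [ff, Srf.J, smul_add, smul_smul]
    ring
  rw [Measure.integral_comp_smul volume (fun y : E3 => ph ‖y‖) ε] at a
  simp only [b, integral_const_mul, a, finrank_euclideanSpace, Fintype.card_fin, smul_eq_mul]
  rw [abs_of_pos (by positivity)]
  field_simp

theorem zero (h : S.Ok) : ∫ x, (∫ s, ff S 0 (x, s)) ∂S.μ =
    (2 * ∫ r in Ioi (0 : ℝ), r ^ 2 * ph r) * ∫ x, S.K x ∂S.μ := by
  rw [← integral_const_mul, ← integral_comp_abs (f := fun r => r ^ 2 * ph r)]
  refine h.int_congr fun x hx => ?_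
  rw [← integral_mul_const]
  congr 1 with s
  simp only [ff, zero_smul, zero_add, norm_smul, h.norm_n hx, Real.norm_eq_abs, sq_abs]
  ring

end Chi

open Chi

/-- **row CHI** -/
theorem chi' : CHI := fun S h hG => by
  haveI := (low' S h).1
  haveI := Dg.fin h hG
  obtain ⟨R, hR⟩ := hG.isBounded.exists_norm_le
  have hC := hG.prod (isCompact_closedBall (0 : ℝ) (1 + R))
  have c := continuous_parametric_integral_of_continuous (μ := S.μ.prod volume) (cff h) hC
  have e : ∀ ε ∈ Icc (0 : ℝ) 1, ∫ p in S.G ×ˢ closedBall (0 : ℝ) (1 + R), ff S ε p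
      ∂S.μ.prod volume = ∫ x, (∫ s, ff S ε (x, s)) ∂S.μ := fun ε hε => by
    have z : ∀ᵐ p ∂S.μ.prod (volume : Measure ℝ),
        p ∉ S.G ×ˢ closedBall (0 : ℝ) (1 + R) → ff S ε p = 0 := (ae_G h).mono fun p hp hn => by
      have h1 : 1 + R < |p.2| := not_le.1 fun k => hn ⟨hp, mem_closedBall_zero_iff.2 k⟩
      have h2 := norm_sub_le (ε • p.1 + p.2 • S.n p.1) (ε • p.1)
      rw [add_sub_cancel_left, norm_smul, h.norm_n hp, mul_one, norm_smul,
        Real.norm_of_nonneg hε.1, Real.norm_eq_abs] at h2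
      have h3 : ε * ‖p.1‖ ≤ R := (mul_le_of_le_one_left (norm_nonneg _) hε.2).trans (hR _ hp)
      rw [ff, ph0 (by linarith), zero_mul]
    rw [setIntegral_eq_integral_of_ae_compl_eq_zero z]
    exact integral_prod _ ((((cff h).comp (Continuous.prodMk_right ε)).continuousOn
      |>.integrableOn_compact hC).integrable_of_ae_notMem_eq_zero z)
  have t : Tendsto (fun ε => ∫ p in S.G ×ˢ closedBall (0 : ℝ) (1 + R), ff S ε p
      ∂S.μ.prod volume) (𝓝[>] 0) (𝓝 ((∫ y : E3, ph ‖y‖) * S.chi)) :=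
    tendsto_const_nhds.congr' (mem_of_superset (Ioc_mem_nhdsGT one_pos) fun ε hε =>
      ((e ε ⟨hε.1.le, hε.2⟩).trans (scale h hG hε.1)).symm)
  have k := tendsto_nhds_unique ((c.tendsto 0).mono_left nhdsWithin_le_nhds) t
  have p := pos3
  rw [e 0 ⟨le_rfl, zero_le_one⟩, zero h, int3] at k
  rw [int3] at p
  have c0 : (∫ r in Ioi (0 : ℝ), r ^ 2 * ph r) ≠ 0 := fun k => by simp [k] at p
  refine mul_left_cancel₀ c0 ?_
  linear_combination k / 2

end Vale.Agent.P218Z
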