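import Vale.Agent.P218Z.Pre

/-!
# P218Z: tangent flows of flows with a small singular set
-/

open MeasureTheory Metric Filter Topology Set
open scoped ContDiff ENNReal RealInnerProductSpace
open Vale.Agent.P218R Vale.Agent.P218E

noncomputable section

namespace Vale.Agent.P218Z

theorem cl3 (top : TOP) (slc : SLC) (brf : BRF) (gbz : GBZ) (ldz : LDZ) (gap : GAP) (tfz : TFZ) :
    CL3 := by
  intro μ M a b x₀ ν hB h0 b0 hab hM hμ hν
  obtain ⟨c, c0, ac, cb⟩ : ∃ c, 0 < c ∧ a < c ∧ c < b := by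
    obtain ⟨c, h1, h2⟩ := exists_between (max_lt hab b0)
    exact ⟨c, (le_max_right _ _).trans_lt h1, (le_max_left _ _).trans_lt h1, h2⟩
  have sub : Ioo c b ⊆ Ioo a b := Ioo_subset_Ioo_left ac.le
  obtain ⟨F, hF, ok⟩ := slc M
  obtain rfl : trk F = M := funext hF
  obtain ⟨⟨Λ, ar⟩, mono, slow, lim⟩ := brf μ _ c b hB h0 c0 cb fun t ht => hμ t (sub ht)
  obtain ⟨g, hg⟩ := hM.genus
  obtain ⟨G, hG⟩ := gbz Λ g
  obtain ⟨cp, -, -, -, -, cov⟩ := top.2.1 _ a b hM.cpt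
  have hc : Zc F c b Λ G := ⟨fun c' d h1 => hM.cpt c' d (ac.trans h1),
    fun c' d h1 => cov hM.small c' d (ac.trans h1), fun t ht rt =>
      have o := ok t (cp t (sub ht)).isClosed rt
      ⟨o, hG _ o (cp t (sub ht)) (ar t ht) (hg t (sub ht) rt _ o rfl)⟩, ar⟩
  have hm := ldz F c b Λ G hc mono fun t ht => hM.dense t (sub ht)
  obtain ⟨ε, e0, gap⟩ := gap Λ
  have hf : Zf F c b Λ G ε := ⟨hm, fun s t y h1 h2 h3 h4 => not_lt.1 fun h5 =>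
    h4.2 (hM.unit s (sub ⟨h1.trans h2, h3⟩) y h4.1
      (gap μ F c b G t s y hB h0 c0.le (fun t ht => hμ t (sub ht)) hm h1 h2 h3 h4.1 h5))⟩
  obtain ⟨τ₀, hs⟩ := slow x₀
  obtain ⟨κ, hκ, e⟩ := lim x₀ ν hν
  obtain ⟨S, hS, rfl⟩ := tfz F c b Λ G ε τ₀ x₀ κ cb e0 hf hs hκ
  exact ⟨S, Λ, G, hS, e _ rfl⟩

end Vale.Agent.P218Z
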