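import Vale.Agent.P218Z.Pre
import Vale.Agent.P218E.All

/-!
# P218Z: multiplicity one everywhere
-/

open MeasureTheory Metric Filter Topology Set
open scoped ContDiff ENNReal RealInnerProductSpace NNReal
open Vale.Agent.P218 (limitSet WeakTendsto Slow)
open Vale.Agent.P218.H552 (NN)
open Vale.Agent.P218R Vale.Agent.P218E

noncomputable section

namespace Vale.Agent.P218Z

namespace Dnz

theorem time (b τ t : ℝ) : b + (-1 - Real.exp (-2 * t)) / Real.exp τ ^ 2 =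
    b - Real.exp (-2 * (τ - Real.log (bt t))) := by
  rw [← rs_time b, Real.exp_sub, Real.exp_log (bt_pos t), div_pow, bt_sq]
  have := Real.exp_pos (-2 * t)
  field_simp
  ring

end Dnz

theorem dnz (hP : DPZ) (hA : DAZ) (hR : RSZ) (hW : DSW) (hD : DSZ) (hS : SLZ) (hL : LOZ) :
    DNZ := by
  intro F a b Λ G ε₀ τ₀ x₀ κ hab h0 hF hsl hκ p ε hε
  by_contra hcon
  have hp : p ∈ Hi κ ε := (not_frequently.1 hcon).mono fun ρ h => not_le.1 h
  obtain ⟨hlf, τ, hτ, hw⟩ := id hκ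
  obtain ⟨-, σ, hσ, -, hG⟩ := hS F a b Λ G τ₀ x₀ τ κ hab hF.toZm hsl hlf hτ hw
  obtain ⟨hN1, -, hN3, -, -⟩ := nop
  obtain ⟨ε₁, hε₁, hL⟩ := hL Λ ε₀ h0
  obtain ⟨C, -, hC, hL⟩ := hL (1 / 10) (by norm_num)
  obtain ⟨R', hR', m', hm', D₀, hD₀, e₀, he₀, J, hP⟩ :=
    hP Λ G (ε / 2) (1 / 8) 1 (by positivity) (by norm_num)
  obtain ⟨Cd, hCd, hD⟩ := hD R'
  -- shifted sequences
  have shift : ∀ (φ : ℕ → ℕ) (t : ℕ → ℝ) (t' : ℝ), Tendsto φ atTop atTop → Tendsto t atTop (𝓝 t') →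
      Tendsto (fun i => τ (φ i) - Real.log (bt (t i))) atTop atTop ∧
      WeakTendsto (fun i => NN 2 F.μ x₀ b (τ (φ i) - Real.log (bt (t i)))) κ := by
    intro φ t t' hφ ht
    have h1 : Tendsto (fun i => Real.log (bt (t i))) atTop (𝓝 (Real.log (bt t'))) :=
      ((cont_bt.tendsto t').comp ht).log (bt_pos t').ne'
    refine ⟨(hτ.comp hφ).atTop_add h1.neg, hsl.weakTendsto_shift (hτ.comp hφ)
      (h := |Real.log (bt t')| + 1) (by positivity) ?_ fun f hf hfc => (hw f hf hfc).comp hφ⟩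
    filter_upwards [h1.abs.eventually_lt_const (lt_add_one _)] with i hi
    simpa using hi.le
  have okA : ∀ s : ℕ → ℝ, Tendsto s atTop atTop → ∀ᶠ i in atTop, AR Λ (F.rsl x₀ b (s i)).μ ∧
      (RegS F b (s i) → (F.rsl x₀ b (s i)).Ok ∧ (F.rsl x₀ b (s i)).GBd G) := fun s hs =>
    (ev_time hab hs).mono fun i hi =>
      (hW F a b Λ G b _ _ x₀ hF.toZm le_rfl hi le_rfl).2.2.1 _ le_rfl
  set N : ℕ → ℝ → Srf := fun i t => (F.rs x₀ b (Real.exp (τ i))).rsl p (-1) t with hN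
  have lpos : ∀ t, 0 < bt t * Real.exp t := fun t => mul_pos (bt_pos t) (Real.exp_pos t)
  have conv : ∀ (φ : ℕ → ℕ) (t : ℕ → ℝ) (t' : ℝ), Tendsto φ atTop atTop → Tendsto t atTop (𝓝 t') →
      (∀ᶠ i in atTop, AR Λ (N (φ i) (t i)).μ) ∧ WeakTendsto (fun i => (N (φ i) (t i)).μ)
        (zm κ ((bt t')⁻¹ • p) (bt t' * Real.exp t')) := by
    intro φ t t' hφ ht
    obtain ⟨h1, h2⟩ := shift φ t t' hφ ht
    have h3 := (okA _ h1).mono fun i hi => hi.1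
    have h4 := (cont_bt.tendsto t').comp ht
    simp only [hN, rsl_rs, sc_zm _ _ (lpos _)]
    refine ⟨h3.mono fun i hi => zm_ar hi _ (lpos _), zm_weak h3 ?_
      ((h4.inv₀ (bt_pos t').ne').smul_const p)
      (h4.mul ((Real.continuous_exp.tendsto t').comp ht)) (lpos _)⟩
    simpa only [rsl_mu] using h2
  have hκA : AR Λ κ := Gs.ar_lim ((okA τ hτ).mono fun i hi => rsl_mu F x₀ b _ ▸ hi.1) hw
  set g : ℝ → ℝ := fun t => gs (zm κ ((bt t)⁻¹ • p) (bt t * Real.exp t)) 0 1 with hg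
  have glim : ∀ t, Tendsto (fun i => gs (N i t).μ 0 1) atTop (𝓝 (g t)) := fun t => by
    have := (zm_ar hκA ((bt t)⁻¹ • p) (lpos t)).fin
    obtain ⟨h1, h2⟩ := conv id (fun _ => t) t tendsto_id tendsto_const_nhds
    exact Gs.gs_lim h1 h2 0 one_pos
  have good : ∀ i, Zm (F.rs x₀ b (Real.exp (τ i))) (Real.exp (τ i) ^ 2 * (a - b))
      (Real.exp (τ i) ^ 2 * (b - b)) Λ G := fun i =>
    (hR F a b b _ Λ G x₀ (Real.exp_pos _)).2.2.2.1 hF.toZm
  have early : ∀ t, ∀ᶠ i in atTop, Real.exp (τ i) ^ 2 * (a - b) < -1 - Real.exp (-2 * t) :=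
    fun t => (((tendsto_pow_atTop two_ne_zero).comp (Real.tendsto_exp_atTop.comp hτ)
      ).atTop_mul_const_of_neg (sub_neg.2 hab)).eventually_lt_atBot _
  have late : ∀ i, (-1 : ℝ) ≤ Real.exp (τ i) ^ 2 * (b - b) := fun i => by simp
  obtain ⟨t₀, ht₀⟩ := anti_small (g := g) (fun t => gs_nonneg _ _ _)
    (δ := min D₀ 1 / Cd) (by positivity)
  -- the start time
  obtain ⟨t₁, h01, hreg⟩ : ∃ t₁, t₀ ≤ t₁ ∧ ∀ i, Real.exp (τ i) ^ 2 * (a - b) <
      -1 - Real.exp (-2 * t₀) → RegS (F.rs x₀ b (Real.exp (τ i))) (-1) t₁ := by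
    have h1 : ∀ᵐ t, ∀ i, Real.exp (τ i) ^ 2 * (a - b) < -1 - Real.exp (-2 * t₀) → t₀ ≤ t →
        RegS (F.rs x₀ b (Real.exp (τ i))) (-1) t := ae_all_iff.2 fun i => by
      by_cases h : Real.exp (τ i) ^ 2 * (a - b) < -1 - Real.exp (-2 * t₀)
      · exact (hW _ _ _ Λ G (-1) t₀ t₀ p (good i) le_rfl h (late i)).2.1.mono fun t ht _ => ht
      · exact .of_forall fun t h' => absurd h' h
    obtain ⟨t, h2, h3⟩ := Measure.exists_mem_of_measure_ne_zero_of_ae (μ := volume) (s := Ici t₀)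
      (by simp) (ae_restrict_of_ae h1)
    exact ⟨t, h2, fun i hi => h3 i hi h2⟩
  have ht₁ : ∀ t, g t₁ - g t < min D₀ 1 / Cd := fun t => by
    have : g t₁ ≤ g t₀ := le_of_tendsto_of_tendsto (glim t₁) (glim t₀) ((early t₀).mono fun i hi =>
      (hW _ _ _ Λ G (-1) t₀ t₁ p (good i) h01 hi (late i)).1)
    linarith [ht₀ t]
  have hreg' : ∀ᶠ i in atTop, RegS F b (τ i - Real.log (bt t₁)) := (early t₀).mono fun i hi => by
    have := ((hR F a b b _ Λ G x₀ (Real.exp_pos _)).2.1 _).1 (hreg i hi)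
    rwa [Dnz.time] at this
  obtain ⟨hs1, hs2⟩ := shift id (fun _ => t₁) t₁ tendsto_id tendsto_const_nhds
  obtain ⟨e, he, hPm⟩ := pair_small (S := fun i => F.rsl x₀ b (τ i - Real.log (bt t₁)))
    (((okA _ hs1).and hreg').mono fun i hi => ⟨(hi.1.2 hi.2).1, hi.1.1⟩)
    (by simpa only [rsl_mu, id] using hs2) (hA F a b Λ G τ₀ x₀ κ hab hF.toZm hsl hκ ε₁ hε₁)
    (fun q hq => by
      obtain ⟨δ, hδ, r, hr, h⟩ := hL F a b G τ₀ x₀ q _ κ hab hF hsl hlf hs1 hs2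
        ((not_eventually.1 (show ¬ ∀ᶠ ρ in 𝓝[>] (0 : ℝ), 1 + ε₁ < gs κ q ρ from hq)).mono
          fun ρ h => not_lt.1 h)
      refine ⟨δ, hδ, r / 4, by positivity, (h.and hreg').mono fun i hi x hx hx0 => ?_⟩
      obtain ⟨L, h1, h2⟩ := hi.1 hi.2 x hx hx0
      exact hN1 _ x L r _ C hC hx0 h1 h2 (by linarith))
    (‖(bt t₁)⁻¹ • p‖ + R' / (bt t₁ * Real.exp t₁)) (m := m' / (bt t₁ * Real.exp t₁) ^ 2)
    (by have := lpos t₁; positivity)
  set e' := min e₀ (e * (bt t₁ * Real.exp t₁)) with he'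
  have he'0 : 0 < e' := lt_min he₀ (mul_pos he (lpos t₁))
  have hPm' : ∀ᶠ i in atTop,
      (N i t₁).μ {x ∈ ball (0 : E3) R' | Pair (N i t₁) x e'} ≤ ENNReal.ofReal m' := by
    filter_upwards [hPm] with i hi
    simp only [hN, rsl_rs]
    rw [mu_sc_apply _ _ (lpos t₁)]
    refine (mul_le_mul_right ((measure_mono fun x hx => ?_).trans hi) _).trans_eq ?_
    · refine ⟨?_, (hx.2.of_sc (lpos t₁)).mono ?_⟩
      · have h1 : x ∈ (fun x => (bt t₁ * Real.exp t₁) • (x - (bt t₁)⁻¹ • p)) ⁻¹' ball 0 R' := hx.1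
        rw [sc_ball _ (lpos t₁), smul_zero, add_zero, mem_ball_iff_norm] at h1
        rw [mem_closedBall_zero_iff]
        linarith [norm_sub_norm_le x ((bt t₁)⁻¹ • p)]
      · rw [div_le_iff₀ (lpos t₁)]
        exact min_le_right _ _
    · rw [← ENNReal.ofReal_mul (sq_nonneg _), mul_div_cancel₀ _ (pow_pos (lpos t₁) 2).ne']
  -- the end time
  have hMany : ∀ᶠ t in atTop, ∀ j ∈ Iic J, ManyS (zm κ ((bt t)⁻¹ • p) (bt t * Real.exp t)) 1
      (ε / 2) (1 / 8) (e' / 10 / 2 ^ j) := (eventually_all_finite (finite_Iic J)).2 fun j _ =>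
    (ball0 _ _ ε κ p hG hε hp).2 _ _ tendsto_l (tendsto_q p) _ (by positivity)
  obtain ⟨T₀, hT₀⟩ := eventually_atTop.1 hMany
  set t₂ := max T₀ t₁ + 1 with ht₂
  have h12 : t₁ + 1 ≤ t₂ := by linarith [le_max_right T₀ t₁]
  have hdrop : ∀ᶠ i in atTop, Cd * (gs (N i t₁).μ 0 1 - gs (N i t₂).μ 0 1) < min D₀ 1 :=
    (((glim t₁).sub (glim t₂)).const_mul Cd).eventually_lt_const
      (by rw [← lt_div_iff₀' hCd]; exact ht₁ t₂)
  have hbad : ∀ᶠ i in atTop, ∃ t ∈ Icc (t₂ - 1) t₂, ∃ j ≤ J,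
      ¬ Many (N i t).μ 1 (ε / 2) (1 / 8) (e' / 10 / 2 ^ j) := by
    filter_upwards [hdrop, hPm', early t₁, early t₀] with i h1 h2 h3 h7
    obtain ⟨t, ht, h8, h4⟩ := (hD _ _ _ Λ G (-1) t₁ t₂ p (good i) (by linarith) h3 (late i)).2
      h12 (h1.trans_le (min_le_right _ _))
    have h5 : t₁ ≤ t := by linarith [ht.1]
    have h6 := (hW _ _ _ Λ G (-1) t t₂ p (good i) ht.2 (h3.trans_le (by
      have : Real.exp (-2 * t) ≤ Real.exp (-2 * t₁) := Real.exp_le_exp.2 (by linarith)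
      linarith)) (late i)).1
    refine ⟨t, ht, hP _ _ _ (-1) t₁ t e' p (good i).toZc h5 h3 (late i) he'0 (min_le_left _ _)
      (hreg i h7) h8 ((hD _ _ _ Λ G (-1) t₁ t p (good i) h5 h3 (late i)).1.trans
        (ENNReal.ofReal_le_ofReal ?_)) h2 h4⟩
    refine le_trans ?_ (h1.le.trans (min_le_left _ _))
    exact mul_le_mul_of_nonneg_left (sub_le_sub_left h6 _) hCd.le
  obtain ⟨i₀, hi₀⟩ := eventually_atTop.1 hbad
  choose t ht hj using fun i => hi₀ (i + i₀) (Nat.le_add_left _ _)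
  obtain ⟨t', ht', φ, hφ, hlim⟩ := isCompact_Icc.tendsto_subseq ht
  obtain ⟨h1, h2⟩ := conv (fun k => φ k + i₀) (t ∘ φ) t'
    ((tendsto_add_atTop_nat i₀).comp hφ.tendsto_atTop) hlim
  have h3 : ∀ᶠ k in atTop, ∀ j ∈ Iic J,
      Many (N (φ k + i₀) (t (φ k))).μ 1 (ε / 2) (1 / 8) (e' / 10 / 2 ^ j) :=
    (eventually_all_finite (finite_Iic J)).2 fun j hj' => hN3 _ _ _ _ _ _
      (zm_ar hκA _ (lpos t')).fin (h1.mono fun k hk => hk.fin) h2
      (hT₀ t' (by linarith [ht'.1, le_max_left T₀ t₁]) j hj')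
  obtain ⟨k, hk⟩ := h3.exists
  obtain ⟨j, hj1, hj2⟩ := hj (φ k)
  exact hj2 (hk j hj1)

end Vale.Agent.P218Z
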