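import Vale.Agent.P218Z.Wm
import Vale.Agent.P218R.Defs

/-!
# P218Z: calculus of the heat operator along planes; mean value inequalities
-/

open MeasureTheory Set Filter Topology Metric
open scoped ENNReal NNReal RealInnerProductSpace
open Vale.Agent.P214 (proj divAlong)
open Vale.Agent.P218.H552
open Vale.Agent.P218R (E3 gs)

noncomputable section

namespace Vale.Agent.P218Z

open Wm

section
variable {E : Type*} [NormedAddCommGroup E] [InnerProductSpace ℝ E] [FiniteDimensional ℝ E]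
  {T : Submodule ℝ E} {ψ φ : ℝ × E → ℝ} {t : ℝ} {x : E}

theorem div_congr {X Y : E → E} (h : X =ᶠ[𝓝 x] Y) : divAlong T X x = divAlong T Y x := by
  unfold divAlong
  rw [h.fderiv_eq]

theorem ho_congr (h : ψ =ᶠ[𝓝 (t, x)] φ) : ho T ψ t x = ho T φ t x := by
  have h1 : (fun y => ψ (t, y)) =ᶠ[𝓝 x] fun y => φ (t, y) :=
    (Continuous.prodMk_right t).continuousAt.eventually h
  unfold ho
  rw [h.fderiv_eq, div_congr (h1.eventuallyEq_nhds.mono fun y hy => hy.gradient_eq)]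

theorem ho_zero (h : ∀ᶠ p in 𝓝 (t, x), ψ p = 0) : ho T ψ t x = 0 := by
  rw [ho_congr (φ := fun _ => 0) h]
  have : (gradient fun _ : E => (0 : ℝ)) = fun _ => 0 := funext fun y => gradient_fun_const y 0
  simp [ho, divAlong, this]

theorem grad_comp {f : E → ℝ} {g : ℝ → ℝ} (hf : DifferentiableAt ℝ f x)
    (hg : DifferentiableAt ℝ g (f x)) :
    gradient (fun y => g (f y)) x = deriv g (f x) • gradient f x := by
  have : fderiv ℝ (fun y => g (f y)) x = deriv g (f x) • fderiv ℝ f x :=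
    (hg.hasDerivAt.comp_hasFDerivAt x hf.hasFDerivAt).fderiv
  rw [gradient, this, map_smul, gradient]

/-- the chain rule -/
theorem ho_comp {g : ℝ → ℝ} (hg : ContDiff ℝ 2 g) (hφ : ContDiff ℝ 2 φ) :
    ho T (fun p => g (φ p)) t x = deriv g (φ (t, x)) * ho T φ t x -
      deriv (deriv g) (φ (t, x)) * ‖proj T (gradient (fun y => φ (t, y)) x)‖ ^ 2 := by
  have c1 : ContDiff ℝ 2 fun y => φ (t, y) := hφ.comp (contDiff_prodMk_right t)
  have d1 := c1.differentiable two_ne_zero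
  have d2 := hg.differentiable two_ne_zero
  have d3 : Differentiable ℝ (deriv g) :=
    (contDiff_succ_iff_deriv.1 (show ContDiff ℝ (1 + 1) g from hg)).2.2.differentiable one_ne_zero
  have e : (gradient fun y => g (φ (t, y))) =
      fun y => deriv g (φ (t, y)) • gradient (fun y => φ (t, y)) y :=
    funext fun y => grad_comp (d1 y) (d2 _)
  have e2 : fderiv ℝ (fun p => g (φ p)) (t, x) = deriv g (φ (t, x)) • fderiv ℝ φ (t, x) :=
    ((d2 _).hasDerivAt.comp_hasFDerivAt (t, x)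
      (hφ.differentiable two_ne_zero _).hasFDerivAt).fderiv
  have e3 : fderiv ℝ (fun y => deriv g (φ (t, y))) x =
      deriv (deriv g) (φ (t, x)) • fderiv ℝ (fun y => φ (t, y)) x :=
    ((d3 _).hasDerivAt.comp_hasFDerivAt x (d1 x).hasFDerivAt).fderiv
  unfold ho
  rw [e, e2, div_smul T (F := fun y => deriv g (φ (t, y))) ((d3 _).comp x (d1 x))
    ((cd_grad c1).differentiable one_ne_zero x), e3, smul_apply, smul_apply, fd_grad]
  generalize gradient (fun y => φ (t, y)) x = v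
  have : ⟪v, proj T v⟫ = ‖proj T v‖ ^ 2 := by
    have h := inner_proj_of_mem_orthogonal T v _ (sub_proj_mem T v)
    rw [inner_sub_right, real_inner_self_eq_norm_sq, real_inner_comm] at h
    linarith
  rw [this, smul_eq_mul, smul_eq_mul]
  ring

theorem ho_comp_le {g : ℝ → ℝ} (hg : ContDiff ℝ 2 g) (hφ : ContDiff ℝ 2 φ) (h1 : Monotone g)
    (h2 : Monotone (deriv g)) (h : ho T φ t x ≤ 0) : ho T (fun p => g (φ p)) t x ≤ 0 := by
  rw [ho_comp hg hφ]
  exact sub_nonpos.2 ((mul_nonpos_of_nonneg_of_nonpos h1.deriv_nonneg h).trans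
    (mul_nonneg h2.deriv_nonneg (sq_nonneg _)))

/-- functions of the form `⟪e, y - x₁⟫ + F (t, |y - x₁|²)` -/
theorem ho_rad {F : ℝ × ℝ → ℝ} (hF : ContDiff ℝ 2 F) (e x₁ : E) :
    ho T (fun p => ⟪e, p.2 - x₁⟫ + F (p.1, ‖p.2 - x₁‖ ^ 2)) t x =
      fderiv ℝ F (t, ‖x - x₁‖ ^ 2) (1, 0) -
        (2 * deriv (fun r => F (t, r)) (‖x - x₁‖ ^ 2) * Module.finrank ℝ T +
          4 * deriv (deriv fun r => F (t, r)) (‖x - x₁‖ ^ 2) * ‖proj T (x - x₁)‖ ^ 2) := by
  have c1 : ContDiff ℝ 2 fun r => F (t, r) := hF.comp (contDiff_prodMk_right t)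
  have d2 := c1.differentiable two_ne_zero
  have d3 : Differentiable ℝ (deriv fun r => F (t, r)) :=
    (contDiff_succ_iff_deriv.1 (show ContDiff ℝ (1 + 1) _ from c1)).2.2.differentiable one_ne_zero
  have n : ∀ y : E, HasFDerivAt (fun y : E => ‖y - x₁‖ ^ 2) (2 • innerSL ℝ (y - x₁)) y := fun y => by
    simpa using! (hasStrictFDerivAt_norm_sq (y - x₁)).hasFDerivAt.comp y
      ((hasFDerivAt_id y).sub_const x₁)
  have l : ∀ y : E, HasFDerivAt (fun y : E => ⟪e, y - x₁⟫) (innerSL ℝ e) y := fun y => by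
    simpa using! (innerSL ℝ e).hasFDerivAt.comp y ((hasFDerivAt_id y).sub_const x₁)
  have e1 : (gradient fun y => ⟪e, y - x₁⟫ + F (t, ‖y - x₁‖ ^ 2)) =
      fun y => e + (2 * deriv (fun r => F (t, r)) (‖y - x₁‖ ^ 2)) • (y - x₁) := funext fun y => by
    refine ext_inner_right ℝ fun v => ?_
    have : fderiv ℝ (fun y => ⟪e, y - x₁⟫ + F (t, ‖y - x₁‖ ^ 2)) y = _ :=
      ((l y).fun_add ((d2 _).hasDerivAt.comp_hasFDerivAt y (n y))).fderiv
    rw [← fd_grad, this]
    simp [inner_add_left, real_inner_smul_left, inner_sub_left]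
    ring
  have h4 := ((d3 _).hasDerivAt.comp_hasFDerivAt x (n x)).const_mul 2
  have e2 : divAlong T (fun y => e + (2 * deriv (fun r => F (t, r)) (‖y - x₁‖ ^ 2)) • (y - x₁)) x =
      divAlong T (fun y => (2 * deriv (fun r => F (t, r)) (‖y - x₁‖ ^ 2)) • (y - x₁)) x := by
    unfold divAlong
    rw [fderiv_const_add]
  have e3 : ⟪x - x₁, proj T (x - x₁)⟫ = ‖proj T (x - x₁)‖ ^ 2 := by
    generalize x - x₁ = v
    have h := inner_proj_of_mem_orthogonal T v _ (sub_proj_mem T v)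
    rw [inner_sub_right, real_inner_self_eq_norm_sq, real_inner_comm] at h
    linarith
  have s2 : HasFDerivAt (Prod.snd : ℝ × E → E) (ContinuousLinearMap.snd ℝ ℝ E) (t, x) :=
    hasFDerivAt_snd
  have s1 : HasFDerivAt (Prod.fst : ℝ × E → ℝ) (ContinuousLinearMap.fst ℝ ℝ E) (t, x) :=
    hasFDerivAt_fst
  have h6 := s1.prodMk ((n x).comp (t, x) s2)
  have h5 := ((l x).comp (t, x) s2).fun_add (HasFDerivAt.comp (t, x)
    (hF.differentiable two_ne_zero (t, ‖x - x₁‖ ^ 2)).hasFDerivAt h6)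
  unfold ho
  simp only
  have e4 : fderiv ℝ (fun y => 2 * deriv (fun r => F (t, r)) (‖y - x₁‖ ^ 2)) x = _ := h4.fderiv
  have e5 : fderiv ℝ (fun p : ℝ × E => ⟪e, p.2 - x₁⟫ + F (p.1, ‖p.2 - x₁‖ ^ 2)) (t, x) = _ :=
    h5.fderiv
  rw [e1, e2, divAlong_smul_sub T (fun y => 2 * deriv (fun r => F (t, r)) (‖y - x₁‖ ^ 2)) x₁ x
    h4.differentiableAt, e4, e5]
  generalize x - x₁ = z at *
  simp [e3]
  ring

/-- the supersolution `|z|⁴ + 16 θ |z|² + 32 θ²` -/
theorem ho_quart (hT : Module.finrank ℝ T = 2) (e x₁ : E) {β : ℝ} (hβ : 0 ≤ β) (c t₀ : ℝ) :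
    ho T (fun p => ⟪e, p.2 - x₁⟫ + (c - β * ((‖p.2 - x₁‖ ^ 2) ^ 2 +
      16 * (p.1 - t₀) * ‖p.2 - x₁‖ ^ 2 + 32 * (p.1 - t₀) ^ 2))) t x ≤ 0 := by
  have d1 : (deriv fun r : ℝ => c - β * (r ^ 2 + 16 * (t - t₀) * r + 32 * (t - t₀) ^ 2)) =
      fun r => -(β * (2 * r + 16 * (t - t₀))) := funext fun r => by
    simpa using! (((((hasDerivAt_pow 2 r).add ((hasDerivAt_id r).const_mul
      (16 * (t - t₀)))).add_const (32 * (t - t₀) ^ 2)).const_mul β).const_sub c).deriv
  have d2 : ∀ r, deriv (fun r : ℝ => -(β * (2 * r + 16 * (t - t₀)))) r = -(β * 2) := fun r => by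
    simp
  have cF : ContDiff ℝ 2 fun q : ℝ × ℝ =>
      c - β * (q.2 ^ 2 + 16 * (q.1 - t₀) * q.2 + 32 * (q.1 - t₀) ^ 2) := by fun_prop
  have d3 : ∀ r, fderiv ℝ (fun q : ℝ × ℝ =>
      c - β * (q.2 ^ 2 + 16 * (q.1 - t₀) * q.2 + 32 * (q.1 - t₀) ^ 2)) (t, r) (1, 0) =
      -(β * (16 * r + 64 * (t - t₀))) := fun r => by
    refine ((cF.differentiable two_ne_zero (t, r)).hasFDerivAt.comp_hasDerivAt t
      ((hasDerivAt_id t).prodMk (hasDerivAt_const t r))).unique ?_
    have h1 := (hasDerivAt_id t).sub_const t₀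
    refine ((((((h1.const_mul 16).mul_const r).const_add (r ^ 2)).add
      ((h1.pow 2).const_mul 32)).const_mul β).const_sub c).congr_deriv ?_
    simp only [id, Nat.cast_ofNat, neg_inj]
    ring
  rw [ho_rad cF e x₁, d3, hT]
  simp only [d1, d2]
  have h1 : ‖proj T (x - x₁)‖ ≤ ‖x - x₁‖ := by
    simpa using ((proj T).le_opNorm _).trans
      (mul_le_mul_of_nonneg_right (norm_proj_le T) (norm_nonneg (x - x₁)))
  have h2 := mul_le_mul_of_nonneg_left (pow_le_pow_left₀ (norm_nonneg _) h1 2) hβ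
  push_cast
  nlinarith

end

/-- a smooth convex approximation of the positive part -/
theorem ex_cvx {κ : ℝ} (hκ : 0 < κ) : ∃ g : ℝ → ℝ, ContDiff ℝ 2 g ∧ Monotone g ∧
    Monotone (deriv g) ∧ (∀ s, 0 ≤ g s) ∧ (∀ s, s ≤ g s) ∧ (∀ s ≤ -κ, g s = 0) ∧
      ∀ s, -κ ≤ s → g s ≤ s + κ := by
  set h : ℝ → ℝ := fun r => Real.smoothTransition (r / κ + 1)
  have ch : ContDiff ℝ 1 h := Real.smoothTransition.contDiff.comp (by fun_prop)
  have dg : ∀ s, HasDerivAt (fun s => ∫ r in (-κ)..s, h r) (h s) s := fun s =>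
    (ch.continuous.integral_hasStrictDerivAt _ s).hasDerivAt
  have e : deriv (fun s => ∫ r in (-κ)..s, h r) = h := funext fun s => (dg s).deriv
  have m : Monotone fun s => ∫ r in (-κ)..s, h r :=
    monotone_of_deriv_nonneg (fun s => (dg s).differentiableAt) fun s => by
      rw [e]; exact Real.smoothTransition.nonneg _
  have z : ∀ s ≤ -κ, ∫ r in (-κ)..s, h r = 0 := fun s hs => by
    rw [intervalIntegral.integral_congr (g := fun _ => 0) fun r hr =>
      Real.smoothTransition.zero_of_nonpos ?_, intervalIntegral.integral_zero]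
    rw [uIcc_of_ge hs] at hr
    have : r / κ ≤ -1 := by rw [div_le_iff₀ hκ]; linarith [hr.2]
    linarith
  have p : ∀ s, 0 ≤ ∫ r in (-κ)..s, h r := fun s => (le_total s (-κ)).elim
    (fun hs => (z s hs).ge) fun hs => (z _ le_rfl).ge.trans (m hs)
  refine ⟨_, contDiff_succ_iff_deriv.2 (show _ ∧ _ ∧ ContDiff ℝ 1 _ from
    ⟨fun s => (dg s).differentiableAt, by simp, by rwa [e]⟩), m, e.symm ▸ fun a b hab =>
      Real.smoothTransition.monotone (by gcongr), p, fun s => ?_, z, fun s hs => ?_⟩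
  · refine (le_total s 0).elim (fun hs => hs.trans (p s)) fun hs => ?_
    rw [← intervalIntegral.integral_add_adjacent_intervals (b := 0)
      (ch.continuous.intervalIntegrable _ _) (ch.continuous.intervalIntegrable _ _),
      intervalIntegral.integral_congr (a := 0) (g := fun _ => 1) fun r hr =>
        Real.smoothTransition.one_of_one_le ?_]
    · simpa using p 0
    · rw [uIcc_of_le hs] at hr
      linarith [div_nonneg hr.1 hκ.le]
  · simpa using intervalIntegral.integral_mono_on (μ := volume) hs (ch.continuous.intervalIntegrable _ _)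
      (intervalIntegrable_const (c := (1 : ℝ))) fun r _ => Real.smoothTransition.le_one _

theorem Ph2 (y : E3) {s t : ℝ} (h : t < s) (x : E3) :
    Ph 2 y s t x = (s - t)⁻¹ * Real.exp (-‖x - y‖ ^ 2 / (4 * (s - t))) := by
  have h0 := sub_pos.2 h
  rw [ph_eq, yy, norm_smul, mul_pow, Real.norm_eq_abs, sq_abs, Lam_sq h]
  congr 2
  field_simp

theorem int_Ph (ν : Measure E3) (y : E3) {s t : ℝ} (h : t < s) :
    ∫ x, Ph 2 y s t x ∂ν = 4 * Real.pi * gs ν y √(s - t) := by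
  have h0 := sub_pos.2 h
  have := Real.pi_pos
  simp_rw [Ph2 y h]
  rw [gs, Real.sq_sqrt h0.le, integral_const_mul]
  field_simp

theorem Ph_far {y x : E3} {s t δ : ℝ} (h : t < s) (hδ : 0 < δ) (hx : δ ≤ ‖x - y‖) :
    Ph 2 y s t x ≤ 32 * (s - t) / δ ^ 4 := by
  have h0 := sub_pos.2 h
  rw [Ph2 y h, neg_div, Real.exp_neg, ← mul_inv, inv_le_comm₀ (by positivity) (by positivity)]
  have h1 : δ ^ 2 / (4 * (s - t)) ≤ ‖x - y‖ ^ 2 / (4 * (s - t)) := by gcongr
  have h2 := (Real.quadratic_le_exp_of_nonneg (x := δ ^ 2 / (4 * (s - t))) (by positivity)).trans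
    (Real.exp_le_exp.2 h1)
  have h3 : (32 * (s - t) / δ ^ 4)⁻¹ = (s - t) * ((δ ^ 2 / (4 * (s - t))) ^ 2 / 2) := by
    field_simp
    ring
  have h4 : 0 ≤ δ ^ 2 / (4 * (s - t)) := by positivity
  rw [h3]
  exact mul_le_mul_of_nonneg_left (by linarith) h0.le

variable {μ : ℝ → Measure E3} {T : ℝ → E3 → Submodule ℝ E3} {H : ℝ → E3 → E3}

/-- **Mean value inequality** for subsolutions -/
theorem mv0 (hB : BF 2 μ T H) (h0 : μ 0 univ < ⊤) {ψ : ℝ × E3 → ℝ} (hψ : ContDiff ℝ 2 ψ)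
    (p0 : ∀ p, 0 ≤ ψ p) {K : Set E3} (hK : IsCompact K) (hs : ∀ t x, x ∉ K → ψ (t, x) = 0)
    {y : E3} {t₀ s θ : ℝ} (ha : 0 ≤ t₀) (hb : t₀ < s) (hθ : 0 ≤ θ)
    (hle : ∀ᵐ t, t ∈ Ioo t₀ s → ∀ᵐ x ∂μ t, Module.finrank ℝ (T t x) = 2 → ho (T t x) ψ t x ≤ 0)
    (hd : ∃ᶠ t in 𝓝[<] s, θ ≤ gs (μ t) y √(s - t)) :
    θ * ψ (s, y) ≤ (4 * Real.pi * (s - t₀))⁻¹ *
      ∫ x, ψ (t₀, x) * Real.exp (-‖x - y‖ ^ 2 / (4 * (s - t₀))) ∂μ t₀ := by
  have hπ := Real.pi_pos
  have e : (4 * Real.pi * (s - t₀))⁻¹ *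
      ∫ x, ψ (t₀, x) * Real.exp (-‖x - y‖ ^ 2 / (4 * (s - t₀))) ∂μ t₀ =
      (4 * Real.pi)⁻¹ * ∫ x, ψ (t₀, x) * Ph 2 y s t₀ x ∂μ t₀ := by
    simp_rw [Ph2 y hb, mul_left_comm (ψ _)]
    rw [integral_const_mul, mul_inv _ (s - t₀), mul_assoc]
  rw [e, le_inv_mul_iff₀ (by positivity)]
  set A := ∫ x, ψ (t₀, x) * Ph 2 y s t₀ x ∂μ t₀
  have A0 : 0 ≤ A := integral_nonneg fun x => mul_nonneg (p0 _) (Ph_pos y hb x).le
  set c := ψ (s, y)
  have key : ∀ ε > 0, 4 * Real.pi * (θ * (c - ε)) ≤ A := fun ε hε => by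
    rcases le_total c ε with h | h
    · exact (mul_nonpos_of_nonneg_of_nonpos (by positivity)
        (mul_nonpos_of_nonneg_of_nonpos hθ (sub_nonpos.2 h))).trans A0
    obtain ⟨δ, δ0, hδ⟩ := Metric.continuousAt_iff.1 (hψ.continuous.continuousAt (x := (s, y))) ε hε
    have lim : Tendsto (fun t => A + c * (32 * (s - t) / δ ^ 4) * (μ 0).real univ) (𝓝[<] s)
        (𝓝 (A + c * (32 * (s - s) / δ ^ 4) * (μ 0).real univ)) :=
      (Continuous.tendsto (by fun_prop) s).mono_left nhdsWithin_le_nhds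
    simp only [sub_self, mul_zero, zero_div, zero_mul, add_zero] at lim
    refine ge_of_tendsto_of_frequently lim ((hd.and_eventually
      (Ioo_mem_nhdsLT (max_lt hb (sub_lt_self s δ0)))).mono fun t ⟨h1, h2, h3⟩ => ?_)
    obtain ⟨h2, h4⟩ := max_lt_iff.1 h2
    have := hB.finite h0 (ha.trans h2.le)
    have h5 := wm0 hB hψ p0 hK hs y ha h2.le h3
      (hle.mono fun r hr hr' => hr ⟨hr'.1, hr'.2.trans_lt h3⟩)
    have i1 : Integrable (Ph 2 y s t) (μ t) :=
      integrable_phi0 y s t continuous_const (A := 1) fun _ => by simp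
    have q0 : 0 ≤ c * (32 * (s - t) / δ ^ 4) :=
      mul_nonneg (p0 _) (by have := sub_pos.2 h3; positivity)
    have h6 : ∫ x, ((c - ε) * Ph 2 y s t x - c * (32 * (s - t) / δ ^ 4)) ∂μ t ≤
        ∫ x, ψ (t, x) * Ph 2 y s t x ∂μ t := by
      refine integral_mono ((i1.const_mul _).sub (integrable_const _))
        (((hψ.continuous.comp (Continuous.prodMk_right t)).mul
          (ph_cd y s t).continuous).integrable_of_hasCompactSupport
            (HasCompactSupport.intro hK (hs t)).mul_right) fun x => ?_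
      have P0 := Ph_pos (m := 2) y h3 x
      by_cases hx : ‖x - y‖ < δ
      · have := abs_lt.1 (hδ (x := (t, x)) (by
          rw [Prod.dist_eq, max_lt_iff, Real.dist_eq, abs_sub_comm, abs_of_pos (sub_pos.2 h3),
            dist_eq_norm]
          exact ⟨by linarith, hx⟩))
        simp only
        nlinarith [this.1]
      · have := mul_le_mul_of_nonneg_left (Ph_far h3 δ0 (not_lt.1 hx)) (p0 (s, y))
        simp only
        nlinarith [mul_nonneg (p0 (t, x)) P0.le]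
    rw [integral_sub (i1.const_mul _) (integrable_const _), integral_const_mul, int_Ph _ _ h3,
      integral_const, smul_eq_mul] at h6
    have h7 := mul_le_mul_of_nonneg_left (hB.real_le h0 (ha.trans h2.le)) q0
    have h8 := mul_le_mul_of_nonneg_left h1 (mul_nonneg (sub_nonneg.2 h) hπ.le)
    nlinarith
  have lim : Tendsto (fun ε : ℝ => 4 * Real.pi * (θ * (c - ε))) (𝓝[>] 0)
      (𝓝 (4 * Real.pi * (θ * (c - 0)))) :=
    (Continuous.tendsto (by fun_prop) 0).mono_left nhdsWithin_le_nhds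
  rw [sub_zero] at lim
  exact le_of_tendsto lim (eventually_nhdsWithin_of_forall key)

/-- **Mean value inequality** for affine functions in a slab -/
theorem mv (hB : BF 2 μ T H) (h0 : μ 0 univ < ⊤) {y x₁ e : E3} {t₀ s θ β R : ℝ} (ha : 0 ≤ t₀)
    (hb : t₀ < s) (hR : 0 < R) (hβ : 3 ≤ β * (R / 2) ^ 4) (hy : ‖y - x₁‖ < R / 2)
    (hf : ∀ t ∈ Ico t₀ s, ∀ᵐ x ∂μ t, x ∈ ball x₁ R → |⟪e, x - x₁⟫| ≤ 1) (hθ : 0 ≤ θ)
    (hd : ∃ᶠ t in 𝓝[<] s, θ ≤ gs (μ t) y √(s - t)) :
    θ * (1 + ⟪e, y - x₁⟫ - β * (‖y - x₁‖ ^ 4 + 16 * (s - t₀) * ‖y - x₁‖ ^ 2 + 32 * (s - t₀) ^ 2)) ≤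
      (4 * Real.pi * (s - t₀))⁻¹ * ∫ x in ball x₁ R,
        (1 + ⟪e, x - x₁⟫) * Real.exp (-‖x - y‖ ^ 2 / (4 * (s - t₀))) ∂μ t₀ := by
  have hπ := Real.pi_pos
  have h1 := sub_pos.2 hb
  have β0 : 0 ≤ β := (pos_of_mul_pos_left (three_pos.trans_le hβ) (by positivity)).le
  have := hB.finite h0 ha
  let χ : ContDiffBump x₁ := ⟨R / 2, 3 * R / 4, by positivity, by linarith⟩
  set φ : ℝ × E3 → ℝ := fun p => ⟪e, p.2 - x₁⟫ + (1 - β * ((‖p.2 - x₁‖ ^ 2) ^ 2 +
      16 * (p.1 - t₀) * ‖p.2 - x₁‖ ^ 2 + 32 * (p.1 - t₀) ^ 2)) with hφ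
  have cφ : ContDiff ℝ 2 φ := by
    have : ContDiff ℝ 2 fun p : ℝ × E3 => ‖p.2 - x₁‖ ^ 2 :=
      (contDiff_snd.sub contDiff_const).norm_sq ℝ
    exact (contDiff_const.inner ℝ (contDiff_snd.sub contDiff_const)).add (by fun_prop)
  set G : E3 → ℝ := fun x => Real.exp (-‖x - y‖ ^ 2 / (4 * (s - t₀)))
  have cG : Continuous G := by fun_prop
  have G1 : ∀ x, |G x| ≤ 1 := fun x => by
    rw [abs_of_pos (Real.exp_pos _), Real.exp_le_one_iff, neg_div, neg_nonpos]
    positivity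
  have iG : IntegrableOn G (ball x₁ R) (μ t₀) :=
    (Integrable.of_bound cG.aestronglyMeasurable 1 (.of_forall G1)).integrableOn
  have iF : IntegrableOn (fun x => (1 + ⟪e, x - x₁⟫) * G x) (ball x₁ R) (μ t₀) :=
    ((by fun_prop : Continuous fun x => (1 + ⟪e, x - x₁⟫) * G x).continuousOn.integrableOn_compact
      (isCompact_closedBall x₁ R)).mono_set ball_subset_closedBall
  have key : ∀ κ ∈ Ioo (0 : ℝ) 1, θ * φ (s, y) ≤ (4 * Real.pi * (s - t₀))⁻¹ *
      (∫ x in ball x₁ R, (1 + ⟪e, x - x₁⟫) * G x ∂μ t₀ + κ * ∫ x in ball x₁ R, G x ∂μ t₀) := by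
    intro κ hκ
    obtain ⟨g, g1, g2, g3, g4, g5, g6, g7⟩ := ex_cvx hκ.1
    have cψ : ContDiff ℝ 2 fun p : ℝ × E3 => χ p.2 * g (φ p) :=
      (χ.contDiff.comp contDiff_snd).mul (g1.comp cφ)
    have z : ∀ x, x ∉ closedBall x₁ (3 * R / 4) → χ x = 0 := fun x hx =>
      χ.zero_of_le_dist (not_le.1 hx).le
    have h2 := mv0 hB h0 cψ (fun p => mul_nonneg χ.nonneg (g4 _))
      (isCompact_closedBall x₁ (3 * R / 4)) (fun t x hx => by simp [z x hx]) ha hb hθ
      (.of_forall fun t ht => by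
        filter_upwards [hf t ⟨ht.1.le, ht.2⟩] with x h3 h4
        by_cases h5 : x ∈ ball x₁ (R / 2)
        · rw [ho_congr (φ := fun p => g (φ p)) (((isOpen_ball.preimage continuous_snd).eventually_mem
            (show (t, x) ∈ _ from h5)).mono fun p hp => by
              simp [χ.one_of_mem_closedBall (ball_subset_closedBall hp)])]
          exact ho_comp_le g1 cφ g2 g3 (ho_quart h4 e x₁ β0 1 t₀)
        refine (ho_zero ?_).le
        by_cases h6 : x ∈ ball x₁ R
        · have h7 : φ (t, x) < -κ := by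
            have a1 : (R / 2) ^ 4 ≤ ‖x - x₁‖ ^ 4 := by
              rw [mem_ball, dist_eq_norm, not_lt] at h5
              gcongr
            have a2 := sub_pos.2 ht.1
            have a3 : 0 ≤ β * (16 * (t - t₀) * ‖x - x₁‖ ^ 2 + 32 * (t - t₀) ^ 2) := by positivity
            simp only [hφ]
            nlinarith [(abs_le.1 (h3 h6)).2, hκ.2, mul_le_mul_of_nonneg_left a1 β0]
          exact (cφ.continuous.continuousAt.eventually_lt continuousAt_const h7).mono
            fun p hp => by simp [g6 _ hp.le]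
        · exact ((isClosed_closedBall.isOpen_compl.preimage continuous_snd).eventually_mem
            (show (t, x) ∈ _ from fun h => h6
              (closedBall_subset_ball (show 3 * R / 4 < R by linarith) h))).mono
              fun p hp => by simp [z _ hp]) hd
    rw [χ.one_of_mem_closedBall (mem_closedBall_iff_norm.2 hy.le), one_mul] at h2
    refine ((mul_le_mul_of_nonneg_left (g5 _) hθ).trans h2).trans
      (mul_le_mul_of_nonneg_left ?_ (by positivity))
    rw [← integral_const_mul, ← integral_add iF (iG.const_mul _),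
      ← setIntegral_eq_integral_of_forall_compl_eq_zero (s := ball x₁ R) fun x hx => by
        simp [z x fun h => hx (closedBall_subset_ball (by linarith) h)]]
    refine setIntegral_mono_ae_restrict ?_ (iF.add (iG.const_mul _)) ?_
    · exact (((cψ.continuous.comp (Continuous.prodMk_right t₀)).mul cG).continuousOn
        |>.integrableOn_compact (isCompact_closedBall x₁ R)).mono_set ball_subset_closedBall
    filter_upwards [ae_restrict_of_ae (hf t₀ ⟨le_rfl, hb⟩), ae_restrict_mem measurableSet_ball]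
      with x h3 h4
    have a1 : φ (t₀, x) ≤ 1 + ⟪e, x - x₁⟫ := by
      have : 0 ≤ β * (‖x - x₁‖ ^ 2) ^ 2 := by positivity
      simp only [hφ, sub_self]
      nlinarith
    have a2 := (g2 a1).trans (g7 _ (by linarith [(abs_le.1 (h3 h4)).1, hκ.1]))
    have a3 := (mul_le_of_le_one_left (g4 (φ (t₀, x))) (χ.le_one (x := x))).trans a2
    simp only [← add_mul]
    exact mul_le_mul_of_nonneg_right a3 (Real.exp_pos _).le
  have lim := (Continuous.tendsto (f := fun κ : ℝ => (4 * Real.pi * (s - t₀))⁻¹ *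
      (∫ x in ball x₁ R, (1 + ⟪e, x - x₁⟫) * G x ∂μ t₀ + κ * ∫ x in ball x₁ R, G x ∂μ t₀))
    (by fun_prop) 0).mono_left (nhdsWithin_le_nhds (s := Ioi 0))
  rw [zero_mul, add_zero] at lim
  refine le_of_eq_of_le ?_ (ge_of_tendsto lim (mem_of_superset (Ioo_mem_nhdsGT one_pos) key))
  simp only [hφ]
  ring

/-- Brakke flows can be multiplied by constants -/
theorem BF.smul {m : ℕ} (hB : BF m μ T H) (c : ℝ≥0) : BF m (fun t => c • μ t) T H where
  fin t ht := by
    have := hB.fin t ht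
    infer_instance
  mc := hB.mc.mono fun t h => by
    have := h.fin
    have ac : c • μ t ≪ μ t := Measure.smul_absolutelyContinuous
    exact ⟨inferInstance, h.Tmeas.mono_ac ac, ac.ae_le h.dim, h.meas.mono_ac ac, fun K hK => by
      rw [IntegrableOn, Measure.restrict_smul]
      exact (h.locL2 K hK).smul_measure_nnreal, ac.ae_le h.normal, fun X h1 h2 => by
      rw [integral_smul_nnreal_measure, integral_smul_nnreal_measure, h.fv X h1 h2, smul_neg]⟩
  ineq φ h1 h2 h3 a b ha hab := by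
    obtain ⟨h4, h5⟩ := hB.ineq φ h1 h2 h3 a b ha hab
    simp only [brakkeRHS, integral_smul_nnreal_measure, NNReal.smul_def, smul_eq_mul] at *
    refine ⟨h4.const_mul _, ?_⟩
    rw [intervalIntegral.integral_const_mul, ← mul_sub]
    exact mul_le_mul_of_nonneg_left h5 c.coe_nonneg

end Vale.Agent.P218Z
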