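import Vale.Agent.P218Z.Defs
import Vale.Agent.P218E.Gen
import Vale.Agent.P218R.WSpec

/-!
# P218Z: the statements of the rows
-/

open MeasureTheory Metric Filter Topology Set
open scoped ContDiff ENNReal RealInnerProductSpace
open Vale.Agent.P366.Stmt (E)
open Vale.Agent.P366W (trc dvg Fr)
open Vale.Agent.P218 (limitSet WeakTendsto Slow IsIntegralBrakkeFlow IsTangentFlow)
open Vale.Agent.P218.H552 (NN ext)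
open Vale.Agent.P218R Vale.Agent.P218E

noncomputable section

namespace Vale.Agent.P218Z

/-! ### basics -/

/-- **TOP**: regular points and regular times -/
def TOP : Prop := (∀ (M : ℝ → Set E3) (t : ℝ) (x : E3), RegPt M t x →
    ∀ᶠ p : ℝ × E3 in 𝓝 (t, x), p.2 ∈ M p.1 → RegPt M p.1 p.2) ∧
  (∀ (M : ℝ → Set E3) (a b : ℝ),
    (∀ c d, a < c → d < b → IsCompact {p : ℝ × E3 | p.1 ∈ Icc c d ∧ p.2 ∈ M p.1}) →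
    (∀ t ∈ Ioo a b, IsCompact (M t)) ∧
    (∀ t ∈ Ioo a b, ∀ y, y ∉ M t → ∀ᶠ p : ℝ × E3 in 𝓝 (t, y), p.2 ∉ M p.1) ∧
    (∀ c d, a < c → d < b → IsCompact (Sing M ∩ Icc c d ×ˢ univ)) ∧
    IsOpen {t | t ∈ Ioo a b ∧ RegT M t} ∧
    (∀ c d, a ≤ c → d ≤ b → (∀ t ∈ Ioo c d, RegT M t) → IsSmoothFlow M c d) ∧
    (PNull (Sing M ∩ Ioo a b ×ˢ univ) → ∀ c d, a < c → d < b → ∀ δ > (0 : ℝ),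
      ∃ T : Finset ((ℝ × E3) × ℝ), (∀ q ∈ T, 0 < q.2) ∧
        Sing M ∩ Icc c d ×ˢ univ ⊆ ⋃ q ∈ T, pcyl q.1 q.2 ∧ ∑ q ∈ T, q.2 ^ 2 ≤ δ)) ∧
  ∀ (F : Flw) (a b Λ G : ℝ), Zc F a b Λ G → (∀ᵐ t, t ∈ Ioo a b → RegT (trk F) t) ∧
    ∀ c d, a < c → c ≤ d → d < b → (∀ t ∈ Icc c d, RegT (trk F) t) →
      ∃ (F' : Flw) (c' d' : ℝ), a ≤ c' ∧ c' < c ∧ d < d' ∧ d' ≤ b ∧ F'.OkA c' d' Λ ∧
        ∀ t ∈ Ioo c' d', RegT (trk F) t ∧ (F'.sl t).G = (F.sl t).G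

/-- **IND**: the geometry does not depend on the defining function -/
def IND : Prop := ∀ S T : Srf, S.Ok → T.Ok → (S.G = T.G → S.μ = T.μ ∧ (∀ R, dsb S R = dsb T R) ∧
    (∀ x ∈ S.G, ∀ e, Pair S x e ↔ Pair T x e) ∧ (∀ G, S.GBd G ↔ T.GBd G) ∧
    ∀ x ∈ S.G, S.A2 x = T.A2 x ∧ S.K x = T.K x ∧ ∀ (v : E3) (c : ℝ),
      (S.H x - ⟪v, S.n x⟫ / c) ^ 2 = (T.H x - ⟪v, T.n x⟫ / c) ^ 2) ∧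
  ∀ (y : E3) (L : E 2 →ₗᵢ[ℝ] E3) (r : ℝ) (C : ℕ → ℝ), 0 < r → S.w y = 0 →
    (∀ z ∈ ball y (2 * r), S.w z = 0 ↔ T.w z = 0) → Fr (S.n y) L → S.Reg y (S.n y) L r C →
    Fr (T.n y) L ∧ T.Reg y (T.n y) L r C

/-- **RSZ**: rescaling -/
def RSZ : Prop := ∀ (F : Flw) (a b t₀ l Λ G : ℝ) (x₀ : E3), 0 < l →
  (∀ s y, RegPt (trk (F.rs x₀ t₀ l)) s y ↔ RegPt (trk F) (t₀ + s / l ^ 2) (x₀ + l⁻¹ • y)) ∧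
  (∀ s, RegT (trk (F.rs x₀ t₀ l)) s ↔ RegT (trk F) (t₀ + s / l ^ 2)) ∧
  (Zc F a b Λ G → Zc (F.rs x₀ t₀ l) (l ^ 2 * (a - t₀)) (l ^ 2 * (b - t₀)) Λ G) ∧
  (Zm F a b Λ G → Zm (F.rs x₀ t₀ l) (l ^ 2 * (a - t₀)) (l ^ 2 * (b - t₀)) Λ G) ∧
  ∀ ε, Zf F a b Λ G ε → Zf (F.rs x₀ t₀ l) (l ^ 2 * (a - t₀)) (l ^ 2 * (b - t₀)) Λ G ε

/-! ### dissipation -/

/-- **STJ**: adding up drops of a monotone function -/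
def STJ : Prop := ∀ (f : ℝ → ℝ≥0∞) (θ : ℝ → ℝ) (U : Set ℝ) (a b : ℝ), a ≤ b → IsOpen U →
  (∀ᵐ t, t ∈ Icc a b → t ∈ U) → AntitoneOn θ (Icc a b) →
  (∀ c d, a ≤ c → c ≤ d → d ≤ b → Icc c d ⊆ U →
    ∫⁻ t in Icc c d, f t ≤ ENNReal.ofReal (θ c - θ d)) →
  ∫⁻ t in Icc a b, f t ≤ ENNReal.ofReal (θ a - θ b)

/-- the dissipation about `(x₀, t₀)` at the time `t` -/
def dsh (F : Flw) (x₀ : E3) (t₀ t : ℝ) : ℝ≥0∞ := ∫⁻ x, ENNReal.ofReal (hk x₀ t₀ t x *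
  ((F.sl t).H x - ⟪x - x₀, F.n (t, x)⟫ / (2 * (t₀ - t))) ^ 2) ∂F.μ t

/-- **HUZ**: monotonicity with dissipation; good times -/
def HUZ : Prop := (∀ (F : Flw) (a b Λ G t₀ s₁ s₂ : ℝ) (x₀ : E3), Zm F a b Λ G → a < s₁ → s₁ ≤ s₂ →
    s₂ < b → s₂ < t₀ → ∫⁻ t in Icc s₁ s₂, dsh F x₀ t₀ t ≤
      ENNReal.ofReal (gs (F.μ s₁) x₀ √(t₀ - s₁) - gs (F.μ s₂) x₀ √(t₀ - s₂))) ∧
  ∀ (F : Flw) (a b Λ G s₁ s₂ D : ℝ) (n : ℕ) (p : Fin n → ℝ × E3), Zm F a b Λ G → a < s₁ →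
    s₁ < s₂ → s₂ < b → (∀ j, s₂ < (p j).1 ∧ gs (F.μ s₁) (p j).2 √((p j).1 - s₁) -
      gs (F.μ s₂) (p j).2 √((p j).1 - s₂) ≤ D) → 0 < D →
    ∃ t ∈ Ioo s₁ s₂, RegT (trk F) t ∧
      ∀ j, dsh F (p j).2 (p j).1 t ≤ ENNReal.ofReal ((n + 1) * D / (s₂ - s₁))

/-- the dissipation of a rescaled slice -/
def dsw (S : Srf) : ℝ≥0∞ := ∫⁻ x, ENNReal.ofReal (Real.exp (-‖x‖ ^ 2 / 4) * S.φ x ^ 2) ∂S.μ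

/-- **DSW**: the same for the rescaled flow -/
def DSW : Prop := ∀ (F : Flw) (a b Λ G t₀ τ₁ τ₂ : ℝ) (x₀ : E3), Zm F a b Λ G → τ₁ ≤ τ₂ →
  a < t₀ - Real.exp (-2 * τ₁) → t₀ ≤ b →
  gs (F.rsl x₀ t₀ τ₂).μ 0 1 ≤ gs (F.rsl x₀ t₀ τ₁).μ 0 1 ∧
  (∀ᵐ τ, τ₁ ≤ τ → RegS F t₀ τ) ∧
  (∀ τ, τ₁ ≤ τ → AR Λ (F.rsl x₀ t₀ τ).μ ∧
    (RegS F t₀ τ → (F.rsl x₀ t₀ τ).Ok ∧ (F.rsl x₀ t₀ τ).GBd G)) ∧
  ∫⁻ τ in Icc τ₁ τ₂, dsw (F.rsl x₀ t₀ τ) ≤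
    ENNReal.ofReal (2 * Real.pi * (gs (F.rsl x₀ t₀ τ₁).μ 0 1 - gs (F.rsl x₀ t₀ τ₂).μ 0 1))

/-- **DSZ**: the dissipation in a ball -/
def DSZ : Prop := ∀ R : ℝ, ∃ C > (0 : ℝ), ∀ (F : Flw) (a b Λ G t₀ τ₁ τ₂ : ℝ) (x₀ : E3),
  Zm F a b Λ G → τ₁ ≤ τ₂ → a < t₀ - Real.exp (-2 * τ₁) → t₀ ≤ b →
  ∫⁻ τ in Icc τ₁ τ₂, dsb (F.rsl x₀ t₀ τ) R ≤
    ENNReal.ofReal (C * (gs (F.rsl x₀ t₀ τ₁).μ 0 1 - gs (F.rsl x₀ t₀ τ₂).μ 0 1)) ∧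
  (τ₁ + 1 ≤ τ₂ → C * (gs (F.rsl x₀ t₀ τ₁).μ 0 1 - gs (F.rsl x₀ t₀ τ₂).μ 0 1) < 1 →
    ∃ τ ∈ Icc (τ₂ - 1) τ₂, RegS F t₀ τ ∧ dsb (F.rsl x₀ t₀ τ) R ≤ 1)

/-- **SLZ**: self-similarity of the limits, good regular times -/
def SLZ : Prop := ∀ (F : Flw) (a b Λ G τ₀ : ℝ) (x₀ : E3) (τ : ℕ → ℝ) (κ : Measure E3), a < b →
  Zm F a b Λ G → Slow (NN 2 F.μ x₀ b) τ₀ → IsLocallyFiniteMeasure κ → Tendsto τ atTop atTop →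
  WeakTendsto (fun i => NN 2 F.μ x₀ b (τ i)) κ →
  (∀ s < 0, WeakTendsto (fun i => (F.rs x₀ b (Real.exp (τ i))).μ s) (ext 2 κ s)) ∧
  ∃ σ : ℕ → ℝ, (∀ i, σ i ∈ Icc (τ i) (τ i + 1)) ∧ (∀ᶠ i in atTop, RegS F b (σ i) ∧
    (F.rsl x₀ b (σ i)).Ok ∧ AR Λ (F.rsl x₀ b (σ i)).μ ∧ (F.rsl x₀ b (σ i)).GBd G) ∧
    GSeq (fun i => F.rsl x₀ b (σ i)) (max Λ 1) κ

/-! ### White's theorem -/

/-- **ORL**: a local flow about a region without singular points -/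
def ORL : Prop := ∀ (M : ℝ → Set E3) (c d R : ℝ) (x : E3), c < d → 0 < R →
  (∀ t ∈ Ioo c d, ∀ y ∈ ball x (2 * R), y ∉ M t → ∀ᶠ p : ℝ × E3 in 𝓝 (t, y), p.2 ∉ M p.1) →
  (∀ t ∈ Ioo c d, ∀ y ∈ ball x (2 * R), y ∈ M t → RegPt M t y) →
  ∃ F : Flw, OkL F c d (ball x R) ∧ ∀ t ∈ Ioo c d, ∀ y ∈ ball x R, F.u (t, y) = 0 ↔ y ∈ M t

/-- **PTZ**: ancestors, and the use of two centres -/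
def PTZ : Prop := ∀ Λ : ℝ, ∃ R ≥ (1 : ℝ),
  (∀ (F : Flw) (a b G s t : ℝ) (y : E3), Zm F a b Λ G → a < t → t < s → s < b → F.u (s, y) = 0 →
    2 * Real.pi * (s - t) ≤ (F.μ t).real (closedBall y (R * √(s - t))) ∧
    ∃ z, F.u (t, z) = 0 ∧ ‖z - y‖ ≤ R * √(s - t)) ∧
  ∀ K δ η : ℝ, 0 < δ → 0 < η → ∃ ε > (0 : ℝ), ∀ (F : Flw) (a b G s s' t₀ ρ : ℝ) (y₁ y₂ y : E3),
    Zm F a b Λ G → 0 < ρ → a < t₀ → t₀ ≤ s' - 2 * (δ * ρ) ^ 2 → s' ≤ s → s ≤ s' + (K * ρ) ^ 2 →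
    s < b → F.u (s, y₁) = 0 → F.u (s, y₂) = 0 → F.u (s', y) = 0 → ‖y₁ - y‖ ≤ K * ρ →
    ‖y₂ - y‖ ≤ K * ρ → gs (F.μ t₀) y₁ √(s - t₀) ≤ 1 + ε → gs (F.μ t₀) y₂ √(s - t₀) ≤ 1 + ε →
    ∃ t ∈ Ioo (s' - 2 * (δ * ρ) ^ 2) (s' - (δ * ρ) ^ 2), RegT (trk F) t ∧ ∃ z, F.u (t, z) = 0 ∧
      ‖z - y‖ ≤ 2 * R * δ * ρ ∧ |⟪y₁ - y₂, F.n (t, z)⟫| ≤ η * ρ

/-- the conclusion of `WLZ` -/
def LBL (σ R c : ℝ) (C : ℕ → ℝ) : Prop := ∀ (F : Flw) (a b s ρ : ℝ) (y : E3) (B : Set E3),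
  OkL F a b B → Anc F a b B R → 0 < ρ → a ≤ s - ρ ^ 2 → s < b → closedBall y ρ ⊆ B →
  F.u (s, y) = 0 → F.TL s y ρ σ → ∃ L, Fr (F.n (s, y)) L ∧ ∃ v : Z2 → ℝ,
    ∀ t ∈ Ioc (s - (c * ρ) ^ 2) s, ContDiffOn ℝ ∞ (fun x => v (t, x)) (ball 0 (c * ρ)) ∧
      (F.sl t).Gr y (F.n (s, y)) L (c * ρ) (c * ρ) (fun x => v (t, x)) ∧
      (∀ x, ‖x‖ < c * ρ → |v (t, x)| ≤ C 0 * (‖x‖ ^ 2 + (s - t)) / ρ ∧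
        ‖fderiv ℝ (fun x => v (t, x)) x‖ ≤ C 0 * (‖x‖ / ρ + (s - t) / ρ ^ 2) ∧
        ∀ k, 1 ≤ k → ‖iteratedFDeriv ℝ k (fun x => v (t, x)) x‖ ≤ C k * ρ / ρ ^ k) ∧
      ∀ z ∈ ball y (c * ρ), F.u (t, z) = 0 →
        ‖F.n (t, z) - F.n (s, y)‖ ≤ C 0 * (‖z - y‖ / ρ + (s - t) / ρ ^ 2)

/-- **WLZ**: small tilt gives a graph with all bounds -/
def WLZ : Prop := ∃ σ > (0 : ℝ), σ ≤ 1 / 16 ∧ ∀ R ≥ (1 : ℝ), ∃ c > (0 : ℝ), c ≤ 1 / 4 ∧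
  ∃ C : ℕ → ℝ, (∀ k, 0 ≤ C k) ∧ LBL σ R c C

/-- **WHL**: White's theorem for local flows -/
def WHL : Prop := ∀ R ≥ (1 : ℝ), ∃ K δ η : ℝ, 0 < δ ∧ 0 < η ∧ ∀ σ > (0 : ℝ), ∃ c > (0 : ℝ),
  c ≤ 1 / 2 ∧ ∃ C : ℕ → ℝ, C 0 ≤ σ ∧ C 1 ≤ σ ∧ ∀ (F : Flw) (t r : ℝ) (x : E3), 0 < r →
    OkL F (t - 3 * r ^ 2) t (ball x (2 * r)) → Anc F (t - 3 * r ^ 2) t (ball x (2 * r)) R →
    Two F (t - 3 * r ^ 2) t (ball x (2 * r)) R K δ η →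
    ∀ s ∈ Ioo (t - r ^ 2) t, ∀ y ∈ ball x r, F.u (s, y) = 0 → F.Reg s y (c * r) C

/-- **WHZ**: White's theorem for the class with the gap -/
def WHZ : Prop := ∀ Λ : ℝ, ∃ ε₁ > (0 : ℝ), ∀ σ > (0 : ℝ), ∃ c > (0 : ℝ), ∃ C : ℕ → ℝ,
  C 0 ≤ σ ∧ C 1 ≤ σ ∧ ∀ (F : Flw) (a b G ε θ t r : ℝ) (x : E3), Zf F a b Λ G ε → θ ≤ ε₁ → θ < ε →
    0 < r → a < t - 4 * r ^ 2 → t ≤ b →
    (∀ y ∈ ball x (4 * r), ∀ ρ ∈ Icc r (2 * r), gs (F.μ (t - 4 * r ^ 2)) y ρ ≤ 1 + θ) →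
    ∀ s ∈ Ioo (t - r ^ 2) t, RegT (trk F) s → ∀ y ∈ ball x r, F.u (s, y) = 0 →
      ∃ L, Fr (F.n (s, y)) L ∧ (F.sl s).Reg y (F.n (s, y)) L (c * r) C

/-- **LOZ**: White's theorem for the rescaled slices -/
def LOZ : Prop := ∀ Λ ε₀ : ℝ, 0 < ε₀ → ∃ ε > (0 : ℝ), ∀ σ > (0 : ℝ), ∃ C : ℕ → ℝ, C 0 ≤ σ ∧
  C 1 ≤ σ ∧ ∀ (F : Flw) (a b G τ₀ : ℝ) (x₀ p : E3) (τ : ℕ → ℝ) (κ : Measure E3), a < b →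
    Zf F a b Λ G ε₀ → Slow (NN 2 F.μ x₀ b) τ₀ → IsLocallyFiniteMeasure κ →
    Tendsto τ atTop atTop → WeakTendsto (fun i => NN 2 F.μ x₀ b (τ i)) κ →
    (∃ᶠ ρ in 𝓝[>] (0 : ℝ), gs κ p ρ ≤ 1 + ε) → ∃ δ > (0 : ℝ), ∃ r > (0 : ℝ), ∀ᶠ i in atTop,
      RegS F b (τ i) → ∀ y ∈ ball p δ, (F.rsl x₀ b (τ i)).w y = 0 →
        ∃ L, Fr ((F.rsl x₀ b (τ i)).n y) L ∧
          (F.rsl x₀ b (τ i)).Reg y ((F.rsl x₀ b (τ i)).n y) L r C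

/-! ### tangent flows -/

/-- **DAZ**: multiplicity one almost everywhere -/
def DAZ : Prop := ∀ (F : Flw) (a b Λ G τ₀ : ℝ) (x₀ : E3) (κ : Measure E3), a < b → Zm F a b Λ G →
  Slow (NN 2 F.μ x₀ b) τ₀ → κ ∈ limitSet (NN 2 F.μ x₀ b) → ∀ ε > (0 : ℝ), κ (Hi κ ε) = 0

/-- **DNZ**: multiplicity one everywhere -/
def DNZ : Prop := ∀ (F : Flw) (a b Λ G ε₀ τ₀ : ℝ) (x₀ : E3) (κ : Measure E3), a < b → 0 < ε₀ →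
  Zf F a b Λ G ε₀ → Slow (NN 2 F.μ x₀ b) τ₀ → κ ∈ limitSet (NN 2 F.μ x₀ b) →
  ∀ p, ∀ ε > 0, ∃ᶠ ρ in 𝓝[>] (0 : ℝ), gs κ p ρ ≤ 1 + ε

/-- **TFZ**: tangent flows are smooth, of multiplicity one, and good -/
def TFZ : Prop := ∀ (F : Flw) (a b Λ G ε₀ τ₀ : ℝ) (x₀ : E3) (κ : Measure E3), a < b → 0 < ε₀ →
  Zf F a b Λ G ε₀ → Slow (NN 2 F.μ x₀ b) τ₀ → κ ∈ limitSet (NN 2 F.μ x₀ b) →
  ∃ S, Shr S Λ G ∧ κ = S.μ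

/-! ### Gauss-Bonnet -/

/-- **CHI**: the total curvature and the degree -/
def CHI : Prop := ∀ S : Srf, S.Ok → IsCompact S.G → ∫ x, S.K x ∂S.μ = 2 * Real.pi * S.chi

/-- **GBZ**: the local bound from a bound for the total curvature of the components -/
def GBZ : Prop := ∀ Λ g : ℝ, ∃ G : ℝ, ∀ S : Srf, S.Ok → IsCompact S.G → AR Λ S.μ →
  (∀ x ∈ S.G, -g ≤ ∫ y in connectedComponentIn S.G x, S.K y ∂S.μ) → S.GBd G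

/-! ### the bridge from Brakke flows -/

/-- **SLC**: a choice of slices -/
def SLC : Prop := ∀ M : ℝ → Set E3, ∃ F : Flw, (∀ t, trk F t = M t) ∧
  ∀ t, IsClosed (M t) → RegT M t → (F.sl t).Ok

/-- **BRF**: area ratios, monotonicity, slow variation -/
def BRF : Prop := ∀ (μ : ℝ → Measure E3) (M : ℝ → Set E3) (a b : ℝ), IsIntegralBrakkeFlow 2 μ →
  μ 0 univ < ⊤ → 0 < a → a < b → (∀ t ∈ Ioo a b, μ t = (μH[2] : Measure E3).restrict (M t)) →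
  (∃ Λ, ∀ t ∈ Ioo a b, AR Λ (H2.restrict (M t))) ∧
  (∀ (s₁ s₂ t₀ : ℝ) (x : E3), a < s₁ → s₁ ≤ s₂ → s₂ < b → s₂ < t₀ →
    gs (H2.restrict (M s₂)) x √(t₀ - s₂) ≤ gs (H2.restrict (M s₁)) x √(t₀ - s₁)) ∧
  (∀ x₀, ∃ τ₀, Slow (NN 2 (fun t => H2.restrict (M t)) x₀ b) τ₀) ∧
  ∀ x₀ ν, IsTangentFlow 2 μ x₀ b ν → ∃ κ ∈ limitSet (NN 2 (fun t => H2.restrict (M t)) x₀ b),
    ∀ A : Set E3, κ = H2.restrict A → ν (-1) = (μH[2] : Measure E3).restrict A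

/-- **LDZ**: the lower density bound -/
def LDZ : Prop := ∀ (F : Flw) (a b Λ G : ℝ), Zc F a b Λ G →
  (∀ (s₁ s₂ t₀ : ℝ) (x : E3), a < s₁ → s₁ ≤ s₂ → s₂ < b → s₂ < t₀ →
    gs (F.μ s₂) x √(t₀ - s₂) ≤ gs (F.μ s₁) x √(t₀ - s₁)) →
  (∀ t ∈ Ioo a b, ∀ x ∈ trk F t,
    (t, x) ∈ closure {p : ℝ × E3 | p.2 ∈ trk F p.1 ∧ RegPt (trk F) p.1 p.2}) → Zm F a b Λ G

/-! ### the density gap -/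

/-- near `(t, x)` the slices are graphs of arbitrarily small slope -/
def Lip (T : ℝ → Set E3) (t : ℝ) (x : E3) : Prop := ∀ σ > (0 : ℝ), ∃ r > (0 : ℝ), ∃ e : E3,
  ‖e‖ = 1 ∧ ∀ s ∈ Icc (t - r ^ 2) t, ∀ y ∈ T s, ∀ y' ∈ T s, ‖y - x‖ ≤ r → ‖y' - x‖ ≤ r →
    |⟪y' - y, e⟫| ≤ σ * ‖y' - y‖

/-- Gaussian ratios at most `θ` about all points of the cylinder below `(t, x)` -/
def UBA (ν : ℝ → Measure E3) (t : ℝ) (x : E3) (ρ θ : ℝ) : Prop :=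
  ∀ s s', t - ρ ^ 2 ≤ s' → s' < s → s ≤ t → ∀ y, ‖y - x‖ ≤ ρ → gs (ν s') y √(s - s') ≤ θ

/-- **FLAT**: Gaussian ratios close to one give Lipschitz graphs -/
def FLAT : Prop := ∀ Λ : ℝ, ∃ ε > (0 : ℝ), ∀ (μ : ℝ → Measure E3) (M : ℝ → Set E3) (a b t ρ : ℝ)
  (x : E3), IsIntegralBrakkeFlow 2 μ → μ 0 univ < ⊤ → 0 ≤ a →
  (∀ s ∈ Ioo a b, μ s = (μH[2] : Measure E3).restrict (M s) ∧ IsClosed (M s) ∧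
    AR Λ (H2.restrict (M s))) →
  (∀ s s' y, a < s' → s' < s → s < b → y ∈ M s → 1 ≤ gs (H2.restrict (M s')) y √(s - s')) →
  0 < ρ → a < t - ρ ^ 2 → t < b → x ∈ M t → UBA (fun s => H2.restrict (M s)) t x ρ (1 + ε) →
  Lip M t x

/-- **GUP**: Gaussian ratios of graphs of small slope -/
def GUP : Prop := ∀ Λ η : ℝ, 0 < η → ∃ σ > (0 : ℝ), ∃ N > (0 : ℝ), ∀ (A : Set E3) (x e : E3)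
  (r ρ : ℝ), MeasurableSet A → AR Λ (H2.restrict A) → ‖e‖ = 1 → 0 < ρ → N * ρ ≤ r →
  (∀ y ∈ A, ∀ y' ∈ A, ‖y - x‖ ≤ r → ‖y' - x‖ ≤ r → |⟪y' - y, e⟫| ≤ σ * ‖y' - y‖) →
  gs (H2.restrict A) x ρ ≤ 1 + η

/-- **GAP**: the density gap -/
def GAP : Prop := ∀ Λ : ℝ, ∃ ε > (0 : ℝ), ∀ (μ : ℝ → Measure E3) (F : Flw) (a b G s t : ℝ)
  (x : E3), IsIntegralBrakkeFlow 2 μ → μ 0 univ < ⊤ → 0 ≤ a →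
  (∀ s ∈ Ioo a b, μ s = (μH[2] : Measure E3).restrict (trk F s)) → Zm F a b Λ G →
  a < s → s < t → t < b → F.u (t, x) = 0 → gs (F.μ s) x √(t - s) < 1 + ε →
  Tendsto (fun r => gs (F.μ (t - r ^ 2)) x r) (𝓝[>] 0) (𝓝 1)

/-! ### the result -/

/-- **CL3**: tangent flows of flows with a small singular set -/
def CL3 : Prop := ∀ (μ : ℝ → Measure E3) (M : ℝ → Set E3) (a t₀ : ℝ) (x₀ : E3)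
  (ν : ℝ → Measure E3), IsIntegralBrakkeFlow 2 μ → μ 0 univ < ⊤ → 0 < t₀ → a < t₀ →
  IsSmallSing M a t₀ → (∀ t ∈ Ioo a t₀, μ t = (μH[2] : Measure E3).restrict (M t)) →
  IsTangentFlow 2 μ x₀ t₀ ν → ∃ S Λ G, Shr S Λ G ∧ ν (-1) = (μH[2] : Measure E3).restrict S.G

end Vale.Agent.P218Z
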