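import Vale.Agent.P218Z.FlC
import Vale.Agent.P218Z.Ho
import Vale.Agent.P218Z.Spec

/-!
# P218Z: the row GAP
-/

open MeasureTheory Metric Filter Topology Set
open scoped RealInnerProductSpace ENNReal NNReal
open Vale.Agent.P218.H552
open Vale.Agent.P218R Vale.Agent.P218E

noncomputable section

namespace Vale.Agent.P218Z

namespace Fl

theorem gs_cont2 {Λ ρ : ℝ} {ν : Measure E3} (hΛ : 0 ≤ Λ) (h : AR Λ ν) (x : E3) (hρ : 0 < ρ) :
    ContinuousAt (fun p : E3 × ℝ => gs ν p.1 p.2) (x, ρ) := by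
  have h2 : Continuous fun p : E3 × ℝ => 12288 * Gs.C0 * Λ * (‖p.1 - x‖ + |p.2 - ρ|) / ρ := by
    fun_prop
  rw [ContinuousAt, tendsto_iff_norm_sub_tendsto_zero]
  refine squeeze_zero' (.of_forall fun _ => norm_nonneg _) ?_ (by simpa using h2.tendsto (x, ρ))
  filter_upwards [prod_mem_nhds (closedBall_mem_nhds x hρ)
    (Icc_mem_nhds (half_lt_self hρ) (show ρ < 2 * ρ by linarith))] with p hp
  exact Gs.gs_lip hΛ h hρ (by linarith [hp.2.1]) hp.2.2 (mem_closedBall_iff_norm.1 hp.1)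

end Fl

/-- **GAP** -/
theorem gap0 : GAP := fun Λ => by
  obtain ⟨ε, ε0, h⟩ := flat (le_max_right Λ 0)
  refine ⟨ε, ε0, fun μ F a b G s t x hB h0 ha hμ hZ h1 h2 h3 hx hg => ?_⟩
  obtain ⟨T, H, hB⟩ := exists_BF hB
  obtain ⟨c, hc⟩ : ∃ c : ℝ≥0, H2 = c • (μH[2] : Measure E3) :=
    ⟨_, by simpa using Measure.euclideanHausdorffMeasure_def (X := E3) 2⟩
  have e : ∀ r ∈ Ioo a b, c • μ r = F.μ r := fun r hr => by
    rw [hμ r hr, ← Measure.restrict_smul, ← hc]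
    rfl
  have car : ∀ r ∈ Ioo a b, ∀ᵐ y ∂F.μ r, y ∈ trk F r := fun r hr => by
    refine ae_restrict_mem (IsClosed.measurableSet ?_)
    have := (hZ.cpt r r hr.1 hr.2).isClosed.preimage (Continuous.prodMk_right r)
    simpa using this
  have hW : Wf F.μ (trk F) a b (max Λ 0) := by
    refine ⟨le_max_right _ _, fun r hr => Gs.ar_max (hZ.ar r hr), car,
      fun t₀ s R β v y z a1 a2 a3 hy a4 a5 a6 a7 => ?_, hZ.ld⟩
    have := mv (θ := 1) (e := v) (BF.smul hB c) (by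
      rw [Measure.smul_apply]
      exact ENNReal.mul_lt_top ENNReal.coe_lt_top h0) (ha.trans a1.le) a2 a4 a5 a6
      (fun r hr => by
        have k : r ∈ Ioo a b := ⟨a1.trans_le hr.1, hr.2.trans a3⟩
        rw [e r k]
        exact (car r k).mono (a7 r hr)) zero_le_one (Eventually.frequently (by
        filter_upwards [Ioo_mem_nhdsLT (a1.trans a2)] with r hr
        rw [e r ⟨hr.1, hr.2.trans a3⟩]
        exact hZ.ld s r y hr.1 hr.2 a3 hy))
    rwa [one_mul, e t₀ ⟨a1, a2.trans a3⟩] at this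
  have c1 : ContinuousAt (fun p : ℝ × E3 => gs (F.μ s) p.2 √(p.1 - s)) (t, x) :=
    ContinuousAt.comp (g := fun p : E3 × ℝ => gs (F.μ s) p.1 p.2)
      (f := fun p : ℝ × E3 => (p.2, √(p.1 - s))) (Fl.gs_cont2 hW.pos
        (hW.ar s ⟨h1, h2.trans h3⟩) x (Real.sqrt_pos.2 (sub_pos.2 h2))) (by fun_prop)
  obtain ⟨δ, δ0, hδ⟩ := nhds_basis_closedBall.eventually_iff.1
    ((c1.eventually_lt_const hg).and ((continuous_fst.tendsto _).eventually_const_lt h2))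
  obtain ⟨ρ, ρ0, ρ1, ρ2⟩ : ∃ ρ > (0 : ℝ), ρ ≤ δ ∧ ρ ≤ 1 :=
    ⟨min δ 1, by positivity, min_le_left _ _, min_le_right _ _⟩
  have ρ3 : ρ ^ 2 ≤ δ := by nlinarith
  have k : ∀ r y, t - ρ ^ 2 ≤ r → r ≤ t + ρ ^ 2 → ‖y - x‖ ≤ ρ →
      gs (F.μ s) y √(r - s) < 1 + ε ∧ s < r := fun r y a1 a2 a3 => hδ (x := (r, y)) (by
    rw [mem_closedBall, Prod.dist_eq, max_le_iff, Real.dist_eq, abs_le, dist_eq_norm]
    exact ⟨⟨by linarith, by linarith⟩, a3.trans ρ1⟩)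
  have k0 := (k (t - ρ ^ 2) x le_rfl (by nlinarith) (by simpa using ρ0.le)).2
  exact h F.μ (trk F) a b t ρ x hW (fun _ _ => rfl) ρ0 (h1.trans k0) h3 hx
    fun r r' y a1 a2 a3 a4 a5 => (hZ.mono s r' r y h1 (k0.le.trans a1) (a3.trans h3) a2).trans
      (k r y (a1.trans a2.le) a4 a5).1.le

end Vale.Agent.P218Z
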