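import Vale.Agent.P218Z.Spec
import Vale.Agent.P218E.Gbn
import Vale.Agent.P218M1.Fin

/-!
# P218Z: the local Gauss-Bonnet bound from a bound for the total curvature of the components
-/

open MeasureTheory Metric Filter Topology Set
open scoped ContDiff ENNReal RealInnerProductSpace
open Vale.Agent.P218R Vale.Agent.P218E Vale.Agent.P218E.Gbn

noncomputable section

namespace Vale.Agent.P218Z

namespace Gbz

/-- all connected pieces have degree at least `-g` -/
def Pc (S : Srf) (g : ℝ) : Prop := ∀ T : Srf, T.Ok → T.G ⊆ S.G → IsPreconnected T.G →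
  IsClosed (S.G \ T.G) → -g ≤ T.chi

theorem cq {S : Srf} (h : S.Ok) (r : ℝ) : Continuous fun x => 1 / r ^ 2 + S.H x ^ 2 :=
  continuous_const.add (h.sH.continuous.pow 2)

theorem one (Λ g : ℝ) (L0 : 0 ≤ Λ) : ∃ G ≥ (0 : ℝ), ∀ S : Srf, S.Ok → IsCompact S.G →
    IsPreconnected S.G → AR Λ S.μ → -g ≤ S.chi → ∀ y r, 0 < r → ∫ x in ball y r, S.A2 x ∂S.μ ≤
      G * ∫ x in closedBall y (20 * r), (1 / r ^ 2 + S.H x ^ 2) ∂S.μ := by
  obtain ⟨C₀, hb⟩ := gbx' P218M1.mono32'
  obtain ⟨C, C0, hm⟩ := P218M1.mono32'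
  refine ⟨|C₀| * (3 + Λ + |g|) * (C + 1), by positivity, fun S h hG hc hA hg y r hr => ?_⟩
  have := hA.fin
  have iq := Dg.integ1 h hG (cq h r)
  have p0 : ∀ x, 0 ≤ 1 / r ^ 2 + S.H x ^ 2 := fun x => by positivity
  set Q := ∫ x in closedBall y (20 * r), (1 / r ^ 2 + S.H x ^ 2) ∂S.μ
  have Q0 : 0 ≤ Q := integral_nonneg p0
  rcases (ball y r ∩ S.G).eq_empty_or_nonempty with e | ⟨x, x1, x2⟩
  · rw [h.restrict, e, Measure.restrict_empty, integral_zero_measure]
    positivity
  have h1 := le_self_add.trans (hm S (fun _ => 1) x r h contDiff_const (fun _ => zero_le_one) x2 hr)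
  simp only [Srf.tg, gradient_fun_const, map_zero, norm_zero, zero_div, add_zero, one_mul] at h1
  rw [← ofReal_integral_eq_lintegral_ofReal iq.restrict (.of_forall p0),
    ← ENNReal.ofReal_mul C0.le,
    ENNReal.ofReal_le_ofReal_iff (mul_nonneg C0.le (integral_nonneg p0))] at h1
  have h2 : 1 ≤ C * Q := h1.trans (mul_le_mul_of_nonneg_left (setIntegral_mono_set iq.restrict
    (.of_forall p0) (ball_subset_closedBall.trans (closedBall_subset_closedBall'
      (by linarith [mem_ball.1 x1]))).eventuallyLE) C0.le)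
  have h3 : ∫ x in closedBall y (20 * r), S.H x ^ 2 ∂S.μ ≤ Q :=
    integral_mono (Dg.integ1 h hG (h.sH.continuous.pow 2)).restrict iq.restrict fun x =>
      le_add_of_nonneg_left (by positivity)
  have h4 : 0 ≤ ∫ x in closedBall y (20 * r), S.H x ^ 2 ∂S.μ := by positivity
  have h5 : |S.chi| ≤ 2 + |g| := abs_le.2
    ⟨by linarith [le_abs_self g], by linarith [chi_le h hG hc, abs_nonneg g]⟩
  refine (hb S Λ h hG hc L0 hA y r hr).trans ?_
  rw [mul_assoc _ (C + 1)]
  exact mul_le_mul (mul_le_mul (le_abs_self _) (by linarith) (by positivity) (abs_nonneg _))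
    (by linarith) (by linarith) (by positivity)

theorem ind {Λ g G : ℝ} (h1 : ∀ S : Srf, S.Ok → IsCompact S.G →
    IsPreconnected S.G → AR Λ S.μ → -g ≤ S.chi → ∀ y r, 0 < r → ∫ x in ball y r, S.A2 x ∂S.μ ≤
      G * ∫ x in closedBall y (20 * r), (1 / r ^ 2 + S.H x ^ 2) ∂S.μ) (N : ℕ) :
    ∀ S : Srf, S.Ok → IsCompact S.G → Cov N S.G → AR Λ S.μ → Pc S g → ∀ y r, 0 < r →
      ∫ x in ball y r, S.A2 x ∂S.μ ≤
        G * ∫ x in closedBall y (20 * r), (1 / r ^ 2 + S.H x ^ 2) ∂S.μ := by
  induction N with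
  | zero =>
    rintro S - - ⟨K, a, -, e⟩ - - y r -
    obtain rfl := Finset.card_eq_zero.1 (Nat.le_zero.1 a)
    have : S.μ = 0 := by simp [Srf.μ, e]
    simp [this]
  | succ N ih =>
    intro S h hG hc hA hp y r hr
    obtain ⟨A, B, cA, cB, hd, e, pA, pB⟩ := split hc h.closed
    obtain ⟨T, hT, rfl⟩ := piece h cA cB hd e
    obtain ⟨T', hT', rfl⟩ := piece h cB cA hd.symm (e.trans (union_comm _ _))
    have k1 := hG.of_isClosed_subset cA (e ▸ subset_union_left)
    have k2 := hG.of_isClosed_subset cB (e ▸ subset_union_right)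
    have ar : ∀ U : Srf, U.G ⊆ S.G → AR Λ U.μ := fun U hU x r hr =>
      (Measure.restrict_mono_set _ hU _).trans (hA x r hr)
    have := (ar T (e ▸ subset_union_left)).fin
    have := (ar T' (e ▸ subset_union_right)).fin
    have s1 := fun x => same h hT cB hd e (x := x)
    have s2 := fun x => same h hT' cA hd.symm (e.trans (union_comm _ _)) (x := x)
    have g1 := h1 T hT k1 pA (ar T (e ▸ subset_union_left)) (hp T hT (e ▸ subset_union_left) pA
      (by rwa [e, union_sdiff_cancel_left hd.le_bot])) y r hr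
    have g2 := ih T' hT' k2 pB (ar T' (e ▸ subset_union_right)) (fun U hU a b c =>
      hp U hU (a.trans (e ▸ subset_union_right)) b (by
        rw [e, union_sdiff_distrib, (hd.mono_right a).sdiff_eq_left]
        exact cA.union c)) y r hr
    rw [int_add hT hT' hd e _ (fun x hx => (s1 x hx).1) (fun x hx => (s2 x hx).1)
      (Dg.integ1 hT k1 hT.sA2.continuous) (Dg.integ1 hT' k2 hT'.sA2.continuous),
      int_add hT hT' hd e _ (g := fun x => 1 / r ^ 2 + T.H x ^ 2)
        (g' := fun x => 1 / r ^ 2 + T'.H x ^ 2) (fun x hx => by rw [(s1 x hx).2.1])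
        (fun x hx => by rw [(s2 x hx).2.1]) (Dg.integ1 hT k1 (cq hT r))
        (Dg.integ1 hT' k2 (cq hT' r))]
    linarith

theorem pc (chi : CHI) {S : Srf} {g : ℝ} (h : S.Ok) (hG : IsCompact S.G)
    (hg : ∀ x ∈ S.G, -g ≤ ∫ y in connectedComponentIn S.G x, S.K y ∂S.μ) : Pc S |g| := by
  intro T hT a b c
  have e : S.G = T.G ∪ (S.G \ T.G) := (union_sdiff_cancel a).symm
  have h1 := chi T hT (hG.of_isClosed_subset hT.closed a)
  have h2 : -|g| ≤ ∫ x, T.K x ∂T.μ := by
    rcases T.G.eq_empty_or_nonempty with e0 | ⟨x, hx⟩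
    · simp [Srf.μ, e0]
    · have e1 : connectedComponentIn S.G x = T.G := by
        refine subset_antisymm ?_ (b.subset_connectedComponentIn hx a)
        refine ((isPreconnected_iff_subset_of_disjoint_closed.1 isPreconnected_connectedComponentIn
          _ _ hT.closed c (e ▸ connectedComponentIn_subset _ _) (by simp)).resolve_right fun h' =>
            (h' (mem_connectedComponentIn (a hx))).2 hx)
      have h3 := hg x (a hx)
      rw [e1, h.restrict, inter_eq_left.2 a] at h3
      refine (neg_le_neg (le_abs_self g)).trans (h3.trans_eq (hT.int_congr fun z hz => ?_))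
      obtain ⟨s1, s2, -⟩ := same h hT c disjoint_sdiff_right e hz
      linarith [S.A2_eq z, T.A2_eq z]
  by_contra! h3
  nlinarith [Real.pi_gt_three, abs_nonneg g]

end Gbz

theorem gbz (chi : CHI) : GBZ := by
  intro Λ g
  obtain ⟨G, G0, h1⟩ := Gbz.one |Λ| |g| (abs_nonneg _)
  refine ⟨G * (1 + 400 * |Λ|), fun S h hG hA hg y r hr => ?_⟩
  replace hA := hA.mono (le_abs_self _)
  have := hA.fin
  obtain ⟨N, hN⟩ := ex_cov hG (lo1 _ h).1
  refine (Gbz.ind h1 N S h hG hN hA (Gbz.pc chi h hG hg) y r hr).trans ?_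
  rw [mul_assoc, integral_add (g := fun x => S.H x ^ 2) (Dg.integ1 h hG continuous_const).restrict
    (Dg.integ1 h hG (h.sH.continuous.pow 2)).restrict, setIntegral_const, smul_eq_mul]
  have h2 := hA.real (abs_nonneg _) (x := y) (r := 20 * r) (by positivity) subset_rfl
  have h3 : S.μ.real (closedBall y (20 * r)) * (1 / r ^ 2) ≤ 400 * |Λ| := by
    rw [mul_one_div, div_le_iff₀ (by positivity)]
    linarith
  have h4 : 0 ≤ ∫ x in closedBall y (20 * r), S.H x ^ 2 ∂S.μ := by positivity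
  exact mul_le_mul_of_nonneg_left (by nlinarith [abs_nonneg Λ]) G0

end Vale.Agent.P218Z
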