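import Vale.Agent.P218Z.WmA
import Vale.Agent.P218Z.Spec
import Vale.Agent.P218R.Sml
import Vale.Agent.P218R.Base

/-!
# P218Z: the lower density bound and the monotonicity of Gaussian ratios for weak flows
-/

open MeasureTheory Set Filter Topology Metric
open scoped ENNReal NNReal RealInnerProductSpace ContDiff
open Vale.Agent.P218.H552
open Vale.Agent.P366.Stmt (E)
open Vale.Agent.P366W (Fr adj)
open Vale.Agent.P218R Vale.Agent.P218R.Gs

noncomputable section

namespace Vale.Agent.P218Z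

namespace Ld

variable {e y : E3} {L : E 2 →ₗᵢ[ℝ] E3} {A : Set E3} {r σ : ℝ}

theorem proj_le (hF : Fr e L) (h : ball 0 r ⊆ (fun x => adj L (x - y)) '' A) :
    volume.restrict (ball (0 : E 2) r) ≤ (H2.restrict A).map fun x => adj L (x - y) := by
  have lip : LipschitzWith 1 fun x : E3 => adj L (x - y) := LipschitzWith.of_dist_le_mul fun x y => by
    rw [dist_eq_norm, dist_eq_norm, ← map_sub, sub_sub_sub_cancel_right, NNReal.coe_one, one_mul]
    exact hF.norm_adj _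
  refine Measure.le_iff.2 fun B hB => ?_
  rw [Measure.map_apply lip.continuous.measurable hB, Measure.restrict_apply hB,
    Measure.restrict_apply (lip.continuous.measurable hB),
    ← EuclideanSpace.euclideanHausdorffMeasure_eq_volume]
  refine (measure_mono (t := (fun x => adj L (x - y)) '' ((fun x => adj L (x - y)) ⁻¹' B ∩ A))
    fun z hz => ?_).trans ?_
  · obtain ⟨x, h1, rfl⟩ := h hz.2
    exact ⟨x, ⟨hz.1, h1⟩, rfl⟩
  · simp only [H2, Measure.euclideanHausdorffMeasure_def, Measure.smul_apply, ENNReal.smul_def,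
      smul_eq_mul]
    gcongr
    simpa using lip.hausdorffMeasure_image_le (d := 2) (by norm_num) _

theorem int_exp (ν : Measure E3) [IsFiniteMeasure ν] {f : E3 → ℝ} (hf : Continuous f)
    (h0 : ∀ x, f x ≤ 0) : Integrable (fun x => Real.exp (f x)) ν :=
  .of_bound (by fun_prop) 1 (.of_forall fun x => by
    rw [Real.norm_eq_abs, abs_of_pos (Real.exp_pos _)]
    exact Real.exp_le_one_iff.2 (h0 x))

theorem cone_low {ν : Measure E3} [IsFiniteMeasure ν] (hν : H2.restrict A ≤ ν)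
    (mA : MeasurableSet A) (hF : Fr e L) (r0 : 0 < r) (σ0 : 0 < σ)
    (h : ball 0 r ⊆ (fun x => adj L (x - y)) '' A)
    (hc : ∀ x ∈ A, ‖x - y‖ ^ 2 ≤ (1 + σ ^ 2) * ‖adj L (x - y)‖ ^ 2) :
    ∀ᶠ ρ in 𝓝[>] (0 : ℝ), (1 + σ ^ 2)⁻¹ * (1 - σ) ≤ gs ν y ρ := by
  have := isFiniteMeasure_of_le ν hν
  filter_upwards [small (r := r) 2 σ0, self_mem_nhdsWithin] with ρ hρ ρ0
  have ρ0 : 0 < ρ := ρ0
  set c := 4 * ρ ^ 2 / (1 + σ ^ 2) with hc'
  have c0 : 0 < c := by positivity
  have c1 : c ≤ 4 * ρ ^ 2 := div_le_self (by positivity) (by nlinarith)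
  have i2 := pl_int c0 0
  have n : ∀ {a b : ℝ}, 0 < b → -a ^ 2 / b ≤ 0 := fun hb =>
    div_nonpos_of_nonpos_of_nonneg (neg_nonpos.2 (sq_nonneg _)) hb.le
  have m : Measurable fun x => adj L (x - y) := by fun_prop
  have j1 := int_exp (H2.restrict A) (f := fun x => -‖adj L (x - y) - 0‖ ^ 2 / c) (by fun_prop)
    fun x => n c0
  have j2 : ∀ (κ : Measure E3) [IsFiniteMeasure κ],
      Integrable (fun x => Real.exp (-‖x - y‖ ^ 2 / (4 * ρ ^ 2))) κ := fun κ _ =>
    int_exp κ (by fun_prop) fun x => n (by positivity)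
  have sm : AEStronglyMeasurable (fun z : E 2 => Real.exp (-‖z - 0‖ ^ 2 / c))
      ((H2.restrict A).map fun x => adj L (x - y)) := by fun_prop
  have k1 := integral_mono_measure (proj_le hF h) (.of_forall fun z => (Real.exp_pos _).le)
    ((integrable_map_measure sm m.aemeasurable).2 j1)
  rw [integral_map m.aemeasurable sm] at k1
  have k2 := (setIntegral_mono_on j1 (j2 _) mA fun x hx => Real.exp_le_exp.2 (by
    rw [sub_zero, hc', div_div_eq_mul_div]
    gcongr
    linarith [hc x hx])).trans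
      (integral_mono_measure hν (.of_forall fun z => (Real.exp_pos _).le) (j2 ν))
  have k3 := integral_add_compl (measurableSet_ball (x := (0 : E 2)) (ε := r)) i2
  have i3 := (pl_int (c := 2 * c) (by positivity) 0).const_mul (Real.exp (-r ^ 2 / (2 * c)))
  have k4 := (setIntegral_mono_on i2.integrableOn i3.integrableOn
    (measurableSet_ball (x := (0 : E 2)) (ε := r)).compl fun z hz =>
      exp_tail c0 r0.le (by simpa using hz)).trans
    (setIntegral_le_integral i3 (Eventually.of_forall fun z => by positivity))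
  rw [integral_const_mul, pl (by positivity), neg_div] at k4
  rw [pl c0] at k3
  have k5 : Real.exp (-(r ^ 2 / (2 * c))) ≤ σ / 2 := by
    refine (exp_le (by positivity)).trans ?_
    rw [inv_div]
    calc 2 * c / r ^ 2 ≤ 8 * ρ ^ 2 / r ^ 2 :=
          div_le_div_of_nonneg_right (by linarith) (by positivity)
      _ ≤ _ := by linarith
  have k6 : Real.pi * c * (1 - σ) ≤ ∫ x, Real.exp (-‖x - y‖ ^ 2 / (4 * ρ ^ 2)) ∂ν := by
    nlinarith [mul_le_mul_of_nonneg_right k5 (show 0 ≤ Real.pi * (2 * c) by positivity)]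
  refine le_trans (le_of_eq ?_) (mul_le_mul_of_nonneg_left k6 (by positivity))
  rw [hc']; field_simp

/-- every line in the direction of the gradient meets the zero set in a thin cone -/
theorem hit {u : E3 → ℝ} (hu : Continuous u) (hd : DifferentiableAt ℝ u y) (h0 : u y = 0)
    (hg : gradient u y ≠ 0) (hF : Fr (‖gradient u y‖⁻¹ • gradient u y) L) (σ0 : 0 < σ)
    (σ1 : σ ≤ 1) : ∃ r > (0 : ℝ), ∀ z : E 2, ‖z‖ < r → ∃ s, |s| ≤ σ * ‖z‖ ∧
      u (y + (L z + s • ‖gradient u y‖⁻¹ • gradient u y)) = 0 := by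
  set e := ‖gradient u y‖⁻¹ • gradient u y
  have g0 := norm_pos_iff.2 hg
  have d : ∀ v, fderiv ℝ u y v = ‖gradient u y‖ * ⟪e, v⟫ := fun v => by
    rw [Wm.fd_grad, real_inner_smul_left, mul_inv_cancel_left₀ g0.ne']
  obtain ⟨δ, δ0, hδ⟩ := Metric.eventually_nhds_iff.1 (Asymptotics.isLittleO_iff.1
    (hasFDerivAt_iff_isLittleO_nhds_zero.1 hd.hasFDerivAt)
    (show 0 < ‖gradient u y‖ * σ / 2 by positivity))
  refine ⟨δ / 2, half_pos δ0, fun z hz => ?_⟩
  have key : ∀ s, |s| = σ * ‖z‖ → |u (y + (L z + s • e)) - ‖gradient u y‖ * s| ≤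
      ‖gradient u y‖ * (σ * ‖z‖) := fun s hs => by
    have n : ‖L z + s • e‖ ≤ 2 * ‖z‖ := by
      refine (norm_add_le _ _).trans ?_
      rw [L.norm_map, norm_smul, hF.one, Real.norm_eq_abs, hs]
      nlinarith [norm_nonneg z]
    have := hδ (y := L z + s • e) (by rw [dist_zero_right]; linarith)
    rw [h0, sub_zero, d, hF.e_pt, Real.norm_eq_abs] at this
    nlinarith [mul_le_mul_of_nonneg_left n (show 0 ≤ ‖gradient u y‖ * σ / 2 by positivity)]
  have p : 0 ≤ σ * ‖z‖ := by positivity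
  have a1 := (abs_le.1 (key _ (abs_of_nonneg p))).1
  have a2 := (abs_le.1 (key (-(σ * ‖z‖)) (by rw [abs_neg, abs_of_nonneg p]))).2
  obtain ⟨s, hs, h⟩ := intermediate_value_Icc (show -(σ * ‖z‖) ≤ σ * ‖z‖ by linarith)
    (f := fun s : ℝ => u (y + (L z + s • e))) (by fun_prop) (show 0 ∈ _ from ⟨by
      linarith, by linarith⟩)
  exact ⟨s, abs_le.2 hs, h⟩

end Ld

open Ld

/-- a closed set which contains a regular level set through `y` has density at least one at `y` -/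
theorem low_pt {M : Set E3} {ν : Measure E3} [IsFiniteMeasure ν] (hν : H2.restrict M ≤ ν)
    (mM : MeasurableSet M) {y : E3} {u : E3 → ℝ} (hu : Continuous u) (hd : DifferentiableAt ℝ u y)
    (h0 : u y = 0) (hg : gradient u y ≠ 0) (h : ∀ᶠ x in 𝓝 y, u x = 0 → x ∈ M) {c : ℝ}
    (hc : c < 1) : ∀ᶠ ρ in 𝓝[>] (0 : ℝ), c < gs ν y ρ := by
  have k : Continuous fun σ : ℝ => (1 + σ ^ 2)⁻¹ * (1 - σ) :=
    (Continuous.inv₀ (by fun_prop) fun σ => by positivity).mul (by fun_prop)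
  obtain ⟨σ, hσ, σ0, σ1⟩ := ((((k.tendsto' 0 1 (by simp)).mono_left nhdsWithin_le_nhds).eventually
    (lt_mem_nhds hc)).and (Ioc_mem_nhdsGT one_pos)).exists
  obtain ⟨L, hF⟩ := Gs.ex_fr (e := ‖gradient u y‖⁻¹ • gradient u y) (norm_smul_inv_norm hg)
  obtain ⟨r, r0, hr⟩ := hit hu hd h0 hg hF σ0 σ1
  obtain ⟨δ, δ0, hδ⟩ := Metric.eventually_nhds_iff.1 h
  refine (cone_low (A := M ∩ {x | ‖x - y‖ ^ 2 ≤ (1 + σ ^ 2) * ‖adj L (x - y)‖ ^ 2})
    ((Measure.restrict_mono inter_subset_left le_rfl).trans hν)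
    (mM.inter (isClosed_le (by fun_prop) (by fun_prop)).measurableSet) hF
    (lt_min r0 (half_pos δ0)) σ0 (fun z hz => ?_) fun x hx => hx.2).mono fun ρ hρ => hσ.trans_le hρ
  obtain ⟨z1, z2⟩ := lt_min_iff.1 (mem_ball_zero_iff.1 hz)
  obtain ⟨s, s1, s2⟩ := hr z z1
  refine ⟨_, ⟨hδ ?_ s2, ?_⟩, by simp only [add_sub_cancel_left]; exact hF.adj_pt z s⟩
  · rw [dist_eq_norm, add_sub_cancel_left]
    refine (norm_add_le _ _).trans_lt ?_
    rw [L.norm_map, norm_smul, hF.one, Real.norm_eq_abs]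
    nlinarith [norm_nonneg z]
  · have := pow_le_pow_left₀ (abs_nonneg _) s1 2
    rw [sq_abs] at this
    simp only [mem_ofPred_eq, add_sub_cancel_left]
    rw [hF.adj_pt, hF.norm_sq]
    nlinarith

theorem gs_cont' (ν : Measure E3) [IsFiniteMeasure ν] {t : ℝ} {p : ℝ × E3} (h : t < p.1) :
    ContinuousAt (fun q : ℝ × E3 => gs ν q.2 √(q.1 - t)) p := by
  have h0 : 0 < √(p.1 - t) := Real.sqrt_pos.2 (sub_pos.2 h)
  have := Real.pi_pos
  refine ContinuousAt.mul (ContinuousAt.inv₀ (by fun_prop) (by positivity))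
    (continuousAt_of_dominated (bound := fun _ => 1) (.of_forall fun q => by fun_prop)
      (.of_forall fun q => .of_forall fun x => ?_) (integrable_const _) (.of_forall fun x => ?_))
  · rw [Real.norm_eq_abs, abs_of_pos (Real.exp_pos _), Real.exp_le_one_iff, neg_div, neg_nonpos]
    positivity
  · exact Real.continuous_exp.continuousAt.comp
      (ContinuousAt.div (by fun_prop) (by fun_prop) (by positivity))

variable {μ : ℝ → Measure E3} {T : ℝ → E3 → Submodule ℝ E3} {H : ℝ → E3 → E3}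

/-- Huisken's monotonicity for `gs` -/
theorem gs_mono (hB : BF 2 μ T H) (h0 : μ 0 univ < ⊤) {s₁ s₂ t₀ : ℝ} (h1 : 0 ≤ s₁) (h2 : s₁ ≤ s₂)
    (h3 : s₂ < t₀) (x : E3) : gs (μ s₂) x √(t₀ - s₂) ≤ gs (μ s₁) x √(t₀ - s₁) := by
  have h := hB.Th_anti h0 x h1 h2 h3
  have := Real.pi_pos
  rwa [show Th 2 μ x t₀ s₂ = _ from int_Ph _ x h3, show Th 2 μ x t₀ s₁ = _ from
    int_Ph _ x (h2.trans_lt h3), mul_le_mul_iff_right₀ (by positivity)] at h

/-- the density of a time slice is a lower bound for the Gaussian ratios -/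
theorem ld_of {ν κ : Measure E3} [IsFiniteMeasure ν] {s t θ : ℝ} {y : E3} (h2 : t < s)
    (mono : ∀ t₀, s < t₀ → gs κ y √(t₀ - s) ≤ gs ν y √(t₀ - t))
    (h : ∀ c < θ, ∃ᶠ ρ in 𝓝[>] (0 : ℝ), c ≤ gs κ y ρ) : θ ≤ gs ν y √(s - t) := by
  have k : Tendsto (fun ρ : ℝ => (s + ρ ^ 2, y)) (𝓝[>] 0) (𝓝 (s, y)) :=
    (Continuous.tendsto' (by fun_prop) _ _ (by simp)).mono_left nhdsWithin_le_nhds
  refine le_of_forall_lt_imp_le_of_dense fun c hc => ge_of_tendsto_of_frequently
    ((gs_cont' ν (p := (s, y)) h2).tendsto.comp k)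
    (((h c hc).and_eventually self_mem_nhdsWithin).mono fun ρ ⟨h3, h4⟩ => h3.trans ?_)
  have h4 : 0 < ρ := h4
  simpa [Real.sqrt_sq h4.le] using mono _ (lt_add_of_pos_right s (pow_pos h4 2))

/-- the set of points with Gaussian ratios at least `θ` is closed -/
theorem ld_cl {ν : Measure E3} [IsFiniteMeasure ν] {s t θ : ℝ} {y : E3} (h2 : t < s)
    (h : ∃ᶠ q : ℝ × E3 in 𝓝 (s, y), t < q.1 → θ ≤ gs ν q.2 √(q.1 - t)) : θ ≤ gs ν y √(s - t) :=
  ge_of_tendsto_of_frequently (gs_cont' ν (p := (s, y)) h2).tendsto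
    ((h.and_eventually (continuousAt_const.eventually_lt continuous_fst.continuousAt h2)).mono
      fun _ hq => hq.1 hq.2)

theorem ld_reg {ν κ : Measure E3} [IsFiniteMeasure ν] [IsFiniteMeasure κ] {M : ℝ → Set E3}
    {s t : ℝ} {y : E3} (h2 : t < s) (mono : ∀ t₀, s < t₀ → gs κ y √(t₀ - s) ≤ gs ν y √(t₀ - t))
    (mM : MeasurableSet (M s)) (hμ : H2.restrict (M s) ≤ κ) (hy : y ∈ M s) (h : RegPt M s y) :
    1 ≤ gs ν y √(s - t) := by
  obtain ⟨u, su, hg, hu⟩ := h
  have c : ContDiff ℝ ∞ (u s) := su.comp (contDiff_prodMk_right s)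
  exact ld_of h2 mono fun c' hc => ((low_pt hμ mM c.continuous (c.differentiable (by simp) y)
    (hu.self_of_nhds.1.1 hy) hg (((Continuous.prodMk_right s).continuousAt.eventually hu).mono
      fun x hx => hx.1.2) hc).mono fun ρ hρ => hρ.le).frequently

theorem cpt_sl {M : ℝ → Set E3} {t : ℝ}
    (h : IsCompact {p : ℝ × E3 | p.1 ∈ Icc t t ∧ p.2 ∈ M p.1}) : IsCompact (M t) := by
  refine (h.image continuous_snd).of_isClosed_subset ?_
    fun x hx => ⟨(t, x), ⟨⟨le_rfl, le_rfl⟩, hx⟩, rfl⟩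
  simpa using! h.isClosed.preimage (Continuous.prodMk_right t)

theorem fin_of {A : Set E3} {Λ : ℝ} (hA : IsCompact A) (h : AR Λ (H2.restrict A)) :
    IsFiniteMeasure (H2.restrict A) := by
  have := h.fin
  refine ⟨?_⟩
  rw [Measure.restrict_apply_univ, ← Measure.restrict_apply_self]
  exact hA.measure_lt_top

theorem Zc.fin {F : Flw} {a b Λ G t : ℝ} (h : Zc F a b Λ G) (ht : t ∈ Ioo a b) :
    IsFiniteMeasure (F.μ t) := fin_of (cpt_sl (h.cpt t t ht.1 ht.2)) (h.ar t ht)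

/-- row LDZ -/
theorem ldz : LDZ := fun F a b Λ G h mono dense => ⟨h, mono, fun s t y h1 h2 h3 hy => by
  have := h.fin ⟨h1, h2.trans h3⟩
  refine ld_cl h2 (((mem_closure_iff_frequently.1 (dense s ⟨h1.trans h2, h3⟩ y hy)).and_eventually
    (continuous_fst.continuousAt.eventually (gt_mem_nhds h3))).mono fun q hq h4 => ?_)
  have m : q.1 ∈ Ioo a b := ⟨h1.trans h4, hq.2⟩
  have := h.fin m
  exact ld_reg (κ := F.μ q.1) h4 (fun t₀ h5 => mono t q.1 t₀ _ h1 h4.le hq.2 h5)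
    (cpt_sl (h.cpt _ _ m.1 m.2)).measurableSet le_rfl hq.1.1 hq.1.2⟩

end Vale.Agent.P218Z
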