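import Vale.Agent.P218Z.Pre
import Vale.Agent.P218E.All

/-!
# P218Z: White's theorem for the rescaled slices
-/

open MeasureTheory Metric Filter Topology Set
open scoped ContDiff ENNReal RealInnerProductSpace
open Vale.Agent.P366W (trc Fr)
open Vale.Agent.P218 (limitSet WeakTendsto)
open Vale.Agent.P218.H552 (NN ext)
open Vale.Agent.P218R Vale.Agent.P218E Vale.Agent.P218R.Loc

noncomputable section

namespace Vale.Agent.P218Z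

theorem loz_step {F : Flw} {a Λ G K η ρ l r t : ℝ} {p z : E3} (K0 : 0 ≤ K)
    (g1 : ∀ x' ρ', l * ρ ≤ 2 * ρ' → ρ' ≤ 2 * (l * ρ) → ‖x' - l • p‖ ≤ l * ρ →
      |gs (F.μ (-(1 + ρ ^ 2))) x' ρ' - gs (F.μ (-(1 + ρ ^ 2))) (l • p) (l * ρ)| ≤
        K * (‖x' - l • p‖ + |ρ' - l * ρ|) / (l * ρ)) (ok : Zm F a 0 Λ G) (i1 : a < -(1 + ρ ^ 2))
    (h0 : 0 < η) (h1 : η ≤ 1 / 2) (r0 : 0 < ρ) (r2 : ρ * (2 * (‖p‖ + 1)) < η) (l1 : 1 ≤ l)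
    (l2 : l ≤ 1 + ρ ^ 2) (hr : 2 * r = η * ρ / 10) (hz : z ∈ ball p (4 * r)) (t1 : r ≤ t)
    (t2 : t ≤ 2 * r) : gs (F.μ (-1 + r ^ 2 / 2 - 4 * r ^ 2)) z t ≤
      gs (F.μ (-(1 + ρ ^ 2))) (l • p) (l * ρ) + K * η := by
  have r3 : 0 < r := by nlinarith [mul_pos h0 r0]
  have r4 : 40 * r ≤ ρ := by nlinarith
  have a1 := ok.mono (-(1 + ρ ^ 2)) (-1 + r ^ 2 / 2 - 4 * r ^ 2)
    (-1 + r ^ 2 / 2 - 4 * r ^ 2 + t ^ 2) z i1 (by nlinarith) (by nlinarith) (by nlinarith)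
  simp only [add_sub_cancel_left, Real.sqrt_sq (r3.le.trans t1)] at a1
  obtain ⟨q, hq⟩ : ∃ q, q = √(-1 + r ^ 2 / 2 - 4 * r ^ 2 + t ^ 2 - -(1 + ρ ^ 2)) := ⟨_, rfl⟩
  have a2 : ‖z - l • p‖ ≤ 2 * (2 * r) + ρ ^ 2 * ‖p‖ := by
    rw [show z - l • p = z - p - (l - 1) • p by module]
    refine (norm_sub_le _ _).trans (add_le_add
      ((mem_ball_iff_norm.1 hz).le.trans_eq (by ring)) ?_)
    rw [norm_smul, Real.norm_of_nonneg (by linarith)]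
    gcongr
    linarith
  obtain ⟨a4, a5, a6, a7⟩ := arith h0 h1 r0 (norm_nonneg p) r2 l1 l2 hr
    (hq ▸ Real.le_sqrt_of_sq_le (by nlinarith) : ρ - 2 * r ≤ q)
    (hq ▸ Real.sqrt_le_iff.2 ⟨by positivity, by nlinarith⟩) a2
  have a8 : K * (‖z - l • p‖ + |q - l * ρ|) / (l * ρ) ≤ K * η := by
    rw [div_le_iff₀ (by positivity), mul_assoc]
    gcongr
  rw [← hq] at a1
  linarith [(abs_le.1 (g1 z q a5 a6 a7)).2]

theorem loz (hR : RSZ) (hS : SLZ) (wh : WHZ) : LOZ := fun Λ ε₀ h₀ => by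
  obtain ⟨ε₁, e1, wh⟩ := wh Λ
  obtain ⟨ε, e0, e2, e3⟩ : ∃ ε, 0 < ε ∧ ε ≤ ε₁ ∧ ε < ε₀ :=
    ⟨min ε₁ (ε₀ / 2), by positivity, min_le_left _ _, (min_le_right _ _).trans_lt (by linarith)⟩
  refine ⟨ε / 3, by positivity, fun σ s0 => ?_⟩
  obtain ⟨c, c0, C, c1, c2, wh⟩ := wh σ s0
  refine ⟨C, c1, c2, fun F a b G τ₀ x₀ p τ κ hab hF hsl hκ hτ hw hd => ?_⟩
  obtain ⟨⟨K, K0, g1⟩, g2⟩ := gsl
  have L0 := le_max_right Λ 0
  obtain ⟨η, h0, h1, h2⟩ : ∃ η, 0 < η ∧ η ≤ 1 / 2 ∧ K * max Λ 0 * η ≤ ε / 3 :=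
    ⟨min (1 / 2) (ε / 3 / (K * max Λ 0 + 1)), by positivity, min_le_left _ _, by
      have := (le_div_iff₀' (by positivity)).1 (min_le_right (1 / 2) (ε / 3 / (K * max Λ 0 + 1)))
      have : 0 < min (1 / 2) (ε / 3 / (K * max Λ 0 + 1)) := by positivity
      linarith⟩
  obtain ⟨ρ, r1, r0, r2⟩ := (hd.and_eventually
    (Ioo_mem_nhdsGT (show 0 < η / (2 * (‖p‖ + 1)) by positivity))).exists
  rw [lt_div_iff₀ (by positivity)] at r2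
  have n0 := norm_nonneg p
  have s1 : -(1 + ρ ^ 2) < 0 := by nlinarith
  have ok := fun i => (hR F a b b _ Λ G x₀ (Real.exp_pos (τ i))).2.2.2.2 ε₀ hF
  have l1 : 1 ≤ √(-(-(1 + ρ ^ 2))) := Real.one_le_sqrt.2 (by nlinarith)
  have l2 : √(-(-(1 + ρ ^ 2))) ≤ 1 + ρ ^ 2 := Real.sqrt_le_iff.2 ⟨by positivity, by nlinarith⟩
  have lim := (g2 ℕ atTop Λ _ _ (P218.H552.locFin_ext 2 κ s1) ((early hτ hab s1).mono fun i hi =>
    (ok i).ar _ hi) ((hS F a b Λ G τ₀ x₀ τ κ hab hF.toZm hsl hκ hτ hw).1 _ s1)).2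
      (√(-(-(1 + ρ ^ 2))) • p) (√(-(-(1 + ρ ^ 2))) * ρ) (by positivity)
  rw [gs_ext κ s1] at lim
  generalize √(-(-(1 + ρ ^ 2))) = l at l1 l2 lim
  obtain ⟨r, hr⟩ : ∃ r, 2 * r = η * ρ / 10 := ⟨η * ρ / 20, by ring⟩
  have r3 : 0 < r := by nlinarith [mul_pos h0 r0]
  have r4 : 40 * r ≤ ρ := by nlinarith
  have r5 : ρ ≤ 1 := by nlinarith
  refine ⟨r, r3, c * r, by positivity, ?_⟩
  filter_upwards [early hτ hab s1, lim.eventually_lt_const (show _ < 1 + 2 * (ε / 3) by linarith)]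
    with i ⟨i1, _⟩ i3 hreg y hy hy'
  refine wh _ _ _ G ε₀ ε (-1 + r ^ 2 / 2) r p (ok i) e2 e3 r3 (by nlinarith)
    (by rw [sub_self, mul_zero]; nlinarith) (fun z hz t ⟨t1, t2⟩ => ?_) (-1)
    ⟨by nlinarith, by nlinarith⟩
    (((hR F a b b _ Λ G x₀ (Real.exp_pos (τ i))).2.1 _).2 (by rwa [rs_time])) y hy hy'
  simp only [sub_self, mul_zero] at ok
  linarith [loz_step (mul_nonneg K0.le L0) (g1 _ _ L0 (((ok i).ar _ ⟨i1, s1⟩).mono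
    (le_max_left _ _)) (l • p) (l * ρ) (by positivity)).2.2 (ok i).toZm i1 h0 h1 r0 r2 l1 l2 hr
    hz t1 t2]

end Vale.Agent.P218Z
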