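import Vale.Agent.P218Z.Pre
import Vale.Agent.P218E.Clo2

/-!
# P218Z, row ORL: a local flow about a region without singular points
-/

open MeasureTheory Metric Filter Topology Set
open scoped ContDiff ENNReal RealInnerProductSpace
open Vale.Agent.P366W
open Vale.Agent.P218R Vale.Agent.P218R.Cfl Vale.Agent.P218E

noncomputable section

namespace Vale.Agent.P218Z

namespace Orl

theorem ex_tau : ∃ τ : ℝ → ℝ, ContDiff ℝ ∞ τ ∧ (∀ s, ∃ c > 0, HasDerivAt τ c s) ∧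
    (∀ s ≤ 0, τ s = s) ∧ ∀ s, τ s ≤ 1 := by
  have p : ∀ s : ℝ, 0 ≤ s * expNegInvGlue s := fun s => by
    rcases le_total s 0 with h | h
    · rw [expNegInvGlue.zero_of_nonpos h, mul_zero]
    · exact mul_nonneg h (expNegInvGlue.nonneg s)
  have q : ∀ s : ℝ, 0 < 1 + s * expNegInvGlue s := fun s => by linarith [p s]
  refine ⟨fun s => s / (1 + s * expNegInvGlue s), contDiff_id.div (contDiff_const.add
    (contDiff_id.mul expNegInvGlue.contDiff)) fun s => (q s).ne', fun s => ?_,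
    fun s hs => by simp [expNegInvGlue.zero_of_nonpos hs], fun s => (div_le_one (q s)).2 ?_⟩
  · have d : HasDerivAt expNegInvGlue (s⁻¹ ^ 2 * expNegInvGlue s) s := by
      simpa using expNegInvGlue.hasDerivAt_polynomial_eval_inv_mul 1 s
    refine ⟨_, div_pos ?_ (pow_pos (q s) 2), (hasDerivAt_id' s).fun_div
      (((hasDerivAt_id' s).fun_mul d).const_add 1) (q s).ne'⟩
    rcases le_or_gt s 0 with h | h
    · simp [expNegInvGlue.zero_of_nonpos h]
    · have : expNegInvGlue s < 1 := by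
        rw [expNegInvGlue, if_neg h.not_ge]
        exact Real.exp_lt_one_iff.2 (neg_lt_zero.2 (inv_pos.2 h))
      have e : s * (s * (s⁻¹ ^ 2 * expNegInvGlue s)) = expNegInvGlue s := by field_simp
      nlinarith
  · rcases le_or_gt s 0 with h | h
    · linarith [q s]
    · have := mul_le_mul_of_nonneg_left (Real.add_one_le_exp (-s⁻¹)) h.le
      rw [expNegInvGlue, if_neg h.not_ge]
      rw [mul_add, mul_neg, mul_inv_cancel₀ h.ne'] at this
      linarith

theorem ex_h {R : ℝ} (hR : 0 < R) : ∃ h : ℝ → ℝ, ContDiff ℝ ∞ h ∧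
    (∀ s, ∃ c > 0, HasDerivAt h c s) ∧ (∀ s, |s| ≤ R → h s = s) ∧ ∀ s, |h s| ≤ 11 / 10 * R := by
  obtain ⟨σ, s1, s2, s3, s4⟩ : ∃ σ : ℝ → ℝ, ContDiff ℝ ∞ σ ∧ (∀ s, ∃ c > 0, HasDerivAt σ c s) ∧
      (∀ s ≤ R, σ s = s) ∧ ∀ s, σ s ≤ 11 / 10 * R := by
    obtain ⟨τ, t1, t2, t3, t4⟩ := ex_tau
    refine ⟨fun s => R + R / 10 * τ ((s - R) / (R / 10)), by fun_prop, fun s => ?_,
      fun s hs => ?_, fun s => by nlinarith [t4 ((s - R) / (R / 10))]⟩
    · obtain ⟨c, c0, hc⟩ := t2 ((s - R) / (R / 10))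
      exact ⟨_, by positivity, ((hc.comp s (((hasDerivAt_id' s).sub_const R).div_const
        (R / 10))).const_mul (R / 10)).const_add R⟩
    · dsimp only
      rw [t3 _ (div_nonpos_of_nonpos_of_nonneg (sub_nonpos.2 hs) (by positivity))]
      field_simp
      ring
  have mo : Monotone σ := monotone_of_deriv_nonneg (s1.differentiable (by simp)) fun s => by
    obtain ⟨c, c0, hc⟩ := s2 s
    exact hc.deriv ▸ c0.le
  refine ⟨fun s => -σ (-σ s), by fun_prop, fun s => ?_, fun s hs => ?_, fun s => abs_le.2 ⟨?_, ?_⟩⟩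
  · obtain ⟨c, c0, hc⟩ := s2 s
    obtain ⟨d, d0, hd⟩ := s2 (-σ s)
    exact ⟨_, by simpa using mul_pos d0 c0, (hd.comp s hc.fun_neg).fun_neg⟩
  · dsimp only
    rw [s3 s (abs_le.1 hs).2, s3 _ (neg_le.1 (abs_le.1 hs).1), neg_neg]
  · exact neg_le_neg (s4 _)
  · have := mo (neg_le_neg (s4 s))
    rw [s3 _ (by linarith)] at this
    exact neg_le.1 this

theorem ex_Phi (x : E3) {R : ℝ} (hR : 0 < R) : ∃ Φ : E3 → E3, ContDiff ℝ ∞ Φ ∧
    (∀ y, Function.Surjective (fderiv ℝ Φ y)) ∧ (∀ y ∈ ball x R, Φ y = y) ∧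
    ∀ y, Φ y ∈ ball x (2 * R) := by
  obtain ⟨h, h1, h2, h3, h4⟩ := ex_h hR
  set Φ : E3 → E3 := fun y => WithLp.toLp 2 fun i => x i + h (y i - x i) with hΦ
  have s : ContDiff ℝ ∞ Φ := contDiff_euclidean.2 fun i => by
    simp only [hΦ]
    fun_prop
  refine ⟨Φ, s, fun y w => ?_, fun y hy => ?_, fun y => ?_⟩
  · choose c c0 hc using h2
    refine ⟨WithLp.toLp 2 fun i => w i / c (y i - x i), PiLp.ext fun i => ?_⟩
    have a := (EuclideanSpace.proj (𝕜 := ℝ) i).hasFDerivAt.comp y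
      (s.differentiable (by simp) y).hasFDerivAt
    have b := ((hc (y i - x i)).comp_hasFDerivAt y (((EuclideanSpace.proj (𝕜 := ℝ)
      i).hasFDerivAt (x := y)).sub_const (x i))).const_add (x i)
    have e := congrArg (fun L => L (WithLp.toLp 2 fun i => w i / c (y i - x i))) (a.unique b)
    simpa [mul_div_cancel₀ _ (c0 _).ne'] using e
  · refine PiLp.ext fun i => ?_
    have := (PiLp.norm_apply_le (y - x) i).trans (mem_ball_iff_norm.1 hy).le
    simp only [hΦ]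
    rw [h3 _ (by simpa using this), add_sub_cancel]
  · rw [mem_ball_iff_norm, ← sq_lt_sq₀ (norm_nonneg _) (by positivity), EuclideanSpace.norm_sq_eq]
    refine (Finset.sum_le_card_nsmul _ _ ((11 / 10 * R) ^ 2) fun i _ => ?_).trans_lt ?_
    · simpa [hΦ] using pow_le_pow_left₀ (abs_nonneg _) (h4 (y i - x i)) 2
    · simp only [Finset.card_univ, Fintype.card_fin, nsmul_eq_mul]
      push_cast
      nlinarith [sq_pos_of_pos hR]

theorem gen {M : ℝ → Set E3} {a b : ℝ} {B : Set E3} (hab : a < b)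
    (cl : ∀ t ∈ Ioo a b, ∀ y, y ∉ M t → ∀ᶠ p : ℝ × E3 in 𝓝 (t, y), p.2 ∉ M p.1)
    (loc : ∀ t ∈ Ioo a b, ∀ x ∈ M t, ∃ u : ℝ → E3 → ℝ, ContDiff ℝ ∞ (Function.uncurry u) ∧
      gradient (u t) x ≠ 0 ∧ (∀ᶠ p : ℝ × E3 in 𝓝 (t, x), p.2 ∈ M p.1 ↔ u p.1 p.2 = 0) ∧
      (x ∈ B → deriv (fun s => u s x) t = ‖gradient (u t) x‖ *
        dvg (fun z => ‖gradient (u t) z‖⁻¹ • gradient (u t) z) x)) :
    ∃ F : Flw, OkL F a b B ∧ ∀ t ∈ Ioo a b, ∀ y, F.u (t, y) = 0 ↔ y ∈ M t := by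
  obtain ⟨θ, ψ, s1, s2, m1, i1, i2⟩ : ∃ θ ψ : ℝ → ℝ, ContDiff ℝ ∞ θ ∧
      ContDiffOn ℝ ∞ ψ (Ioo a b) ∧ (∀ s, θ s ∈ Ioo a b) ∧ (∀ s, ψ (θ s) = s) ∧
      ∀ t ∈ Ioo a b, θ (ψ t) = t := by
    obtain ⟨θ, ψ, s1, s2, m1, i1, i2⟩ := exists_dif (sub_pos.2 hab)
    have m : ∀ t ∈ Ioo a b, t - a ∈ Ioo 0 (b - a) := fun t ht =>
      ⟨sub_pos.2 ht.1, sub_lt_sub_right ht.2 a⟩
    exact ⟨fun s => a + θ s, fun t => ψ (t - a), contDiff_const.add s1,
      s2.comp (by fun_prop) m, fun s => ⟨by linarith [(m1 s).1], by linarith [(m1 s).2]⟩,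
      fun s => by simp [i1], fun t ht => by simp [i2 _ (m t ht)]⟩
  have s3 : ContDiff ℝ ∞ fun p : ℝ × E3 => (θ p.1, p.2) := (s1.comp contDiff_fst).prodMk contDiff_snd
  obtain ⟨w, sw, hw, rw'⟩ := ori (ℝ × E3) {p | p.2 ∈ M (θ p.1)}
    (isOpen_compl_iff.1 (isOpen_iff_mem_nhds.2 fun p hp =>
      (s3.continuous.tendsto p).eventually (cl _ (m1 p.1) _ hp)))
    fun p hp => by
      obtain ⟨u, su, h1, h2, -⟩ := loc _ (m1 p.1) _ hp
      refine ⟨_, su.comp s3, fun e => grad_ne_iff.1 h1 ?_, (s3.continuous.tendsto p).eventually h2⟩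
      have := Flw.fderiv_slice ((su.comp s3).differentiable (by simp) p)
      rw [e, ContinuousLinearMap.zero_comp] at this
      exact this
  have su : ContDiffOn ℝ ∞ (fun p : ℝ × E3 => w (ψ p.1, p.2)) (Ioo a b ×ˢ univ) :=
    sw.comp_contDiffOn ((s2.comp contDiffOn_fst fun p hp => hp.1).prodMk contDiffOn_snd)
  have z1 : ∀ t ∈ Ioo a b, ∀ x, w (ψ t, x) = 0 ↔ x ∈ M t := fun t ht x => by
    rw [← hw, mem_ofPred_eq, i2 t ht]
  have key : ∀ t ∈ Ioo a b, ∀ x, w (ψ t, x) = 0 → ∃ (u : E3 → ℝ) (c : ℝ), ContDiff ℝ ∞ u ∧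
      gradient u x ≠ 0 ∧ (∀ᶠ y in 𝓝 x, w (ψ t, y) = 0 ↔ u y = 0) ∧ c ≠ 0 ∧
      gradient (fun x => w (ψ t, x)) x = c • gradient u x ∧ (x ∈ B → deriv (fun s => w (ψ s, x)) t =
        c * (‖gradient u x‖ * dvg (fun z => ‖gradient u z‖⁻¹ • gradient u z) x)) := by
    intro t ht x hx
    have hm := (z1 t ht x).1 hx
    obtain ⟨u, s4, h1, h2, h3⟩ := loc t ht x hm
    have d1 := s4.differentiable (by simp) (t, x)
    have d2 := (su.contDiffAt (Flw.mem_dom ht x)).differentiableAt (by simp)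
    obtain ⟨c, hc⟩ := tan_prop (s4.contDiffAt.of_le one_le) (h2.self_of_nhds.1 hm)
      (fun e => grad_ne_iff.1 h1 (by
        have := Flw.fderiv_slice d1
        rw [e, ContinuousLinearMap.zero_comp] at this
        exact this)) d2 (by
      filter_upwards [h2, Flw.mem_dom ht x] with q a1 a2 a3
      exact (z1 _ a2.1 _).2 (a1.2 a3))
    refine ⟨u t, c, s4.comp (contDiff_prodMk_right t), h1, ((continuous_const.prodMk
      continuous_id).continuousAt.eventually h2).mono fun y hy => (z1 t ht y).trans hy,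
      fun e => rw' (ψ t, x) ((hw _).2 hx) ?_, grad_smul d1 d2 hc, fun hB => ?_⟩
    · have e1 : w = (fun p : ℝ × E3 => w (ψ p.1, p.2)) ∘ fun p : ℝ × E3 => (θ p.1, p.2) :=
        funext fun p => by simp [i1]
      rw [e1, fderiv_comp _ (by simpa only [i2 t ht] using d2) (s3.differentiable (by simp) _)]
      simp only [i2 t ht, hc, e, zero_smul, ContinuousLinearMap.zero_comp]
    · rw [(Flw.deriv_slice d2).deriv, hc, ← h3 hB, smul_apply, smul_eq_mul,
        ← (Flw.deriv_slice d1).deriv]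
      rfl
  have reg : ∀ t ∈ Ioo a b, ∀ x, w (ψ t, x) = 0 → gradient (fun x => w (ψ t, x)) x ≠ 0 :=
    fun t ht x hx => by
      obtain ⟨u, c, -, h1, -, h2, h3, -⟩ := key t ht x hx
      exact h3 ▸ smul_ne_zero h2 h1
  refine ⟨.of fun p => w (ψ p.1, p.2), ⟨Pre.of su reg, fun t ht x hB hx => ?_⟩, z1⟩
  obtain ⟨u, c, h1, h2, h3, -, h4, h5⟩ := key t ht x hx
  exact (h5 hB).trans (H_loc (Srf.of_ok (Flw.slice su ht) (reg t ht)) hx h1 h2 h3 h4).symm

end Orl

open Orl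

theorem orl : ORL := by
  intro M c d R x hcd hR cl rg
  obtain ⟨Φ, s, h1, h2, h3⟩ := ex_Phi x hR
  have s' : ContDiff ℝ ∞ fun p : ℝ × E3 => (p.1, Φ p.2) := by fun_prop
  obtain ⟨F, f1, f2⟩ := gen (M := fun t => Φ ⁻¹' M t) (B := ball x R) hcd
    (fun t ht y hy => (s'.continuous.tendsto (t, y)).eventually (cl t ht _ (h3 y) hy))
    fun t ht y hy => by
      obtain ⟨u, u1, u2, u3⟩ := rg t ht _ (h3 y) hy
      by_cases hB : y ∈ ball x R
      · rw [mem_preimage, h2 y hB] at hy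
        rw [h2 y hB] at u2 u3
        refine ⟨u, u1, u2, ?_, fun _ => u3.self_of_nhds.2 hy⟩
        filter_upwards [u3, continuous_snd.continuousAt.eventually
          (isOpen_ball.mem_nhds (x := ((t, y) : ℝ × E3).2) hB)] with p a1 a2
        rw [mem_preimage, h2 _ a2]
        exact a1.1
      · refine ⟨fun s z => u s (Φ z), u1.comp s', grad_ne_iff.2 fun e => grad_ne_iff.1 u2 ?_,
          (s'.continuous.tendsto (t, y)).eventually (u3.mono fun p hp => hp.1),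
          fun a => absurd a hB⟩
        have d1 : DifferentiableAt ℝ (u t) (Φ y) :=
          (u1.comp (contDiff_prodMk_right t)).differentiable (by simp) _
        rw [fderiv_fun_comp y d1 (s.differentiable (by simp) y)] at e
        ext1 v
        obtain ⟨v, rfl⟩ := h1 y v
        exact congrArg (fun L => L v) e
  refine ⟨F, f1, fun t ht y hy => (f2 t ht y).trans ?_⟩
  rw [mem_preimage, h2 y hy]

end Vale.Agent.P218Z
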