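import Vale.Agent.P218Z.Spec
import Vale.Agent.P218E.Nop
import Vale.Agent.P218R.Slw
import Vale.Agent.P218R.Rsc

/-!
# P218Z: the row SLZ
-/

open MeasureTheory Metric Filter Topology Set
open scoped ContDiff ENNReal RealInnerProductSpace
open Vale.Agent.P218 (WeakTendsto Slow)
open Vale.Agent.P218.H552 (NN ext weakTendsto_ext exists_drop_le)
open Vale.Agent.P218R Vale.Agent.P218E

noncomputable section

namespace Vale.Agent.P218Z

namespace Slz

theorem pick {f : ℝ → ℝ≥0∞} {P : ℝ → Prop} {c D η : ℝ} (hD : 0 ≤ D) (hη : 0 < η)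
    (h1 : ∀ᵐ τ, c ≤ τ → P τ) (h2 : ∫⁻ τ in Icc c (c + 1), f τ ≤ ENNReal.ofReal D) :
    ∃ τ ∈ Icc c (c + 1), P τ ∧ f τ ≤ ENNReal.ofReal (D + η) := by
  by_contra! h
  have h3 : ∫⁻ _ in Icc c (c + 1), ENNReal.ofReal (D + η) ≤ ∫⁻ τ in Icc c (c + 1), f τ :=
    lintegral_mono_ae (((ae_restrict_of_ae h1).and (ae_restrict_mem measurableSet_Icc)).mono
      fun τ hτ => (h τ hτ.2 (hτ.1 hτ.2.1)).le)
  simp only [setLIntegral_const, Real.volume_Icc, add_sub_cancel_left, ENNReal.ofReal_one,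
    mul_one] at h3
  linarith [(ENNReal.ofReal_le_ofReal_iff hD).1 (h3.trans h2)]

theorem ball_le {S : Srf} {Λ R D : ℝ} (h : S.Ok) (hA : AR Λ S.μ) (hD : 0 ≤ D)
    (h1 : dsw S ≤ ENNReal.ofReal D) :
    ∫ x in closedBall (0 : E3) R, S.φ x ^ 2 ∂S.μ ≤ Real.exp (R ^ 2 / 4) * D := by
  have := hA.fin
  have hφ := h.sφ.continuous
  rw [← ENNReal.ofReal_le_ofReal_iff (by positivity), ofReal_integral_eq_lintegral_ofReal
    ((hφ.fun_pow 2).continuousOn.integrableOn_compact (isCompact_closedBall _ _))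
    (.of_forall fun x => sq_nonneg _), ENNReal.ofReal_mul (Real.exp_pos _).le]
  refine le_trans ?_ (mul_le_mul_right h1 _)
  rw [dsw, ← lintegral_const_mul' _ _ ENNReal.ofReal_ne_top]
  refine le_trans (setLIntegral_mono' measurableSet_closedBall fun x hx => ?_)
    (setLIntegral_le_lintegral (closedBall 0 R) _)
  have r := mem_closedBall_zero_iff.1 hx
  rw [← ENNReal.ofReal_mul (Real.exp_pos _).le, ← mul_assoc, ← Real.exp_add]
  exact ENNReal.ofReal_le_ofReal (le_mul_of_one_le_left (sq_nonneg _)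
    (Real.one_le_exp (by nlinarith [norm_nonneg x])))

end Slz

/-- row SLZ -/
theorem slz (dsw' : DSW) : SLZ := by
  intro F a b Λ G τ₀ x₀ τ κ hab h hS lf hτ hκ
  refine ⟨fun s hs => ?_, ?_⟩
  · simp only [rs_μ rsc _ _ _ _ hs]
    exact weakTendsto_ext (hS.weakTendsto_shift hτ (h := |Real.log √(-s)| + 1) (by positivity)
      (Eventually.of_forall fun i => by simp) hκ) 2 hs
  obtain ⟨τ₁, h0⟩ := ex_tau0 hab
  have hD := fun c d (hc : τ₁ ≤ c) (hd : c ≤ d) =>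
    dsw' F a b Λ G b c d x₀ h hd (adm h0 hc).1 le_rfl
  set θ : ℝ → ℝ := fun c => gs (F.rsl x₀ b c).μ 0 1
  have π0 := Real.pi_pos
  have : ∀ i : ℕ, ∃ s ∈ Icc (τ i) (τ i + 1), τ₁ ≤ τ i → RegS F b s ∧ dsw (F.rsl x₀ b s) ≤
      ENNReal.ofReal (2 * Real.pi * (θ (τ i) - θ (τ i + 1)) + 1 / ((i : ℝ) + 1)) := fun i => by
    have l : τ i ≤ τ i + 1 := by linarith
    by_cases hi : τ₁ ≤ τ i
    · obtain ⟨h1, h2, -, h3⟩ := hD _ _ hi l
      obtain ⟨s, h4, h5⟩ := Slz.pick (mul_nonneg (by positivity) (sub_nonneg.2 h1))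
        (Nat.one_div_pos_of_nat (n := i)) h2 h3
      exact ⟨s, h4, fun _ => h5⟩
    · exact ⟨τ i, left_mem_Icc.2 l, fun a => absurd a hi⟩
  choose σ hσ hd using this
  have ev : ∀ᶠ i in atTop, RegS F b (σ i) ∧ (F.rsl x₀ b (σ i)).Ok ∧ AR Λ (F.rsl x₀ b (σ i)).μ ∧
      (F.rsl x₀ b (σ i)).GBd G := (hτ.eventually_ge_atTop τ₁).mono fun i hi => by
    obtain ⟨h1, h2⟩ := (hD _ _ hi le_rfl).2.2.1 _ (hσ i).1
    exact ⟨(hd i hi).1, (h2 (hd i hi).1).1, h1, (h2 (hd i hi).1).2⟩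
  have ph : ∀ R : ℝ, Tendsto (fun i => ∫ x in closedBall (0 : E3) R, (F.rsl x₀ b (σ i)).φ x ^ 2
      ∂(F.rsl x₀ b (σ i)).μ) atTop (𝓝 0) := fun R => by
    refine tendsto_order.2 ⟨fun c hc => .of_forall fun i => hc.trans_le (by positivity),
      fun c hc => ?_⟩
    set δ := c / (4 * Real.exp (R ^ 2 / 4))
    have δ0 : 0 < δ := by positivity
    obtain ⟨T, hT, hp⟩ := exists_drop_le (θ := θ) (fun c d hc hd => (hD c d hc hd).1)
      (fun _ => gs_nonneg _ _ _) (δ := δ / (2 * Real.pi)) (by positivity)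
    filter_upwards [ev, hτ.eventually_ge_atTop T, (tendsto_one_div_add_atTop_nhds_zero_nat
      (𝕜 := ℝ)).eventually (ge_mem_nhds δ0)] with i h1 h2 h3
    have h4 := hp _ (τ i + 1) h2 (by linarith)
    rw [le_div_iff₀' (by positivity)] at h4
    refine (Slz.ball_le h1.2.1 h1.2.2.1 (D := 2 * δ) (by positivity) ((hd i (hT.trans h2)).2.trans
      (ENNReal.ofReal_le_ofReal (by linarith)))).trans_lt ?_
    rw [show Real.exp (R ^ 2 / 4) * (2 * δ) = c / 2 by simp only [δ]; field_simp; norm_num]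
    exact half_lt_self hc
  refine ⟨σ, hσ, ev, lt_max_of_lt_right one_pos, lf,
    ev.mono fun i hi => ⟨hi.2.1, hi.2.2.1.mono (le_max_left _ _)⟩, fun R => ?_, ph, ?_⟩
  · have r0 : 0 < max R 1 := lt_max_of_lt_right one_pos
    refine ⟨_, (ev.and ((ph (20 * max R 1)).eventually (ge_mem_nhds one_pos))).mono
      fun i ⟨⟨_, h1, h2, h3⟩, h4⟩ => le_trans ?_ (Nop.energy h1 (le_max_right Λ 0)
        (h2.mono (le_max_left _ _)) h3 r0 h4)⟩
    have := h2.fin
    exact setIntegral_mono_set ((h1.sA2.continuous.continuousOn.integrableOn_compact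
      (isCompact_closedBall 0 (max R 1))).mono_set ball_subset_closedBall)
      ((h1.ae_set _).mono fun x hx => h1.A2_nonneg hx)
      (ball_subset_ball (le_max_left R 1)).eventuallyLE
  · simp only [rsl_μ rsc]
    exact hS.weakTendsto_shift hτ one_pos (Eventually.of_forall fun i =>
      abs_le.2 ⟨by linarith [(hσ i).1], by linarith [(hσ i).2]⟩) hκ

end Vale.Agent.P218Z
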