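import Vale.Agent.P218Z.Spec

/-!
# P218Z: adding up drops of a monotone function (row STJ)
-/

open MeasureTheory Metric Filter Topology Set
open scoped ENNReal

noncomputable section

namespace Vale.Agent.P218Z.Stj

/-- the estimate on the set of points at distance at least `δ` from the complement of `U` -/
theorem step (f : ℝ → ℝ≥0∞) (θ : ℝ → ℝ) (U : Set ℝ) (a b δ : ℝ) (hδ : 0 < δ)
    (hθ : AntitoneOn θ (Icc a b))
    (h : ∀ c d, a ≤ c → c ≤ d → d ≤ b → Icc c d ⊆ U →
      ∫⁻ t in Icc c d, f t ≤ ENNReal.ofReal (θ c - θ d)) (k : ℕ) :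
    ∀ x, a ≤ x → x ≤ b → x ≤ a + k * δ →
      ∫⁻ t in {t | closedBall t δ ⊆ U} ∩ Icc a x, f t ≤ ENNReal.ofReal (θ a - θ x) := by
  induction k with
  | zero =>
    intro x h1 _ h3
    have hx : x = a := le_antisymm (by simpa using h3) h1
    rw [setLIntegral_measure_zero _ _ (measure_mono_null inter_subset_right (by simp [hx]))]
    exact bot_le
  | succ k ih =>
    intro x h1 h2 h3
    have hk : (0 : ℝ) ≤ k * δ := by positivity
    set y := max a (x - δ) with hy
    have hay : a ≤ y := le_max_left _ _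
    have hyx : y ≤ x := max_le h1 (by linarith)
    have hxy : x - δ ≤ y := le_max_right _ _
    have hyk : y ≤ a + k * δ := max_le (by linarith) (by push_cast at h3; linarith)
    have hyb : y ≤ b := hyx.trans h2
    have e1 : 0 ≤ θ a - θ y := sub_nonneg.2 (hθ ⟨le_rfl, hay.trans hyb⟩ ⟨hay, hyb⟩ hay)
    have e2 : 0 ≤ θ y - θ x := sub_nonneg.2 (hθ ⟨hay, hyb⟩ ⟨h1, h2⟩ hyx)
    have hsub : {t | closedBall t δ ⊆ U} ∩ Icc a x ⊆
        ({t | closedBall t δ ⊆ U} ∩ Icc a y) ∪ ({t | closedBall t δ ⊆ U} ∩ Icc y x) := by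
      rintro t ⟨ht, hta, htx⟩
      rcases le_total t y with h' | h'
      · exact Or.inl ⟨ht, hta, h'⟩
      · exact Or.inr ⟨ht, h', htx⟩
    have h2' : ∫⁻ t in {t | closedBall t δ ⊆ U} ∩ Icc y x, f t ≤ ENNReal.ofReal (θ y - θ x) := by
      rcases ({t | closedBall t δ ⊆ U} ∩ Icc y x).eq_empty_or_nonempty with he | ⟨t, ht, hty, htx⟩
      · rw [he]; simp
      · refine (lintegral_mono_set inter_subset_right).trans (h y x hay hyx h2 ?_)
        intro s hs
        refine ht ?_
        rw [mem_closedBall, Real.dist_eq, abs_le]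
        constructor <;> linarith [hs.1, hs.2]
    calc ∫⁻ t in {t | closedBall t δ ⊆ U} ∩ Icc a x, f t
        ≤ ∫⁻ t in ({t | closedBall t δ ⊆ U} ∩ Icc a y) ∪ ({t | closedBall t δ ⊆ U} ∩ Icc y x),
            f t := lintegral_mono_set hsub
      _ ≤ (∫⁻ t in {t | closedBall t δ ⊆ U} ∩ Icc a y, f t) +
            ∫⁻ t in {t | closedBall t δ ⊆ U} ∩ Icc y x, f t := lintegral_union_le _ _ _
      _ ≤ ENNReal.ofReal (θ a - θ y) + ENNReal.ofReal (θ y - θ x) :=
          add_le_add (ih y hay hyb hyk) h2'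
      _ = ENNReal.ofReal (θ a - θ x) := by
          rw [← ENNReal.ofReal_add e1 e2]; congr 1; ring

end Vale.Agent.P218Z.Stj

namespace Vale.Agent.P218Z

/-- **STJ** -/
theorem stj : STJ := by
  intro f θ U a b hab hU hae hθ h
  set K : ℕ → Set ℝ := fun n => {t | closedBall t (1 / ((n : ℝ) + 1)) ⊆ U} ∩ Icc a b with hK
  have hmono : Monotone K := by
    intro m n hmn t ht
    refine ⟨(closedBall_subset_closedBall ?_).trans ht.1, ht.2⟩
    exact Nat.one_div_le_one_div hmn
  have heq : (Icc a b : Set ℝ) =ᵐ[volume] (⋃ n, K n : Set ℝ) := by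
    filter_upwards [hae] with t ht
    apply propext
    constructor
    · intro hi
      obtain ⟨ε, hε, hb⟩ := Metric.isOpen_iff.1 hU t (ht hi)
      obtain ⟨n, hn⟩ := exists_nat_one_div_lt hε
      exact mem_iUnion.2 ⟨n, (closedBall_subset_ball hn).trans hb, hi⟩
    · intro hi
      obtain ⟨n, hn⟩ := mem_iUnion.1 hi
      exact hn.2
  rw [setLIntegral_congr heq, setLIntegral_iUnion_of_directed f hmono.directed_le]
  refine iSup_le fun n => ?_
  have hδ : (0 : ℝ) < 1 / ((n : ℝ) + 1) := Nat.one_div_pos_of_nat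
  obtain ⟨k, hk⟩ := exists_nat_ge ((b - a) / (1 / ((n : ℝ) + 1)))
  rw [div_le_iff₀ hδ] at hk
  exact Stj.step f θ U a b _ hδ hθ h k b hab le_rfl (by linarith)

end Vale.Agent.P218Z
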