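import Vale.Agent.P218Z.Spec
import Vale.Agent.P218R.WFgr
import Vale.Agent.P218R.WLoc

/-!
# P218Z, row WLZ: small tilt gives a graph with all bounds, for local flows
-/

open MeasureTheory Metric Filter Topology Set
open scoped ContDiff ENNReal RealInnerProductSpace
open Vale.Agent.P366.Stmt (E)
open Vale.Agent.P366W (trc dvg Fr adj)
open Vale.Agent.P218R

noncomputable section

namespace Vale.Agent.P218Z

namespace Wlz

variable {F : Flw} {a b s t ρ σ : ℝ} {y e : E3} {L : E 2 →ₗᵢ[ℝ] E3} {B : Set E3}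

theorem sl (h : Pre F a b) (ht : t ∈ Ioo a b) : (F.sl t).Ok where
  sw := Flw.slice h.su ht
  sn := Flw.slice h.sn ht
  reg := h.reg t ht
  nrm x hx := (continuous_const.prodMk continuous_id).continuousAt.eventually (h.nrm t ht x hx)

theorem mono (h : OkL F a b B) {c d : ℝ} (hc : a ≤ c) (hd : d ≤ b) : OkL F c d B :=
  have s := Ioo_subset_Ioo hc hd
  ⟨⟨h.su.mono (prod_mono_left s), h.sn.mono (prod_mono_left s), fun t ht => h.reg t (s ht),
    fun t ht => h.nrm t (s ht)⟩, fun t ht => h.eq t (s ht)⟩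

theorem cu (h : Pre F a b) (ht : t ∈ Ioo a b) (z : E3) : ContinuousAt F.u (t, z) :=
  (h.su.contDiffAt (Flw.mem_dom ht z)).continuousAt

theorem cn (h : Pre F a b) (ht : t ∈ Ioo a b) (z : E3) : ContinuousAt F.n (t, z) :=
  (h.sn.contDiffAt (Flw.mem_dom ht z)).continuousAt

theorem line (h : Pre F a b) (ht : t ∈ Ioo a b) (p z : E3) (c : ℝ) :
    HasDerivAt (fun c : ℝ => F.u (t, p + c • z)) (fderiv ℝ (F.sl t).w (p + c • z) z) c :=
  ((sl h ht).dw _).hasFDerivAt.comp_hasDerivAt c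
    (by simpa using ((hasDerivAt_id c).smul_const z).const_add p)

theorem ev_tilt (h : Pre F a b) (hs : s ∈ Ioo a b) {K : Set E3} (hK : IsCompact K) {σ' : ℝ}
    (hσ : σ < σ') (ht : ∀ z ∈ K, F.u (s, z) = 0 → ‖F.n (s, z) - e‖ ≤ σ) :
    ∀ᶠ t in 𝓝 s, ∀ z ∈ K, F.u (t, z) = 0 → ‖F.n (t, z) - e‖ ≤ σ' := by
  refine hK.eventually_forall_of_forall_eventually fun z hz => ?_
  by_cases h0 : F.u (s, z) = 0
  · exact (((cn h hs z).sub continuousAt_const).norm.eventually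
      (gt_mem_nhds ((ht z hz h0).trans_lt hσ))).mono fun _ h1 _ => h1.le
  · exact ((cu h hs z).eventually_ne h0).mono fun _ h1 h2 => absurd h2 h1

theorem ev_zero (h : Pre F a b) (hs : s ∈ Ioo a b) (h0 : F.u (s, y) = 0) (hρ : 0 < ρ) :
    ∀ᶠ t in 𝓝 s, ∃ q ∈ ball y ρ, F.u (t, q) = 0 := by
  have hd := line h hs y (F.n (s, y)) 0
  have hS := sl h hs
  have e1 : (F.sl s).w y = 0 := h0
  have e2 : ‖F.n (s, y)‖ = 1 := hS.norm_n e1
  rw [zero_smul, add_zero, hS.fderiv_w e1] at hd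
  have hp : 0 < ‖gradient (F.sl s).w y‖ * ⟪(F.sl s).n y, F.n (s, y)⟫ :=
    mul_pos (hS.gpos e1) (by rw [show F.n (s, y) = (F.sl s).n y from rfl, hS.nn e1]; exact one_pos)
  obtain ⟨c, c1, c2⟩ := ((hd.tendsto_slope_zero_right.eventually (lt_mem_nhds hp)).and
    (Ioo_mem_nhdsGT hρ)).exists
  obtain ⟨d, d1, d2⟩ := ((hd.tendsto_slope_zero_left.eventually (lt_mem_nhds hp)).and
    (Ioo_mem_nhdsLT (neg_lt_zero.2 hρ))).exists
  simp only [zero_add, zero_smul, add_zero, h0, sub_zero, smul_eq_mul] at c1 d1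
  have c3 : 0 < F.u (s, y + c • F.n (s, y)) := (mul_pos_iff_of_pos_left (inv_pos.2 c2.1)).1 c1
  have d3 : F.u (s, y + d • F.n (s, y)) < 0 := by
    by_contra! d4
    exact absurd d1 (not_lt.2 (mul_nonpos_of_nonpos_of_nonneg (inv_nonpos.2 d2.2.le) d4))
  have k : ∀ z, ContinuousAt (fun t => F.u (t, z)) s := fun z =>
    ContinuousAt.comp (f := fun t => (t, z)) (cu h hs z) (by fun_prop)
  filter_upwards [(k _).eventually (lt_mem_nhds c3), (k _).eventually (gt_mem_nhds d3),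
    Ioo_mem_nhds hs.1 hs.2] with t t1 t2 t3
  obtain ⟨x, x1, x2⟩ := intermediate_value_Icc (d2.2.trans c2.1).le
    (fun x _ => (line h t3 y (F.n (s, y)) x).continuousAt.continuousWithinAt) ⟨t2.le, t1.le⟩
  refine ⟨_, ?_, x2⟩
  rw [mem_ball_iff_norm, add_sub_cancel_left, norm_smul, e2, mul_one]
  exact abs_lt.2 ⟨d2.1.trans_le x1.1, x1.2.trans_lt c2.2⟩

open Fgr in
theorem fgr {t₁ t₂ : ℝ} {p : E3} (hF : OkL F a b B) (hL : Fr e L) (ha : a ≤ t₁) (hb : t₂ ≤ b)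
    (hB : ball p (2 * ρ) ⊆ B) (hσ : σ ≤ 1 / 8)
    (h : ∀ t ∈ Ioo t₁ t₂, (∃ q ∈ ball p (ρ / 8), F.u (t, q) = 0) ∧
      ∀ q ∈ ball p (3 * ρ), F.u (t, q) = 0 → ‖F.n (t, q) - e‖ ≤ σ) :
    ∃ v : Z2 → ℝ, Sol v t₁ t₂ ρ (2 * σ) ∧ ∀ t ∈ Ioo t₁ t₂,
      (F.sl t).Gr p e L ρ ρ (fun y => v (t, y)) ∧ ∀ y, ‖y‖ < ρ →
        F.n (t, p + L y + v (t, y) • e) =
          (√(1 + ‖gx v (t, y)‖ ^ 2))⁻¹ • (e - L (gx v (t, y))) := by
  replace hF := mono hF ha hb
  choose! V V1 V2 using fun t (m : t ∈ Ioo t₁ t₂) =>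
    (h t m).1.elim fun q k => graph (sl hF.toPre m) hL hσ k.1 k.2 (h t m).2
  have z := fun t m y hy => Grn.zero (V1 t m) (y := y) hy
  have ne := fun t m y hy => Grn.n_eq (V1 t m) (sl hF.toPre m) hL (y := y) hy
    ((V2 t m y hy).1.differentiableAt (by simp))
  have su := fun t m x => hF.su.contDiffAt (Flw.mem_dom (t := t) m x)
  have q0 : ∀ g : E 2, 0 < (√(1 + ‖g‖ ^ 2))⁻¹ := fun g => by positivity
  have sm : ∀ t ∈ Ioo t₁ t₂, ∀ y, ‖y‖ < ρ → ContDiffAt ℝ ∞ (fun z : Z2 => V z.1 z.2) (t, y) := by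
    intro t m y hy
    have hG : ContDiffAt ℝ ∞ (fun z : Z2 × ℝ => F.u (z.1.1, p + L z.1.2 + z.2 • e)) ((t, y), V t y) :=
      (su t m _).comp ((t, y), V t y) (contDiff_fst.fst.prodMk ((contDiff_const.add
        (L.contDiff.comp contDiff_fst.snd)).add (contDiff_snd.smul contDiff_const))).contDiffAt
    have k1 := (hG.differentiableAt (by simp)).hasFDerivAt.comp_hasDerivAt (V t y)
      (hasFDerivAt_prodMk_right (𝕜 := ℝ) (t, y) (V t y)).hasDerivAt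
    have k0 := ((sl hF.toPre m).dw (gX p e L (V t) y)).hasFDerivAt.comp_hasDerivAt (V t y)
      (((hasDerivAt_id' (V t y)).smul_const e).const_add (p + L y))
    have k2 := k1.unique k0
    rw [one_smul, (sl hF.toPre m).fderiv_w (z t m y hy), ne t m y hy, n_e hL] at k2
    have hi : (fderiv ℝ (fun z : Z2 × ℝ => F.u (z.1.1, p + L z.1.2 + z.2 • e)) ((t, y), V t y) ∘L
        .inr ℝ Z2 ℝ).IsInvertible := ⟨ContinuousLinearEquiv.unitsEquivAut ℝ (Units.mk0 _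
      (mul_pos ((sl hF.toPre m).gpos (z t m y hy)) (q0 _)).ne'), by ext; simpa using k2.symm⟩
    have k3 := hG.contDiffAt_implicitFunction (by simp) hi
    refine k3.congr_of_eventuallyEq ?_
    filter_upwards [hG.eventually_apply_implicitFunction (by simp) hi,
      continuous_fst.continuousAt.eventually (isOpen_Ioo.mem_nhds m),
      continuous_snd.norm.continuousAt.eventually (gt_mem_nhds hy),
      k3.continuousAt.abs.eventually (gt_mem_nhds
        (by simpa only [hG.implicitFunction_apply_self] using (V1 t m y hy).1))] with w k4 k5 k6 k7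
    exact (((V1 _ k5 _ k6).2 _ k7).2.1 (k4.trans (z t m y hy))).symm
  have ge := fun t m y hy => gx_eq ((sm t m y hy).differentiableAt (by simp))
  refine ⟨fun z => V z.1 z.2, ⟨fun w k => (sm _ k.1 _ (mem_ball_zero_iff.1 k.2)).contDiffWithinAt,
    fun ⟨t, y⟩ ⟨m, hy⟩ => ?_, fun ⟨t, y⟩ ⟨m, hy⟩ => ?_⟩, fun t m => ⟨V1 t m, fun y hy => ?_⟩⟩
  · replace hy := mem_ball_zero_iff.1 hy
    have := pow_le_pow_left₀ (norm_nonneg _) (V2 t m y hy).2 2
    rwa [← ge t m y hy, EuclideanSpace.real_norm_sq_eq] at this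
  · replace hy := mem_ball_zero_iff.1 hy
    have du := (su t m (gX p e L (V t) y)).differentiableAt (by simp)
    have k1 : HasDerivAt (fun s => V s y) (dT (fun z => V z.1 z.2) (t, y)) t := by
      simpa using! (((sm t m y hy).differentiableAt (by simp)).hasFDerivAt.comp t
        (hasFDerivAt_prodMk_left t y)).hasDerivAt
    have k2 := (du.hasFDerivAt.comp_hasDerivAt t ((hasDerivAt_id' t).prodMk
      ((k1.smul_const e).const_add (p + L y)))).unique ((hasDerivAt_const t 0).congr_of_eventuallyEq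
        (eventually_of_mem (isOpen_Ioo.mem_nhds m) fun s k => z s k y hy))
    have k3 := hF.eq t m (gX p e L (V t) y) (hB (hL.mem_ball hy (V1 t m y hy).1.le)) (z t m y hy)
    have k4 := (sl hF.toPre m).fderiv_w (z t m y hy) e
    rw [(Flw.deriv_slice du).deriv, (grn _ p e L ρ ρ _ y (sl hF.toPre m) hL (V1 t m) hy
      ((V2 t m y hy).1.of_le two_le)).2.2] at k3
    rw [ne t m y hy, n_e hL] at k4
    erw [Flw.fderiv_slice du] at k4
    rw [show ∀ c : ℝ, ((1 : ℝ), c • e) = (1, 0) + c • ContinuousLinearMap.inr ℝ ℝ E3 e by simp,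
      map_add, map_smul, k3, ← ContinuousLinearMap.comp_apply, k4, smul_eq_mul] at k2
    rw [ht_eq ((sm t m y hy).of_le two_le), ge t m y hy]
    refine mul_left_cancel₀ (mul_pos ((sl hF.toPre m).gpos (z t m y hy)) (q0 (gradient (V t) y))).ne' ?_
    linear_combination k2
  · rw [ge t m y hy]
    exact ne t m y hy

theorem ex_graph {R κ : ℝ} (R1 : 1 ≤ R) (k0 : 0 < κ) (k1 : κ * (128 * R) = 1)
    (anc : Anc F a b B R) (s1 : 0 < σ) (s3 : σ ≤ 1 / 16) (hF : OkL F a b B) (hρ : 0 < ρ)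
    (ha : a ≤ s - ρ ^ 2) (hb : s < b) (hB : closedBall y ρ ⊆ B)
    (h0 : F.u (s, y) = 0) (ht : F.TL s y ρ σ) : ∃ L, Fr (F.n (s, y)) L ∧ ∃ t₂ > s, ∃ v : Z2 → ℝ,
      Sol v (s - 4 * (κ * ρ) ^ 2) t₂ (ρ / 4) (2 * (2 * σ)) ∧ ∀ t ∈ Ioo (s - 4 * (κ * ρ) ^ 2) t₂,
        (F.sl t).Gr y (F.n (s, y)) L (ρ / 4) (ρ / 4) (fun x => v (t, x)) ∧ ∀ x, ‖x‖ < ρ / 4 →
          F.n (t, y + L x + v (t, x) • F.n (s, y)) =
            (√(1 + ‖gx v (t, x)‖ ^ 2))⁻¹ • (F.n (s, y) - L (gx v (t, x))) := by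
  have k2 : κ ≤ 1 / 128 := by nlinarith
  have r2 : 0 < ρ ^ 2 := by positivity
  have hs : s ∈ Ioo a b := ⟨by linarith, hb⟩
  obtain ⟨L, hL⟩ := ex_fr ((sl hF.toPre hs).norm_n (x := y) h0)
  obtain ⟨t₂, t1, t2⟩ := (nhdsGE_basis_Ico s).eventually_iff.1 (nhdsWithin_le_nhds
    (((ev_tilt hF.toPre hs (isCompact_closedBall y (3 * (ρ / 4))) (show σ < 2 * σ by linarith)
      fun z hz => ht s ⟨by linarith, le_rfl⟩ z (closedBall_subset_ball (by linarith) hz)).and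
        (ev_zero hF.toPre hs h0 (show 0 < ρ / 4 / 8 by positivity))).and (gt_mem_nhds hb)))
  have kρ : 0 < κ * ρ := by positivity
  have kρ2 : 4 * (κ * ρ) ^ 2 < ρ ^ 2 := by
    rw [mul_pow, ← mul_assoc]; exact mul_lt_of_lt_one_left r2 (by nlinarith)
  refine ⟨L, hL, min t₂ b, lt_min t1 hb, fgr (ρ := ρ / 4) (σ := 2 * σ) hF hL
    (by linarith) (min_le_right _ _)
    ((ball_subset_closedBall.trans (closedBall_subset_closedBall (by linarith))).trans hB)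
    (by linarith) fun t htt => ?_⟩
  rcases lt_or_ge t s with h1 | h1
  · refine ⟨?_, fun q hq h2 => (ht t ⟨by linarith [htt.1], h1.le⟩ q
      (ball_subset_ball (by linarith) hq) h2).trans (by linarith)⟩
    have q1 : √(s - t) ≤ 2 * (κ * ρ) := Real.sqrt_le_iff.2 ⟨by positivity, by nlinarith [htt.1]⟩
    have q2 : R * √(s - t) < ρ / 4 / 8 := by
      nlinarith [mul_le_mul_of_nonneg_left q1 (by linarith : 0 ≤ R)]
    obtain ⟨z, z1, z2⟩ := anc s t y (by linarith [htt.1]) h1 hb h0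
      ((closedBall_subset_closedBall (by linarith)).trans hB)
    exact ⟨z, mem_ball_iff_norm.2 (z2.trans_lt q2), z1⟩
  · have h2 := t2 ⟨h1, htt.2.trans_le (min_le_left _ _)⟩
    exact ⟨h2.1.2, fun q hq => h2.1.1 q (ball_subset_closedBall hq)⟩

end Wlz

open Wh in
/-- **WLZ** -/
theorem wlz : WLZ := by
  obtain ⟨σ₀, s0, B, B0, hB⟩ := bern
  obtain ⟨σ, s1, s2, s3⟩ : ∃ σ > (0 : ℝ), σ ≤ σ₀ / 4 ∧ σ ≤ 1 / 16 :=
    ⟨min (σ₀ / 4) (1 / 16), by positivity, min_le_left _ _, min_le_right _ _⟩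
  refine ⟨σ, s1, s3, fun R R1 => ?_⟩
  obtain ⟨κ, k0, k1⟩ : ∃ κ > (0 : ℝ), κ * (128 * R) = 1 :=
    ⟨(128 * R)⁻¹, by positivity, inv_mul_cancel₀ (by positivity)⟩
  have k2 : κ ≤ 1 / 128 := by nlinarith
  obtain ⟨A, A0, A1⟩ : ∃ A ≥ (0 : ℝ), B 0 = A * κ ^ 2 / 2 :=
    ⟨2 * B 0 / κ ^ 2, by have := B0 0; positivity, by field_simp⟩
  obtain ⟨c, c0, c1, c2⟩ : ∃ c > (0 : ℝ), c ≤ κ / 2 ∧ c * (2 * A + 1) ≤ 1 :=
    ⟨min (κ / 2) (2 * A + 1)⁻¹, by positivity, min_le_left _ _,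
      (le_inv_mul_iff₀' (by positivity)).1 (by rw [mul_one]; exact min_le_right _ _)⟩
  refine ⟨c, c0, by linarith, fun k => if k = 0 then A else B k * κ / κ ^ k, fun k => by
    have := B0 k
    beta_reduce; split_ifs <;> positivity, fun F a b s ρ y D hF anc hρ ha hb hD h0 ht => ?_⟩
  obtain ⟨L, hL, t₂, t3, v, hv, hG⟩ := Wlz.ex_graph R1 k0 k1 anc s1 s3 hF hρ ha hb hD h0 ht
  have kρ : 0 < κ * ρ := by positivity
  have kρ3 : κ * ρ ≤ ρ / 4 := by nlinarith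
  have cρ : c * ρ ≤ κ * ρ / 2 := by nlinarith
  have cρ0 : 0 < c * ρ := by positivity
  have hU : IsOpen (Ioo (s - 4 * (κ * ρ) ^ 2) t₂ ×ˢ ball (0 : E 2) (ρ / 4)) :=
    isOpen_Ioo.prod isOpen_ball
  have sv : Bern.Sm _ v := fun z hz => hv.sm.contDiffAt (hU.mem_nhds hz)
  have m1 : ∀ t ∈ Ioc (s - (c * ρ) ^ 2) s, t ∈ Ico (s - 4 * (κ * ρ) ^ 2 + (κ * ρ) ^ 2) t₂ ∧
      t ∈ Ioo (s - 4 * (κ * ρ) ^ 2) t₂ := fun t h =>
    ⟨⟨by nlinarith [h.1], h.2.trans_lt t3⟩, by nlinarith [h.1], h.2.trans_lt t3⟩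
  have ms := m1 s ⟨by nlinarith, le_rfl⟩
  obtain ⟨b1, b2⟩ := hB v _ _ _ kρ (sol_mono hv kρ3 (by positivity) (by linarith))
  have z0 : ‖(0 : E 2)‖ < ρ / 4 := by simpa using hρ
  have v0 : v (s, 0) = 0 :=
    ((((hG s ms.2).1 0 z0).2 0 (by simpa using hρ)).2.1 (by simpa [Flw.sl] using h0)).symm
  have g0 : gx v (s, 0) = 0 := by
    have h1 := congrArg (adj L) ((hG s ms.2).2 0 z0)
    simp only [v0, map_zero, add_zero, zero_smul, map_smul, map_sub, hL.adj_e, P366W.adj_L,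
      zero_sub] at h1
    exact neg_eq_zero.1 ((smul_eq_zero.1 h1.symm).resolve_left (by positivity))
  have k := est k0 k2 A0 A1 c0 c1 hρ t3 hv v0 g0 b2
  have gb := fun t h x hx => (k t h x hx).1
  have vb := fun t h x hx => (k t h x hx).2
  have da : ∀ t ∈ Ioc (s - (c * ρ) ^ 2) s, ∀ x : E 2, ‖x‖ < c * ρ →
      (t, x) ∈ Ioo (s - 4 * (κ * ρ) ^ 2) t₂ ×ˢ ball (0 : E 2) (ρ / 4) := fun t h x hx =>
    ⟨(m1 t h).2, mem_ball_zero_iff.2 (by linarith)⟩
  refine ⟨L, hL, v, fun t h => ⟨fun x hx => (Bern.sm_sl sv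
    (da t h x (mem_ball_zero_iff.1 hx))).contDiffWithinAt, Gr_mono (hG t (m1 t h).2).1
      (by linarith) fun x hx => (vb t h x hx).trans_lt ?_, fun x hx => ⟨vb t h x hx, ?_,
        fun k hk => ?_⟩, fun z hz z0 => ?_⟩⟩
  · rw [div_lt_iff₀ hρ]
    have h1 : ‖x‖ ^ 2 ≤ (c * ρ) ^ 2 := pow_le_pow_left₀ (norm_nonneg _) hx.le 2
    have h2 : A * (‖x‖ ^ 2 + (s - t)) ≤ A * (2 * (c * ρ) ^ 2) :=
      mul_le_mul_of_nonneg_left (by linarith [h.1]) A0
    have h3 : 0 < c * ρ ^ 2 := by positivity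
    nlinarith [mul_le_mul_of_nonneg_right c2 h3.le, mul_pos c0 h3]
  · rw [fderiv_gx (sv.da (da t h x hx))]
    refine (gb t h x hx).trans ?_
    have := sub_nonneg.2 h.2
    simp only [if_true]
    gcongr
    linarith
  · beta_reduce
    rw [if_neg (by omega)]
    refine (b1 t (m1 t h).1 x (hx.trans_le cρ) k hk).trans_eq ?_
    rw [mul_pow]; field_simp
  · have h1 := mem_ball_iff_norm.1 hz
    have h2 := hL.norm_adj (z - y)
    have h3 : |⟪F.n (s, y), z - y⟫| ≤ ‖z - y‖ := by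
      simpa [hL.one] using abs_real_inner_le_norm (F.n (s, y)) (z - y)
    have h4 : y + L (adj L (z - y)) + ⟪F.n (s, y), z - y⟫ • F.n (s, y) = z := by
      rw [add_assoc, hL.dec, add_sub_cancel]
    have h5 := (((hG t (m1 t h).2).1 (adj L (z - y)) (by linarith)).2 ⟪F.n (s, y), z - y⟫
      (by linarith)).2.1 (by rw [h4]; exact z0)
    have h6 := (hG t (m1 t h).2).2 (adj L (z - y)) (by linarith)
    beta_reduce at h5
    rw [← h5, h4] at h6
    rw [h6]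
    refine (nrm_near hL _).trans ?_
    have h7 := gb t h _ (h2.trans_lt h1)
    have h8 : A * (‖adj L (z - y)‖ / ρ) ≤ A * (‖z - y‖ / ρ) := by gcongr
    simp only [if_true]
    linarith

end Vale.Agent.P218Z
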