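import Vale.Agent.P218M2.Arc
import Vale.Agent.P218M2.Bad
import Vale.Agent.P218M2.Brz
import Vale.Agent.P218M2.Cgi
import Vale.Agent.P218M2.Cgp
import Vale.Agent.P218M2.Cnt
import Vale.Agent.P218M2.Dp2
import Vale.Agent.P218M2.Hw2
import Vale.Agent.P218M2.Locz2
import Vale.Agent.P218M2.Psit2
import Vale.Agent.P218M2.Sep2
import Vale.Agent.P218M2.Vl
import Vale.Agent.P218M2.Zeta
import Vale.Agent.P218Z.Chi
import Vale.Agent.P218Z.Cl3
import Vale.Agent.P218Z.Daz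
import Vale.Agent.P218Z.Dnz
import Vale.Agent.P218Z.Dsw
import Vale.Agent.P218Z.Gap
import Vale.Agent.P218Z.Gbz
import Vale.Agent.P218Z.Huz
import Vale.Agent.P218Z.Ind
import Vale.Agent.P218Z.Ld
import Vale.Agent.P218Z.Loz
import Vale.Agent.P218Z.Orl
import Vale.Agent.P218Z.Ptz
import Vale.Agent.P218Z.Rsz
import Vale.Agent.P218Z.Slc
import Vale.Agent.P218Z.Slz
import Vale.Agent.P218Z.Stj
import Vale.Agent.P218Z.Tfz
import Vale.Agent.P218Z.Top
import Vale.Agent.P218Z.Whl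
import Vale.Agent.P218Z.Whz
import Vale.Agent.P218Z.Wlz
import Vale.Agent.P218E.Fin

/-!
# P218Z: assembly
-/

open MeasureTheory Set
open Vale.Agent.P218 (IsTangentFlow IsIntegralBrakkeFlow TangentFlowUnique)
open Vale.Agent.P218R Vale.Agent.P218E

namespace Vale.Agent.P218Z

open P218M1 P218M2 in
theorem dpz' : DPZ := dpz top P218Z.ind locz2 arc (dp2 kit main' psit' dich' P218M1.low' (up kit)
  bar zeta psit2
  (cgi cgp) sep2 (bad vl hw2 P218M2.cnt cgp))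

theorem dsw0 : DSW := dsw' top ind stj

theorem loz' : LOZ := loz rsz (slz dsw0) (whz top ind orl (ptz (huz top ind stj)) (whl wlz))

theorem tfz' : TFZ := tfz (dnz dpz' (daz dpz' dsw0 (dsz dsw0) (slz dsw0)) rsz dsw0 (dsz dsw0)
  (slz dsw0) loz') loz' (slz dsw0)

theorem cl3' : CL3 := cl3 top slc brf (gbz chi') ldz gap0 tfz'

theorem fin3 {μ : ℝ → Measure E3} {x₀ : E3} {t₀ a : ℝ} {M : ℝ → Set E3} (hS : P218T.TStar)
    (hB : IsIntegralBrakkeFlow 2 μ) (h0 : μ 0 univ < ⊤) (ht : 0 < t₀) (ha : a < t₀)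
    (hM : IsSmallSing M a t₀) (hμ : ∀ t ∈ Ioo a t₀, μ t = (μH[2] : Measure E3).restrict (M t)) :
    TangentFlowUnique 2 μ x₀ t₀ := fun ν ν' hν hν' => by
  obtain ⟨S, Λ, G, h1, h2⟩ := cl3' μ M a t₀ x₀ ν hB h0 ht ha hM hμ hν
  exact hS μ hB h0 x₀ t₀ ht S.G (ends0 S Λ G h1) ⟨ν, hν, h2⟩ ν ν' hν hν'

end Vale.Agent.P218Z
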