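import Vale.Agent.P218Z.Pre
import Vale.Agent.P218E.All

/-!
# P218Z: multiplicity one almost everywhere
-/

open MeasureTheory Metric Filter Topology Set
open scoped ContDiff ENNReal RealInnerProductSpace NNReal
open Vale.Agent.P218 (limitSet WeakTendsto Slow)
open Vale.Agent.P218.H552 (NN)
open Vale.Agent.P218R Vale.Agent.P218E

noncomputable section

namespace Vale.Agent.P218Z

theorem daz (hP : DPZ) (hW : DSW) (hD : DSZ) (hS : SLZ) : DAZ := by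
  intro F a b Λ G τ₀ x₀ κ hab hF hsl hκ ε hε
  obtain ⟨hlf, τ, hτ, hw⟩ := hκ
  obtain ⟨-, σ, hσ, hreg, hG⟩ := hS F a b Λ G τ₀ x₀ τ κ hab hF hsl hlf hτ hw
  obtain ⟨-, hN2, hN3, hN4, -⟩ := nop
  have hσt := tendsto_atTop_mono (fun i => (hσ i).1) hτ
  set K : ℕ → Set E3 := fun n => {z | ‖z‖ ≤ n ∧ ∀ r : ℝ, 0 < r → r ≤ 1 / (n + 1) →
    ENNReal.ofReal ((1 + ε / 2) * Real.pi * r ^ 2) < κ (ball z r)} with hK
  refine measure_mono_null (t := ⋃ n, K n) (fun p hp => ?_) (measure_iUnion_null fun n => ?_)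
  · obtain ⟨δ, hδ, h⟩ := (nhdsGT_basis (0 : ℝ)).eventually_iff.1 (ball0 _ _ ε κ p hG hε hp).1
    obtain ⟨n, h1, h2⟩ := ((tendsto_natCast_atTop_atTop (R := ℝ)).eventually_ge_atTop ‖p‖ |>.and
      (tendsto_one_div_add_atTop_nhds_zero_nat.eventually_lt_const hδ)).exists
    exact mem_iUnion.2 ⟨n, h1, fun r hr hr' => h ⟨hr, hr'.trans_lt h2⟩⟩
  by_contra hpos
  obtain ⟨m, hm, hmK⟩ : ∃ m > (0 : ℝ), ENNReal.ofReal m ≤ κ (K n) := by
    obtain ⟨x, h1, h2, h3⟩ := ENNReal.lt_iff_exists_real_btwn.1 (pos_iff_ne_zero.2 hpos)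
    exact ⟨x, ENNReal.ofReal_pos.1 h2, h3.le⟩
  have hκA : AR (max Λ 1) κ := Gs.ar_lim (hG.ok.mono fun i hi => hi.2) hG.wk
  have hΛ := hG.pos
  obtain ⟨R', hR', m', hm', D₀, hD₀, e₀, he₀, J, hP⟩ :=
    hP Λ G (ε / 2) (m / (4 * max Λ 1)) n (by positivity) (by positivity)
  obtain ⟨Cd, hCd, hD⟩ := hD R'
  obtain ⟨i₀, hi₀⟩ := (ev_time hab hσt).exists
  obtain ⟨s, hs⟩ := anti_small (g := fun s => gs (F.rsl x₀ b (max s (σ i₀))).μ 0 1)
    (fun t => gs_nonneg _ _ _) (δ := D₀ / Cd) (by positivity)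
  have late : ∀ t, σ i₀ ≤ t → a < b - Real.exp (-2 * t) := fun t ht => by
    have : Real.exp (-2 * t) ≤ Real.exp (-2 * σ i₀) := Real.exp_le_exp.2 (by linarith)
    linarith
  obtain ⟨i₁, ⟨r1, o1, -⟩, hi₁⟩ := (hreg.and (hσt.eventually_ge_atTop (max s (σ i₀)))).exists
  set t₁ := σ i₁ with ht₁
  have h1 := late t₁ ((le_max_right _ _).trans hi₁)
  have h2 := (hW F a b Λ G b _ t₁ x₀ hF hi₁ (late _ (le_max_right _ _)) le_rfl).1
  obtain ⟨e₁, he₁, hNP⟩ := hN2 _ R' o1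
  set e := min (min e₀ e₁) (1 / (n + 1)) with he
  have he0 : 0 < e := lt_min (lt_min he₀ he₁) (by positivity)
  have h3 : ∀ᶠ i in atTop, ∀ j ∈ Iic J,
      Many (F.rsl x₀ b (σ i)).μ n (ε / 2) (m / (4 * max Λ 1)) (e / 10 / 2 ^ j) := by
    refine (eventually_all_finite (finite_Iic J)).2 fun j _ => hN3 _ _ _ _ _ _ hlf
      (hG.ok.mono fun k hk => hk.2.fin) hG.wk (hN4 κ (K n) _ _ _ _ _ hΛ hκA (by positivity)
        (fun z hz => hz.1) hmK fun z hz => hz.2 _ (by positivity) ?_)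
    refine le_trans ?_ (min_le_right (min e₀ e₁) _)
    refine (div_le_self (by positivity) (one_le_pow₀ one_le_two)).trans ?_
    linarith
  obtain ⟨i, h4, h5, h6, h7⟩ := (h3.and (hreg.and ((hσt.eventually_ge_atTop t₁).and
    ((hG.ph R').eventually_lt_const one_pos)))).exists
  obtain ⟨j, hj1, hj2⟩ := hP F a b b t₁ (σ i) e x₀ hF.toZc h6 h1 le_rfl he0
    ((min_le_left _ _).trans (min_le_left _ _)) r1 h5.1
    ((hD F a b Λ G b t₁ (σ i) x₀ hF h6 h1 le_rfl).1.trans (ENNReal.ofReal_le_ofReal (by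
      have h8 := hs (σ i)
      rw [max_eq_left (((le_max_right _ _).trans hi₁).trans h6), lt_div_iff₀' hCd] at h8
      exact le_trans (mul_le_mul_of_nonneg_left (sub_le_sub_right h2 _) hCd.le) h8.le)))
    ((hNP e ((min_le_left _ _).trans (min_le_right _ _))).trans_le zero_le)
    (dsb_le h5.2.1 h5.2.2.1 h7.le)
  exact hj2 (h4 j hj1)

end Vale.Agent.P218Z
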