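import Vale.Agent.P218E.Zm

/-!
# P218Z: the Taylor expansion of Gaussian averages
-/

open MeasureTheory Metric Filter Topology Set
open scoped RealInnerProductSpace
open Vale.Agent.P218R Vale.Agent.P218E

noncomputable section

namespace Vale.Agent.P218Z

/-- Gaussian averages with a weight -/
def Ig (ν : Measure E3) (g : E3 → ℝ) (y : E3) (τ : ℝ) : ℝ :=
  (4 * Real.pi * τ)⁻¹ * ∫ x, g x * Real.exp (-‖x - y‖ ^ 2 / (4 * τ)) ∂ν

namespace Fl

theorem exp3 (B : ℝ) : |Real.exp B - (1 + B + B ^ 2 / 2)| ≤ |B| ^ 3 * Real.exp |B| := by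
  have h := Complex.norm_exp_sub_sum_le_norm_mul_exp (B : ℂ) 3
  have e : Complex.exp B - ∑ m ∈ Finset.range 3, (B : ℂ) ^ m / m.factorial =
      ((Real.exp B - (1 + B + B ^ 2 / 2) : ℝ) : ℂ) := by
    simp [Finset.sum_range_succ, Nat.factorial]
  rwa [e, Complex.norm_real, Complex.norm_real] at h

theorem cube (x : ℝ) (hx : 0 ≤ x) : (1 + x) ^ 3 ≤ 24 ^ 3 * Real.exp (x / 8) := by
  have h1 : 1 + x ≤ 24 * Real.exp (x / 24) := by linarith [Real.add_one_le_exp (x / 24)]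
  have h2 : Real.exp (x / 8) = Real.exp (x / 24) ^ 3 := by
    rw [← Real.exp_nat_mul]; congr 1; push_cast; ring
  rw [h2, ← mul_pow]
  exact pow_le_pow_left₀ (by linarith) h1 3

theorem poly {a b h i l M : ℝ} (hl : 0 ≤ l) (l1 : l ≤ 1 / 4) (hM : 1 ≤ M) (ha : |a| ≤ l * M / 4)
    (hb : |b| ≤ l ^ 2 * M / 4) (hh : |h| ≤ l ^ 2) (hi : i * (1 + h) = 1) (i0 : 0 ≤ i)
    (i1 : i ≤ 16 / 15) :
    |i * (1 + (a + b) * i + ((a + b) * i) ^ 2 / 2) - (1 + a + b - h + a ^ 2 / 2)| ≤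
      8 * (l * M) ^ 3 := by
  have e : i * (1 + (a + b) * i + ((a + b) * i) ^ 2 / 2) - (1 + a + b - h + a ^ 2 / 2) =
      h * (h * i) - h * (i * (i + 1) * (a + b)) - h * (i * (i ^ 2 + i + 1) * (a + b) ^ 2 / 2) +
        b * (a + b / 2) := by
    have : i = 1 - h * i := by linarith
    linear_combination (1 - h + (i + 1) * (a + b) + (i ^ 2 + i + 1) * (a + b) ^ 2 / 2) * hi
  have M0 : 0 ≤ M := by linarith only [hM]
  have lM : 0 ≤ l * M := by positivity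
  have l2 : l ^ 2 ≤ l / 4 := by nlinarith only [hl, l1]
  have b1 : |b| ≤ l * M / 16 := by nlinarith only [hb, l2, M0]
  have d1 : |a + b| ≤ l * M := (abs_add_le _ _).trans (by linarith only [ha, b1, lM])
  have m1 : l * M ≤ l * M * M := le_mul_of_one_le_right lM hM
  have m2 : l * M * M ≤ l * M ^ 3 := by
    have := le_mul_of_one_le_right (mul_nonneg lM M0) hM
    linarith only [this]
  have m0 : l ≤ l * M := le_mul_of_one_le_right hl hM
  have d2 : (a + b) ^ 2 ≤ l * M * M := by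
    have := pow_le_pow_left₀ (abs_nonneg _) d1 2
    rw [sq_abs] at this
    nlinarith only [this, mul_nonneg lM M0, l1]
  have d3 : |a + b / 2| ≤ l * M := (abs_add_le _ _).trans (by
    rw [abs_div, abs_two]; linarith only [ha, b1, lM])
  have h8 : (l * M) ^ 3 = l ^ 2 * (l * M ^ 3) := by ring
  have b2 : |b| * (l * M) ≤ l ^ 2 * (l * M * M) := by
    nlinarith only [mul_le_mul_of_nonneg_right hb lM, mul_nonneg (sq_nonneg l) (mul_nonneg lM M0)]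
  rw [e, h8]
  generalize l * M ^ 3 = N at *
  have q0 := sq_nonneg l
  have t1 : |h * (h * i)| ≤ l ^ 2 * N := by
    rw [abs_mul, abs_mul, abs_of_nonneg i0]
    refine mul_le_mul hh ?_ (by positivity) q0
    nlinarith only [abs_nonneg h, hh, l2, i1, m0, m1, m2, hl]
  have t2 : |h * (i * (i + 1) * (a + b))| ≤ l ^ 2 * (3 * N) := by
    rw [abs_mul, abs_mul, abs_of_nonneg (by positivity : 0 ≤ i * (i + 1))]
    exact mul_le_mul hh (mul_le_mul (by nlinarith only [i0, i1]) (by linarith only [d1, m1, m2])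
      (abs_nonneg _) (by norm_num)) (by positivity) q0
  have t3 : |h * (i * (i ^ 2 + i + 1) * (a + b) ^ 2 / 2)| ≤ l ^ 2 * (2 * N) := by
    rw [abs_mul, abs_of_nonneg (by positivity : 0 ≤ i * (i ^ 2 + i + 1) * (a + b) ^ 2 / 2)]
    refine mul_le_mul hh ?_ (by positivity) q0
    have : i * (i ^ 2 + i + 1) ≤ 4 := by nlinarith only [i0, i1]
    linarith only [mul_le_mul this d2 (sq_nonneg _) (by norm_num), m2]
  have t4 : |b * (a + b / 2)| ≤ l ^ 2 * N := by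
    rw [abs_mul]
    exact ((mul_le_mul_of_nonneg_left d3 (abs_nonneg _)).trans b2).trans
      (mul_le_mul_of_nonneg_left m2 q0)
  have h5 := abs_add_le (h * (h * i) - h * (i * (i + 1) * (a + b)) -
    h * (i * (i ^ 2 + i + 1) * (a + b) ^ 2 / 2)) (b * (a + b / 2))
  have h6 := abs_sub (h * (h * i) - h * (i * (i + 1) * (a + b)))
    (h * (i * (i ^ 2 + i + 1) * (a + b) ^ 2 / 2))
  have h7 := abs_sub (h * (h * i)) (h * (i * (i + 1) * (a + b)))
  have h9 := (abs_nonneg _).trans t4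
  linarith only [h5, h6, h7, h9, t1, t2, t3, t4]

theorem tay0 {a q u h l : ℝ} (hl : 0 ≤ l) (l1 : l ≤ 1 / 4) (ha : |a| ≤ l * u / 2)
    (q0 : 0 ≤ q) (hq : q ≤ l ^ 2) (hh : |h| ≤ l ^ 2) :
    |(1 + h)⁻¹ * Real.exp (-(u ^ 2 - 4 * a + q) / (4 * (1 + h))) -
      Real.exp (-u ^ 2 / 4) * (1 + a + (h * u ^ 2 - q) / 4 - h + a ^ 2 / 2)| ≤
      200000 * l ^ 3 * Real.exp (-u ^ 2 / 16) := by
  obtain ⟨h1, h2⟩ := abs_le.1 hh
  have l2 : l ^ 2 ≤ 1 / 16 := by nlinarith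
  have h0 : 0 < 1 + h := by linarith
  obtain ⟨i, hi⟩ : ∃ i, i = (1 + h)⁻¹ := ⟨_, rfl⟩
  obtain ⟨b, hb⟩ : ∃ b, b = (h * u ^ 2 - q) / 4 := ⟨_, rfl⟩
  obtain ⟨M, hM⟩ : ∃ M, M = 1 + u ^ 2 := ⟨_, rfl⟩
  have i0 : 0 ≤ i := hi ▸ (inv_pos.2 h0).le
  have i1 : i ≤ 16 / 15 := by rw [hi, inv_le_comm₀ h0 (by norm_num)]; linarith
  have i2 : i * (1 + h) = 1 := hi ▸ inv_mul_cancel₀ h0.ne'
  have M1 : 1 ≤ M := by nlinarith
  have a1 : |a| ≤ l * M / 4 := by nlinarith [mul_nonneg hl (sq_nonneg (u - 1))]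
  have b1 : |b| ≤ l ^ 2 * M / 4 := by
    rw [abs_le, hb, hM]
    constructor <;> nlinarith [sq_nonneg u]
  have e : Real.exp (-(u ^ 2 - 4 * a + q) / (4 * (1 + h))) =
      Real.exp (-u ^ 2 / 4) * Real.exp ((a + b) * i) := by
    rw [← Real.exp_add, hb, hi]; congr 1; field_simp; ring
  have lM : 0 ≤ l * M := by positivity
  have d0 : |(a + b) * i| ≤ (|a| + |b|) * (16 / 15) := by
    rw [abs_mul, abs_of_nonneg i0]
    exact mul_le_mul (abs_add_le _ _) i1 i0 (by positivity)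
  have d1 : |(a + b) * i| ≤ l * M := by nlinarith
  have d2 : |(a + b) * i| ≤ u ^ 2 / 16 + 1 := by nlinarith [sq_nonneg (u - 4), sq_nonneg u]
  have x1 : Real.exp |(a + b) * i| ≤ 3 * Real.exp (u ^ 2 / 16) := by
    refine (Real.exp_le_exp.2 d2).trans ?_
    rw [Real.exp_add]
    nlinarith [Real.exp_one_lt_three, Real.exp_pos (u ^ 2 / 16)]
  have x2 : 1 ≤ Real.exp (u ^ 2 / 16) := Real.one_le_exp (by positivity)
  have p1 := (exp3 ((a + b) * i)).trans (mul_le_mul (pow_le_pow_left₀ (abs_nonneg _) d1 3) x1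
    (Real.exp_pos _).le (by positivity))
  have p2 := poly hl l1 M1 a1 b1 hh i2 i0 i1
  have p3 : |i * Real.exp ((a + b) * i) - (1 + a + b - h + a ^ 2 / 2)| ≤
      14 * (l * M) ^ 3 * Real.exp (u ^ 2 / 16) := by
    have h3 := abs_sub_le (i * Real.exp ((a + b) * i))
      (i * (1 + (a + b) * i + ((a + b) * i) ^ 2 / 2)) (1 + a + b - h + a ^ 2 / 2)
    rw [← mul_sub, abs_mul, abs_of_nonneg i0] at h3
    have h4 := mul_le_mul (i1.trans (by norm_num : (16 / 15 : ℝ) ≤ 2)) p1 (abs_nonneg _) zero_le_two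
    nlinarith [mul_le_mul_of_nonneg_left x2 (pow_nonneg lM 3)]
  have p4 : M ^ 3 ≤ 24 ^ 3 * Real.exp (u ^ 2 / 8) := hM ▸ cube _ (sq_nonneg u)
  have e2 : Real.exp (-u ^ 2 / 16) =
      Real.exp (-u ^ 2 / 4) * Real.exp (u ^ 2 / 8) * Real.exp (u ^ 2 / 16) := by
    rw [← Real.exp_add, ← Real.exp_add]; congr 1; ring
  rw [← hi, ← hb, e, mul_left_comm, ← mul_sub, abs_mul, abs_of_pos (Real.exp_pos _), e2]
  refine (mul_le_mul_of_nonneg_left p3 (Real.exp_pos _).le).trans ?_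
  have h5 : 0 ≤ Real.exp (-u ^ 2 / 4) * Real.exp (u ^ 2 / 16) * l ^ 3 := by positivity
  nlinarith [mul_le_mul_of_nonneg_left p4 h5, mul_nonneg h5 (Real.exp_pos (u ^ 2 / 8)).le]

theorem tay1 (z : E3) {v : E3} {h l : ℝ} (l1 : l ≤ 1 / 4) (hv : ‖v‖ ≤ l) (hh : |h| ≤ l ^ 2) :
    |(1 + h)⁻¹ * Real.exp (-‖z - v‖ ^ 2 / (4 * (1 + h))) - Real.exp (-‖z‖ ^ 2 / 4) *
      (1 + ⟪z, v⟫ / 2 + (‖z‖ ^ 2 / 4 - 1) * h + (⟪z, v⟫ * ⟪z, v⟫ / 4 - ⟪v, v⟫ / 2) / 2)| ≤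
      200000 * l ^ 3 * Real.exp (-‖z‖ ^ 2 / 16) := by
  have h1 := abs_real_inner_le_norm z v
  have k := tay0 (a := ⟪z, v⟫ / 2) (q := ‖v‖ ^ 2) ((norm_nonneg _).trans hv) l1 (u := ‖z‖)
    (by rw [abs_div, abs_two]; nlinarith [norm_nonneg z]) (sq_nonneg _)
    (pow_le_pow_left₀ (norm_nonneg _) hv 2) hh
  rw [norm_sub_sq_real, real_inner_self_eq_norm_sq]
  refine le_of_eq_of_le ?_ k
  congr 3
  · congr 2
    ring
  · ring

variable {Λ : ℝ} {ν : Measure E3} {g : E3 → ℝ}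

/-- the constant -/
def KK (Λ : ℝ) : ℝ := 400000 * Gs.C0 * Λ

/-- the weight -/
def wt (g : E3 → ℝ) (z : E3) : ℝ := (4 * Real.pi)⁻¹ * (g z * Real.exp (-‖z‖ ^ 2 / 4))

theorem dom (hΛ : 0 ≤ Λ) (h : AR Λ ν) {X : Type} [NormedAddCommGroup X] [NormedSpace ℝ X]
    {F : E3 → X} (hF : AEStronglyMeasurable F ν) {c : ℝ} (hc : 0 ≤ c)
    (hb : ∀ z, ‖F z‖ ≤ (4 * Real.pi)⁻¹ * (200000 * c * Real.exp (-‖z‖ ^ 2 / 16))) :
    Integrable F ν ∧ ‖∫ z, F z ∂ν‖ ≤ KK Λ * c := by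
  have i1 := Gs.intg hΛ h 0 (a := 16) (by norm_num)
  have i2 := Gs.int_le hΛ h 0 (a := 16) (by norm_num)
  simp only [sub_zero] at i1 i2
  have i3 := (i1.const_mul (200000 * c)).const_mul (4 * Real.pi)⁻¹
  refine ⟨i3.mono' hF (.of_forall hb), (norm_integral_le_of_norm_le i3 (.of_forall hb)).trans ?_⟩
  have := Gs.C0_pos
  have p := Real.pi_gt_three
  rw [integral_const_mul, integral_const_mul, inv_mul_le_iff₀ (by positivity), KK]
  have h1 : 0 ≤ Gs.C0 * Λ * c := by positivity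
  nlinarith [mul_le_mul_of_nonneg_left i2 hc, mul_le_mul_of_nonneg_left p.le h1]

theorem mom (hΛ : 0 ≤ Λ) (h : AR Λ ν) (hg : Measurable g) (g1 : ∀ x, |g x| ≤ 1) {X : Type}
    [NormedAddCommGroup X] [NormedSpace ℝ X] {F : E3 → X} (hF : Continuous F)
    (hb : ∀ z, ‖F z‖ ≤ 1 + ‖z‖ ^ 2) :
    Integrable (fun z => wt g z • F z) ν ∧ ‖∫ z, wt g z • F z ∂ν‖ ≤ KK Λ := by
  have m1 : Measurable (wt g) := by unfold wt; fun_prop
  have := dom hΛ h (F := fun z => wt g z • F z)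
    (m1.aestronglyMeasurable.smul hF.aestronglyMeasurable) zero_le_one fun z => ?_
  · simpa using this
  have p := Real.pi_pos
  rw [norm_smul, wt, norm_mul, Real.norm_of_nonneg (by positivity), mul_assoc]
  refine mul_le_mul_of_nonneg_left ?_ (by positivity)
  have h1 := cube _ (sq_nonneg ‖z‖)
  have h2 : 1 + ‖z‖ ^ 2 ≤ (1 + ‖z‖ ^ 2) ^ 3 := le_self_pow₀ (by nlinarith) three_ne_zero
  have h3 : Real.exp (-‖z‖ ^ 2 / 4) * Real.exp (‖z‖ ^ 2 / 8) ≤ Real.exp (-‖z‖ ^ 2 / 16) := by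
    rw [← Real.exp_add, Real.exp_le_exp]; nlinarith
  have h4 : ‖g z * Real.exp (-‖z‖ ^ 2 / 4)‖ ≤ Real.exp (-‖z‖ ^ 2 / 4) := by
    rw [norm_mul, Real.norm_of_nonneg (Real.exp_pos _).le]
    exact mul_le_of_le_one_left (Real.exp_pos _).le (g1 z)
  refine (mul_le_mul h4 ((hb z).trans (h2.trans h1)) (norm_nonneg _) (Real.exp_pos _).le).trans ?_
  nlinarith [Real.exp_pos (-‖z‖ ^ 2 / 16)]

/-- the Hessian of the kernel -/
def Hk (z : E3) : E3 →L[ℝ] E3 :=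
  (1 / 4 : ℝ) • (innerSL ℝ z).smulRight z - (1 / 2 : ℝ) • ContinuousLinearMap.id ℝ E3

theorem Hk_inner (z v w : E3) : ⟪Hk z v, w⟫ = ⟪z, v⟫ * ⟪z, w⟫ / 4 - ⟪v, w⟫ / 2 := by
  simp only [Hk, sub_apply, smul_apply,
    ContinuousLinearMap.smulRight_apply, innerSL_apply_apply, ContinuousLinearMap.id_apply,
    inner_sub_left, real_inner_smul_left]
  ring

theorem Hk_le (z : E3) : ‖Hk z‖ ≤ 1 + ‖z‖ ^ 2 := by
  refine (norm_sub_le _ _).trans ?_
  have := ContinuousLinearMap.norm_id_le (𝕜 := ℝ) (E := E3)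
  rw [norm_smul, norm_smul, ContinuousLinearMap.norm_smulRight_apply, innerSL_apply_norm]
  norm_num
  nlinarith [sq_nonneg ‖z‖]

theorem Hk_cont : Continuous Hk := by
  unfold Hk
  refine Continuous.sub (Continuous.fun_const_smul ?_ _) continuous_const
  exact ((ContinuousLinearMap.smulRightL ℝ E3 E3).continuous.comp
    (innerSL ℝ).continuous).clm_apply continuous_id

/-- **the expansion of order three** -/
theorem tay (hΛ : 0 ≤ Λ) (h : AR Λ ν) (hg : Measurable g) (g1 : ∀ x, |g x| ≤ 1) :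
    ∃ (b : E3) (c : ℝ) (S : E3 →L[ℝ] E3), ‖b‖ ≤ KK Λ ∧ |c| ≤ KK Λ ∧ ‖S‖ ≤ KK Λ ∧
      (∀ v w, ⟪S v, w⟫ = ⟪S w, v⟫) ∧
      ∑ i, ⟪S (EuclideanSpace.single i 1), EuclideanSpace.single i 1⟫ = c - Ig ν g 0 1 / 2 ∧
      ∀ (v : E3) (k l : ℝ), l ≤ 1 / 4 → ‖v‖ ≤ l → |k| ≤ l ^ 2 →
        |Ig ν g v (1 + k) - (Ig ν g 0 1 + ⟪b, v⟫ + c * k + ⟪S v, v⟫ / 2)| ≤ KK Λ * l ^ 3 := by
  obtain ⟨a1, -⟩ := mom hΛ h hg g1 (F := fun _ => (1 : ℝ)) continuous_const fun z => by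
    simp
  obtain ⟨b1, b2⟩ := mom hΛ h hg g1 (F := fun z => (1 / 2 : ℝ) • z) (by fun_prop) fun z => by
    rw [norm_smul]
    norm_num
    nlinarith [sq_nonneg (‖z‖ - 1)]
  obtain ⟨c1, c2⟩ := mom hΛ h hg g1 (F := fun z => ‖z‖ ^ 2 / 4 - 1) (by fun_prop) fun z => by
    rw [Real.norm_eq_abs, abs_le]
    constructor <;> nlinarith [sq_nonneg ‖z‖]
  obtain ⟨s1, s2⟩ := mom hΛ h hg g1 Hk_cont Hk_le
  have e0 : Ig ν g 0 1 = ∫ z, wt g z • (1 : ℝ) ∂ν := by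
    simp [Ig, wt, integral_const_mul]
  have s3 : ∀ v w, Integrable (fun z => wt g z * ⟪Hk z v, w⟫) ν ∧
      ⟪(∫ z, wt g z • Hk z ∂ν) v, w⟫ = ∫ z, wt g z * ⟪Hk z v, w⟫ ∂ν := fun v w => by
    have i1 := s1.apply_continuousLinearMap v
    refine ⟨by simpa [real_inner_smul_left] using i1.inner_const (𝕜 := ℝ) w, ?_⟩
    rw [ContinuousLinearMap.integral_apply s1, real_inner_comm, ← integral_inner i1]
    simp [real_inner_smul_right, real_inner_comm]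
  have b3 : ∀ v, Integrable (fun z => wt g z * (⟪z, v⟫ / 2)) ν ∧
      ⟪∫ z, wt g z • (1 / 2 : ℝ) • z ∂ν, v⟫ = ∫ z, wt g z * (⟪z, v⟫ / 2) ∂ν := fun v => by
    have e : ∀ z : E3, ⟪wt g z • (1 / 2 : ℝ) • z, v⟫ = wt g z * (⟪z, v⟫ / 2) := fun z => by
      rw [real_inner_smul_left, real_inner_smul_left]; ring
    refine ⟨by simpa only [e] using b1.inner_const (𝕜 := ℝ) v, ?_⟩
    rw [real_inner_comm, ← integral_inner b1]
    exact integral_congr_ae (.of_forall fun z => (real_inner_comm _ _).trans (e z))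
  refine ⟨_, _, _, b2, c2, s2, fun v w => ?_, ?_, fun v k l l1 hv hk => ?_⟩
  · simp only [(s3 _ _).2, Hk_inner, real_inner_comm v w, mul_comm ⟪_, v⟫]
  · simp only [(s3 _ _).2]
    rw [← integral_finsetSum _ fun i _ => (s3 _ _).1, e0, ← integral_div,
      ← integral_sub c1 (a1.div_const 2)]
    refine integral_congr_ae (.of_forall fun z => ?_)
    simp only [Hk_inner]
    simp [Fin.sum_univ_three, EuclideanSpace.inner_single_right, EuclideanSpace.real_norm_sq_eq]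
    ring
  · have l0 : 0 ≤ l := (norm_nonneg _).trans hv
    have k0 : 0 < 1 + k := by nlinarith [(abs_le.1 hk).1]
    have p := Real.pi_pos
    have i4 : Integrable (fun x => g x * Real.exp (-‖x - v‖ ^ 2 / (4 * (1 + k)))) ν :=
      (Gs.intg hΛ h v (by positivity)).bdd_mul (c := 1) hg.aestronglyMeasurable (.of_forall g1)
    have i5 := (a1.add (b3 v).1).add (c1.mul_const k)
    have i6 := (s3 v v).1.div_const 2
    have i7 := (i4.const_mul (4 * Real.pi * (1 + k))⁻¹).sub (i5.add i6)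
    rw [(s3 v v).2, (b3 v).2, e0, ← integral_add' a1 (b3 v).1, ← integral_mul_const,
      ← integral_div, ← integral_add' (a1.add (b3 v).1) (c1.mul_const k), ← integral_add' i5 i6,
      Ig, ← integral_const_mul, ← integral_sub' (i4.const_mul _) (i5.add i6)]
    refine (dom hΛ h i7.1 (by positivity) fun z => ?_).2
    have k1 := mul_le_mul (g1 z) (tay1 z l1 hv hk) (abs_nonneg _) zero_le_one
    rw [one_mul, ← abs_mul] at k1
    refine le_of_eq_of_le ?_ (mul_le_mul_of_nonneg_left k1 (by positivity))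
    rw [← abs_of_pos (show 0 < (4 * Real.pi)⁻¹ by positivity), ← abs_mul, Real.norm_eq_abs]
    congr 1
    simp only [Pi.sub_apply, Pi.add_apply, Hk_inner, wt, smul_eq_mul, mul_inv]
    ring

theorem Ig_zm (ν : Measure E3) (g : E3 → ℝ) (p : E3) {ρ : ℝ} (hρ : 0 < ρ) (y : E3) (τ : ℝ) :
    Ig (zm ν p ρ⁻¹) (fun z => g (p + ρ • z)) (ρ⁻¹ • (y - p)) (τ / ρ ^ 2) = Ig ν g y τ := by
  have e : ∀ x : E3, -‖ρ⁻¹ • (x - p) - ρ⁻¹ • (y - p)‖ ^ 2 / (4 * (τ / ρ ^ 2)) =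
      -‖x - y‖ ^ 2 / (4 * τ) := fun x => by
    rw [← smul_sub, sub_sub_sub_cancel_right, norm_smul, Real.norm_of_nonneg (by positivity)]
    field_simp
  simp only [Ig, integral_zm ν p (inv_pos.2 hρ), e, smul_inv_smul₀ hρ.ne', add_sub_cancel]
  rw [← mul_assoc]
  congr 1
  field_simp

theorem Ig_one (ν : Measure E3) (y : E3) {τ : ℝ} (h : 0 ≤ τ) :
    Ig ν (fun _ => 1) y τ = gs ν y √τ := by
  simp only [Ig, gs, Real.sq_sqrt h, one_mul]

end Fl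

end Vale.Agent.P218Z
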