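import Vale.Agent.P218Z.FlA
import Vale.Agent.P218Z.Defs

/-!
# P218Z: improvement of flatness
-/

open MeasureTheory Metric Filter Topology Set
open scoped RealInnerProductSpace
open Vale.Agent.P218R Vale.Agent.P218E

noncomputable section

namespace Vale.Agent.P218Z

/-- the mean value inequality for affine functions -/
def MVI (μ : ℝ → Measure E3) (T : ℝ → Set E3) (a b : ℝ) : Prop :=
  ∀ (t₀ s R β : ℝ) (e y x : E3), a < t₀ → t₀ < s → s < b → y ∈ T s → 0 < R →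
    3 ≤ β * (R / 2) ^ 4 → ‖y - x‖ < R / 2 →
    (∀ t ∈ Ico t₀ s, ∀ z ∈ T t, z ∈ ball x R → |⟪e, z - x⟫| ≤ 1) →
    1 + ⟪e, y - x⟫ - β * (‖y - x‖ ^ 4 + 16 * (s - t₀) * ‖y - x‖ ^ 2 + 32 * (s - t₀) ^ 2) ≤
      (4 * Real.pi * (s - t₀))⁻¹ *
        ∫ z in ball x R, (1 + ⟪e, z - x⟫) * Real.exp (-‖z - y‖ ^ 2 / (4 * (s - t₀))) ∂μ t₀

/-- what is used of a weak flow -/
structure Wf (μ : ℝ → Measure E3) (T : ℝ → Set E3) (a b Λ : ℝ) : Prop where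
  pos : 0 ≤ Λ
  ar : ∀ t ∈ Ioo a b, AR Λ (μ t)
  car : ∀ t ∈ Ioo a b, ∀ᵐ x ∂μ t, x ∈ T t
  mvi : MVI μ T a b
  ld : ∀ (s t : ℝ) (y : E3), a < t → t < s → s < b → y ∈ T s → 1 ≤ gs (μ t) y √(s - t)

namespace Fl

variable {μ : ℝ → Measure E3} {T : ℝ → Set E3} {a b Λ t ρ h θ : ℝ} {x e : E3}

theorem side {ν : Measure E3} (hΛ : 0 ≤ Λ) (hν : AR Λ ν) {g : E3 → ℝ} (hg : Measurable g)
    (g1 : ∀ x, |g x| ≤ 1) {τ : ℝ} (hτ : 0 < τ) (y : E3)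
    (e1 : ∀ᵐ z ∂ν, g z = (ball x ρ).indicator (fun z => ⟪e, z - x⟫) z) :
    (4 * Real.pi * τ)⁻¹ * ∫ z in ball x ρ, (1 + ⟪e, z - x⟫) * Real.exp (-‖z - y‖ ^ 2 / (4 * τ)) ∂ν ≤
      gs ν y √τ + Ig ν g y τ := by
  have p := Real.pi_pos
  have i1 := Gs.intg hΛ hν y (a := 4 * τ) (by positivity)
  have i2 := i1.bdd_mul (c := 1) hg.aestronglyMeasurable (.of_forall g1)
  rw [gs, Ig, Real.sq_sqrt hτ.le, ← mul_add, ← integral_add i1 i2,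
    ← integral_indicator measurableSet_ball]
  refine mul_le_mul_of_nonneg_left ?_ (by positivity)
  have i3 := (i1.indicator (measurableSet_ball (x := x) (ε := ρ))).add i2
  refine (integral_congr_ae (e1.mono fun z hz => ?_)).trans_le (integral_mono i3 (i1.add i2)
    fun z => add_le_add_left (indicator_le_self' (fun _ _ => (Real.exp_pos _).le) z) _)
  by_cases h : z ∈ ball x ρ <;> simp [hz, h, add_mul]

theorem Ig_neg (ν : Measure E3) (g : E3 → ℝ) (y : E3) (τ : ℝ) :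
    Ig ν (fun z => -g z) y τ = -Ig ν g y τ := by
  simp only [Ig, neg_mul, integral_neg, mul_neg]

theorem tay2 {ν : Measure E3} (hΛ : 0 ≤ Λ) (hν : AR Λ ν) {g : E3 → ℝ} (hg : Measurable g)
    (g1 : ∀ x, |g x| ≤ 1) (x : E3) (hρ : 0 < ρ) : ∃ b : E3, ‖b‖ ≤ KK Λ / ρ ∧
      ∀ (y : E3) (τ l : ℝ), l ≤ 1 / 4 → ‖y - x‖ ≤ l * ρ → |τ - ρ ^ 2| ≤ (l * ρ) ^ 2 →
        |Ig ν g y τ - Ig ν g x (ρ ^ 2) - ⟪b, y - x⟫| ≤ 2 * KK Λ * l ^ 2 := by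
  obtain ⟨b, c, S, b1, c1, s1, -, -, h⟩ := tay hΛ (zm_ar hν x (inv_pos.2 hρ))
    (g := fun z => g (x + ρ • z)) (by fun_prop) fun z => g1 _
  refine ⟨ρ⁻¹ • b, ?_, fun y τ l l1 hy hτ => ?_⟩
  · rw [norm_smul, Real.norm_of_nonneg (by positivity), div_eq_inv_mul]
    gcongr
  have v1 : ‖ρ⁻¹ • (y - x)‖ ≤ l := by
    rwa [norm_smul, Real.norm_of_nonneg (by positivity), inv_mul_le_iff₀ hρ, mul_comm]
  have k1 : |τ / ρ ^ 2 - 1| ≤ l ^ 2 := by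
    rwa [div_sub_one (by positivity), abs_div, abs_of_pos (pow_pos hρ 2),
      div_le_iff₀ (pow_pos hρ 2), ← mul_pow]
  have h1 := h _ _ l l1 v1 k1
  have h2 := Ig_zm ν g x hρ x (ρ ^ 2)
  rw [sub_self, smul_zero, div_self (by positivity)] at h2
  rw [add_sub_cancel, Ig_zm ν g x hρ, h2] at h1
  rw [real_inner_smul_left, ← real_inner_smul_right]
  generalize ρ⁻¹ • (y - x) = v at *
  have l0 := (norm_nonneg _).trans v1
  have K0 := (norm_nonneg _).trans b1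
  have h3 : |⟪S v, v⟫| ≤ KK Λ * l * l := (abs_real_inner_le_norm _ _).trans
    (mul_le_mul ((S.le_opNorm v).trans (by gcongr)) v1 (norm_nonneg _) (by positivity))
  have h4 : |c * (τ / ρ ^ 2 - 1)| ≤ KK Λ * l ^ 2 := by
    rw [abs_mul]; gcongr
  have h5 : KK Λ * l ^ 3 ≤ KK Λ * l ^ 2 * (1 / 4) := by
    rw [pow_succ, ← mul_assoc]; gcongr
  have h6 : 0 ≤ KK Λ * l ^ 2 := by positivity
  rw [abs_le] at *
  constructor <;> nlinarith only [h1.1, h1.2, h3.1, h3.2, h4.1, h4.2, h5, h6]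

theorem ub_mono {ρ' : ℝ} (hU : UB μ T t x ρ θ) (h0 : 0 ≤ ρ') (h1 : ρ' ≤ ρ) : UB μ T t x ρ' θ :=
  fun s s' a1 a2 a3 y hy a4 => hU s s' (by nlinarith) a2 a3 y hy (a4.trans h1)

/-- points of the track satisfy an approximate mean value identity -/
theorem near (hW : Wf μ T a b Λ) (hρ : 0 < ρ) (ha : a < t - ρ ^ 2) (hb : t < b) {δ κ : ℝ}
    (hU : UB μ T t x ρ (1 + δ)) (hS : Slab T t x ρ e 1) (k0 : 0 < κ) (k1 : κ ≤ 1 / 4) :
    ∃ g : E3 → ℝ, Measurable g ∧ (∀ z, |g z| ≤ 1) ∧ ∀ s ∈ Ioc (t - (κ * ρ) ^ 2) t, ∀ y ∈ T s,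
      ‖y - x‖ ≤ κ * ρ → |⟪y - x, e⟫ - Ig (μ (t - (κ * ρ) ^ 2)) g y (s - (t - (κ * ρ) ^ 2))| ≤
        δ + 2352 * κ ^ 4 := by
  have r0 : 0 < κ * ρ := by positivity
  have r1 : κ * ρ ≤ ρ / 4 := by nlinarith
  have r2 : (κ * ρ) ^ 2 ≤ ρ ^ 2 := pow_le_pow_left₀ r0.le (by linarith) 2
  have t0 : t - (κ * ρ) ^ 2 ∈ Ioo a b := ⟨by linarith, by nlinarith⟩
  have sl : ∀ r ∈ Icc (t - (κ * ρ) ^ 2) t, ∀ z ∈ T r, z ∈ ball x ρ → |⟪e, z - x⟫| ≤ 1 :=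
    fun r hr z hz hz' => real_inner_comm e (z - x) ▸
      hS r ⟨by linarith [hr.1], hr.2⟩ z hz (mem_ball_iff_norm.1 hz').le
  let g : E3 → ℝ := (ball x ρ).indicator fun z => max (-1) (min 1 ⟪e, z - x⟫)
  have gm : Measurable g := Measurable.indicator (by fun_prop) measurableSet_ball
  have g1 : ∀ z, |g z| ≤ 1 := fun z => by
    by_cases h : z ∈ ball x ρ <;> simp [g, h, abs_le]
  have g2 : ∀ᵐ z ∂μ (t - (κ * ρ) ^ 2), g z = (ball x ρ).indicator (fun z => ⟪e, z - x⟫) z :=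
    (hW.car _ t0).mono fun z hz => by
      by_cases h : z ∈ ball x ρ
      · obtain ⟨h1, h2⟩ := abs_le.1 (sl _ ⟨le_rfl, by nlinarith⟩ z hz h)
        simp [g, h, h1, h2]
      · simp [g, h]
  refine ⟨g, gm, g1, fun s hs y hy hd => ?_⟩
  have τ0 := sub_pos.2 hs.1
  have u := hU s _ (by linarith) hs.1 hs.2 y hy (by linarith)
  have β1 : 3 ≤ 48 / ρ ^ 4 * (ρ / 2) ^ 4 := le_of_eq (by field_simp; norm_num)
  have m1 := (hW.mvi _ s ρ _ e y x t0.1 hs.1 (hs.2.trans_lt hb) hy hρ β1 (by linarith)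
    fun r hr => sl r ⟨hr.1, hr.2.le.trans hs.2⟩).trans (side hW.pos (hW.ar _ t0) gm g1 τ0 y g2)
  have m2 := (hW.mvi _ s ρ _ (-e) y x t0.1 hs.1 (hs.2.trans_lt hb) hy hρ β1 (by linarith)
    fun r hr z hz hz' => by
      simpa using sl r ⟨hr.1, hr.2.le.trans hs.2⟩ z hz hz').trans
    (side hW.pos (hW.ar _ t0) gm.fun_neg (fun z => by simpa using g1 z) τ0 y (g2.mono fun z hz => by
      by_cases h : z ∈ ball x ρ <;> simp [hz, h]))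
  rw [Ig_neg, inner_neg_left] at m2
  have w : 48 / ρ ^ 4 * (‖y - x‖ ^ 4 + 16 * (s - (t - (κ * ρ) ^ 2)) * ‖y - x‖ ^ 2 +
      32 * (s - (t - (κ * ρ) ^ 2)) ^ 2) ≤ 2352 * κ ^ 4 := by
    have h1 : s - (t - (κ * ρ) ^ 2) ≤ (κ * ρ) ^ 2 := by linarith [hs.2]
    calc _ ≤ 48 / ρ ^ 4 * ((κ * ρ) ^ 4 + 16 * (κ * ρ) ^ 2 * (κ * ρ) ^ 2 +
          32 * ((κ * ρ) ^ 2) ^ 2) := by gcongr
      _ = _ := by field_simp; ring
  rw [real_inner_comm, abs_le]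
  constructor <;> linarith only [m1, m2, w, u]

/-- the conclusion of the improvement of flatness -/
def IMP (Λ η δ C : ℝ) : Prop := ∀ (μ : ℝ → Measure E3) (T : ℝ → Set E3) (a b t ρ h : ℝ) (x e : E3),
  Wf μ T a b Λ → 0 < ρ → a < t - ρ ^ 2 → t < b → x ∈ T t → UB μ T t x ρ (1 + δ) → 0 < h →
  Slab T t x ρ e h → ∃ e', ‖e' - e‖ ≤ C * (h / ρ) ∧ Slab T t x (η * ρ) e' (η / 2 * h)

/-- **improvement of flatness** -/
theorem imp (hΛ : 0 ≤ Λ) : ∃ η > (0 : ℝ), η < 1 ∧ ∃ δ > (0 : ℝ), ∃ C ≥ (0 : ℝ), IMP Λ η δ C := by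
  have K0 : 0 ≤ KK Λ := by have := Gs.C0_pos; unfold KK; positivity
  obtain ⟨κ, k0, k1, k2⟩ : ∃ κ > (0 : ℝ), κ ≤ 1 / 4 ∧ (4704 + 2 * KK Λ) * κ ≤ 1 / 4 :=
    ⟨1 / (4 * (4704 + 2 * KK Λ)), by positivity, by
      rw [div_le_div_iff₀ (by positivity) (by norm_num)]; linarith, le_of_eq (by field_simp)⟩
  have k3 : κ ^ 2 ≤ 1 / 4 := by nlinarith
  have k4 : κ ^ 3 ≤ κ / 4 := by nlinarith
  refine ⟨κ ^ 3, by positivity, by linarith, κ ^ 3 / 8, by positivity, KK Λ / κ, by positivity,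
    fun μ T a b t ρ h x e hW hρ ha hb hx hU h0 hS => ?_⟩
  have r0 : 0 < κ * ρ := by positivity
  have r2 : (κ * ρ) ^ 2 ≤ ρ ^ 2 := pow_le_pow_left₀ r0.le (by nlinarith) 2
  obtain ⟨g, gm, g1, hg⟩ := near (e := h⁻¹ • e) hW hρ ha hb hU (fun s hs y hy hd => by
    rw [real_inner_smul_right, abs_mul, abs_of_pos (inv_pos.2 h0), inv_mul_le_iff₀ h0, mul_one]
    exact hS s hs y hy hd) k0 k1
  obtain ⟨v, v1, v2⟩ := tay2 hΛ (hW.ar (t - (κ * ρ) ^ 2) ⟨by linarith, by nlinarith⟩) gm g1 x r0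
  refine ⟨e - h • v, ?_, fun s hs y hy hd => ?_⟩
  · rw [sub_sub_cancel_left, norm_neg, norm_smul, Real.norm_of_nonneg h0.le]
    refine (mul_le_mul_of_nonneg_left v1 h0.le).trans_eq ?_
    field_simp
  have e1 : κ ^ 3 * ρ = κ ^ 2 * (κ * ρ) := by ring
  have r3 : κ ^ 3 * ρ < κ * ρ := by nlinarith
  have r4 : (κ ^ 3 * ρ) ^ 2 < (κ * ρ) ^ 2 := pow_lt_pow_left₀ r3 (by positivity) two_ne_zero
  have a1 := hg s ⟨by linarith [hs.1], hs.2⟩ y hy (hd.trans r3.le)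
  have a2 := hg t ⟨by nlinarith, le_rfl⟩ x hx (by simpa using r0.le)
  have a3 := v2 y (s - (t - (κ * ρ) ^ 2)) (κ ^ 2) k3 (e1 ▸ hd) (by
    rw [← e1, abs_le]; constructor <;> linarith [hs.1, hs.2, sq_nonneg (κ ^ 3 * ρ)])
  rw [sub_self, inner_zero_left, sub_sub_cancel] at a2
  have e2 : ⟪y - x, e - h • v⟫ = h * (⟪y - x, h⁻¹ • e⟫ - ⟪v, y - x⟫) := by
    rw [inner_sub_right, real_inner_smul_right, real_inner_smul_right, real_inner_comm v]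
    field_simp
  rw [e2, abs_mul, abs_of_pos h0, mul_comm]
  refine mul_le_mul_of_nonneg_right ?_ h0.le
  have a4 := mul_le_mul_of_nonneg_left k2 (pow_pos k0 3).le
  rw [abs_le] at *
  constructor <;> nlinarith only [a1.1, a1.2, a2.1, a2.2, a3.1, a3.2, a4]

variable {η δ C : ℝ}

theorem iter (hI : IMP Λ η δ C) (η0 : 0 < η) (η1 : η < 1) (hW : Wf μ T a b Λ) (hρ : 0 < ρ)
    (ha : a < t - ρ ^ 2) (hb : t < b) (hx : x ∈ T t) (hU : UB μ T t x ρ (1 + δ)) (h0 : 0 < h)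
    (hS : Slab T t x ρ e h) (k : ℕ) : ∃ e', ‖e' - e‖ ≤ 2 * (C * (h / ρ)) * (1 - (1 / 2) ^ k) ∧
      Slab T t x (η ^ k * ρ) e' ((η / 2) ^ k * h) := by
  induction k with
  | zero => exact ⟨e, by simp, by simpa using hS⟩
  | succ k ih =>
    obtain ⟨e₁, h1, h2⟩ := ih
    have r0 : 0 < η ^ k * ρ := by positivity
    have r1 : η ^ k * ρ ≤ ρ := mul_le_of_le_one_left hρ.le (pow_le_one₀ η0.le η1.le)
    obtain ⟨e₂, h3, h4⟩ := hI μ T a b t _ _ x e₁ hW r0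
      (by linarith [pow_le_pow_left₀ r0.le r1 2]) hb hx (ub_mono hU r0.le r1) (by positivity) h2
    refine ⟨e₂, ?_, by simpa only [pow_succ', mul_assoc] using h4⟩
    have e1 : C * ((η / 2) ^ k * h / (η ^ k * ρ)) = C * (h / ρ) * (1 / 2) ^ k := by
      rw [div_pow, div_pow, one_pow]; field_simp
    have := norm_sub_le_norm_sub_add_norm_sub e₂ e₁ e
    rw [pow_succ]
    linarith

/-- a slab gives a cone -/
theorem lip (hI : IMP Λ η δ C) (η0 : 0 < η) (η1 : η < 1) (C0 : 0 ≤ C) (hW : Wf μ T a b Λ)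
    (hρ : 0 < ρ) (ha : a < t - ρ ^ 2) (hb : t < b) (hx : x ∈ T t) (hU : UB μ T t x ρ (1 + δ))
    (h0 : 0 < h) (hS : Slab T t x ρ e h) {d : ℝ} (d0 : 0 < d) (d1 : d ≤ ρ) :
    Slab T t x d e ((η⁻¹ + 2 * C) * (h / ρ) * d) := by
  obtain ⟨k, k1, k2⟩ := exists_nat_pow_near_of_lt_one (div_pos d0 hρ) ((div_le_one hρ).2 d1) η0 η1
  obtain ⟨e₁, h1, h2⟩ := iter hI η0 η1 hW hρ ha hb hx hU h0 hS k
  intro s hs y hy hd
  have r1 : d ≤ η ^ k * ρ := (div_le_iff₀ hρ).1 k2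
  have a1 := h2 s ⟨by linarith [hs.1, pow_le_pow_left₀ d0.le r1 2], hs.2⟩ y hy (hd.trans r1)
  have q0 : 0 ≤ C * (h / ρ) := by positivity
  have a2 : |⟪y - x, e₁ - e⟫| ≤ d * (2 * (C * (h / ρ))) := (abs_real_inner_le_norm _ _).trans
    (mul_le_mul hd (h1.trans (mul_le_of_le_one_right (by positivity)
      (sub_le_self _ (by positivity)))) (norm_nonneg _) d0.le)
  have a3 : (η / 2) ^ k * h ≤ η⁻¹ * (h / ρ) * d := by
    calc _ ≤ η ^ k * h := by gcongr; linarith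
      _ = η⁻¹ * h * η ^ (k + 1) := by rw [pow_succ]; field_simp
      _ ≤ η⁻¹ * h * (d / ρ) := by gcongr
      _ = _ := by ring
  rw [inner_sub_right] at a2
  rw [abs_le] at *
  constructor <;> linarith only [a1.1, a1.2, a2.1, a2.2, a3]

/-- the flatness tends to zero -/
theorem dec (hI : IMP Λ η δ C) (η0 : 0 < η) (η1 : η < 1) (C0 : 0 ≤ C) (hW : Wf μ T a b Λ)
    (hρ : 0 < ρ) (ha : a < t - ρ ^ 2) (hb : t < b) (hx : x ∈ T t) (hU : UB μ T t x ρ (1 + δ))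
    (h0 : 0 < h) (hS : Slab T t x ρ e h) (he : ‖e‖ = 1) (h1 : 4 * (C * (h / ρ)) ≤ 1) {σ : ℝ}
    (σ0 : 0 < σ) : ∃ R > (0 : ℝ), R ≤ ρ ∧ ∃ e', ‖e'‖ = 1 ∧ Slab T t x R e' (σ * R) := by
  obtain ⟨k, hk⟩ := exists_pow_lt_of_lt_one (show 0 < σ * ρ / (2 * h) by positivity)
    (show (1 / 2 : ℝ) < 1 by norm_num)
  obtain ⟨e₁, h2, h3⟩ := iter hI η0 η1 hW hρ ha hb hx hU h0 hS k
  have q0 : 0 ≤ C * (h / ρ) := by positivity
  have n1 : 1 / 2 ≤ ‖e₁‖ := by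
    have := norm_sub_norm_le e e₁
    rw [norm_sub_rev] at this
    nlinarith [pow_pos (show (0 : ℝ) < 1 / 2 by norm_num) k]
  have n0 : 0 < ‖e₁‖ := by linarith
  refine ⟨η ^ k * ρ, by positivity, mul_le_of_le_one_left hρ.le (pow_le_one₀ η0.le η1.le),
    ‖e₁‖⁻¹ • e₁, norm_smul_inv_norm (norm_pos_iff.1 n0), fun s hs y hy hd => ?_⟩
  rw [real_inner_smul_right, abs_mul, abs_of_pos (inv_pos.2 n0), inv_mul_le_iff₀ n0]
  refine (h3 s hs y hy hd).trans ?_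
  rw [lt_div_iff₀ (by positivity)] at hk
  calc _ = η ^ k * ((1 / 2) ^ k * (2 * h)) * (1 / 2) := by rw [div_pow, div_pow, one_pow]; field_simp
    _ ≤ η ^ k * (σ * ρ) * ‖e₁‖ := by gcongr
    _ = _ := by ring

/-- near a flat point the time slices are graphs with small slope -/
theorem gra (hΛ : 0 ≤ Λ) : ∃ δ > (0 : ℝ), ∃ σ₀ > (0 : ℝ), ∀ (μ : ℝ → Measure E3) (T : ℝ → Set E3)
    (a b t ρ : ℝ) (x e : E3), Wf μ T a b Λ → 0 < ρ → a < t - ρ ^ 2 → t < b → x ∈ T t →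
    UB μ T t x ρ (1 + δ) → ‖e‖ = 1 → Slab T t x ρ e (σ₀ * ρ) → ∀ σ > (0 : ℝ), ∃ R > (0 : ℝ),
      ∃ e', ‖e'‖ = 1 ∧ ∀ s ∈ Icc (t - R ^ 2) t, ∀ p ∈ T s ∩ ball x R, ∀ q ∈ T s ∩ ball x R,
        |⟪q - p, e'⟫| ≤ σ * ‖q - p‖ := by
  obtain ⟨η, η0, η1, δ, δ0, C, C0, hI⟩ := imp hΛ
  refine ⟨δ, δ0, 1 / (4 * (C + 1)), by positivity, fun μ T a b t ρ x e hW hρ ha hb hx hU he hS σ σ0 =>
    ?_⟩
  have D0 : 0 < η⁻¹ + 2 * C := by positivity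
  obtain ⟨R, R0, R1, e', he', h1⟩ := dec hI η0 η1 C0 hW hρ ha hb hx hU (by positivity) hS he (by
    rw [mul_div_assoc, div_self hρ.ne', mul_one, ← mul_assoc, mul_one_div,
      div_le_one (by positivity)]
    linarith) (σ := σ / (4 * (η⁻¹ + 2 * C))) (by positivity)
  refine ⟨R / 4, by positivity, e', he', fun s hs p hp q hq => ?_⟩
  rcases eq_or_ne q p with rfl | hne
  · simp
  have p1 := mem_ball_iff_norm.1 hp.2
  have q1 := mem_ball_iff_norm.1 hq.2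
  have r2 : R ^ 2 ≤ ρ ^ 2 := pow_le_pow_left₀ R0.le R1 2
  have tr : ∀ y, ‖y - p‖ ≤ R / 2 → ‖y - x‖ ≤ R := fun y hy => by
    linarith [norm_sub_le_norm_sub_add_norm_sub y p x]
  have h2 : Slab T s p (R / 2) e' (2 * (σ / (4 * (η⁻¹ + 2 * C)) * R)) := fun r hr y hy hd => by
    have a1 := h1 r ⟨by nlinarith [hr.1, hs.1], hr.2.trans hs.2⟩ y hy (tr y hd)
    have a2 := h1 s ⟨by nlinarith [hs.1], hs.2⟩ p hp.1 (by linarith)
    rw [← sub_sub_sub_cancel_right y p x, inner_sub_left]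
    linarith [abs_sub ⟪y - x, e'⟫ ⟪p - x, e'⟫]
  have h3 := lip hI η0 η1 C0 hW (half_pos R0) (by nlinarith [hs.1]) (hs.2.trans_lt hb) hp.1
    (fun r r' a1 a2 a3 y hy hd => hU r r' (by nlinarith [hs.1]) a2 (a3.trans hs.2) y hy
      ((tr y hd).trans R1)) (by positivity) h2 (norm_pos_iff.2 (sub_ne_zero.2 hne)) (by
      have := norm_sub_le_norm_sub_add_norm_sub q x p
      rw [norm_sub_rev x] at this
      linarith) s ⟨sub_le_self _ (sq_nonneg _), le_rfl⟩ q hq.1 le_rfl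
  refine h3.trans_eq ?_
  field_simp
  ring

end Fl

end Vale.Agent.P218Z
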