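import Vale.Agent.P218Z.FlB
import Vale.Agent.P218R.Sml

/-!
# P218Z: initial flatness, and the density gap
-/

open MeasureTheory Metric Filter Topology Set
open scoped RealInnerProductSpace ENNReal NNReal
open Vale.Agent.P366.Stmt (E)
open Vale.Agent.P366W (Fr adj)
open Vale.Agent.P218R Vale.Agent.P218E

noncomputable section

namespace Vale.Agent.P218Z

namespace Fl

/-- a direction of negativity -/
theorem dir {S : E3 →L[ℝ] E3} (hs : ∀ v w, ⟪S v, w⟫ = ⟪S w, v⟫) {κ : ℝ}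
    (h1 : ∀ v, ⟪S v, v⟫ ≤ κ * ‖v‖ ^ 2)
    (h2 : ∑ i, ⟪S (EuclideanSpace.single i 1), EuclideanSpace.single i 1⟫ ≤ 3 * κ - 1 / 2) :
    ∃ e : E3, ‖e‖ = 1 ∧ ∀ v, ⟪v, e⟫ ^ 2 ≤ 6 * (κ * ‖v‖ ^ 2 - ⟪S v, v⟫) := by
  obtain ⟨w, w1, w2⟩ : ∃ w : E3, ‖w‖ = 1 ∧ ⟪S w, w⟫ ≤ κ - 1 / 6 := by
    by_contra hc
    push Not at hc
    have := fun i : Fin 3 => hc (EuclideanSpace.single i 1) (by simp)
    rw [Fin.sum_univ_three] at h2
    linarith [this 0, this 1, this 2]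
  obtain ⟨u, hu⟩ : ∃ u, u = κ • w - S w := ⟨_, rfl⟩
  have u1 : ∀ v, ⟪v, u⟫ = κ * ⟪v, w⟫ - ⟪S w, v⟫ := fun v => by
    rw [hu, inner_sub_right, real_inner_smul_right, real_inner_comm v (S w)]
  have u2 : ⟪w, u⟫ = κ - ⟪S w, w⟫ := by rw [u1, real_inner_self_eq_norm_sq, w1]; ring
  have u3 : ⟪w, u⟫ ≤ ‖u‖ := by simpa [w1] using real_inner_le_norm w u
  have u4 : 1 / 6 ≤ ‖u‖ := by linarith
  have u0 : 0 < ‖u‖ := by linarith
  refine ⟨‖u‖⁻¹ • u, norm_smul_inv_norm (norm_pos_iff.1 u0), fun v => ?_⟩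
  have d := discrim_le_zero (a := ⟪w, u⟫) (b := 2 * ⟪v, u⟫) (c := κ * ‖v‖ ^ 2 - ⟪S v, v⟫) fun t => by
    have := h1 (v + t • w)
    rw [norm_add_sq_real, norm_smul, w1, map_add, map_smul, inner_add_left, inner_add_right,
      inner_add_right] at this
    simp only [real_inner_smul_left, real_inner_smul_right, Real.norm_eq_abs, mul_one, sq_abs,
      hs v w] at this
    rw [u2, u1]
    linarith
  have p := sub_nonneg.2 (h1 v)
  rw [discrim] at d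
  rw [real_inner_smul_right, mul_pow, inv_pow, inv_mul_le_iff₀ (by positivity)]
  nlinarith only [d, mul_le_mul_of_nonneg_right u3 p, mul_le_mul_of_nonneg_right u4
    (mul_nonneg u0.le p)]

theorem hom {f : E3 → ℝ} (hf : ∀ (c : ℝ) v, f (c • v) = c ^ 2 * f v) {m κ : ℝ} (m0 : 0 < m)
    (h : ∀ v, ‖v‖ = m → f v ≤ κ * m ^ 2) (v : E3) : f v ≤ κ * ‖v‖ ^ 2 := by
  rcases eq_or_ne v 0 with rfl | hv
  · simpa using (hf 0 0).le
  have v0 := norm_pos_iff.2 hv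
  have := h ((m / ‖v‖) • v) (by rw [norm_smul, Real.norm_of_nonneg (by positivity)]; field_simp)
  rw [hf, div_pow, div_mul_eq_mul_div, div_le_iff₀ (by positivity)] at this
  nlinarith [pow_pos m0 2]

/-- initial flatness, normalised -/
theorem ini0 {Λ η : ℝ} (hΛ : 0 ≤ Λ) (η0 : 0 < η) (η1 : η ≤ 1 / 4) {ν : Measure E3} (hν : AR Λ ν)
    (h1 : 1 ≤ Ig ν (fun _ => 1) 0 1)
    (h2 : ∀ (v : E3) (k : ℝ), ‖v‖ ≤ 1 / 4 → |k| ≤ 1 / 16 → Ig ν (fun _ => 1) v (1 + k) ≤ 1 + η ^ 6) :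
    ∃ e : E3, ‖e‖ = 1 ∧ ∀ (v : E3) (k : ℝ), ‖v‖ ≤ η → |k| ≤ η ^ 2 →
      1 ≤ Ig ν (fun _ => 1) v (1 + k) → ⟪v, e⟫ ^ 2 ≤ 60 * (1 + KK Λ) * η ^ 3 := by
  obtain ⟨b, c, S, b1, -, s1, s2, s3, h⟩ := tay hΛ hν (g := fun _ => 1) measurable_const fun _ => by
    simp
  have K0 := (norm_nonneg _).trans b1
  have h0 := h2 0 0 (by simp) (by simp)
  rw [add_zero] at h0
  generalize KK Λ = K at *
  obtain ⟨m, hm⟩ : ∃ m, m = η ^ 2 := ⟨_, rfl⟩
  have m0 : 0 < m := hm ▸ pow_pos η0 2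
  have m1 : m ≤ η / 4 := by nlinarith
  have m2 : m ≤ 1 / 16 := by linarith
  have e6 : η ^ 6 = m ^ 3 := by rw [hm]; ring
  have u : ∀ (v : E3) (k : ℝ), ‖v‖ ≤ m → |k| ≤ m ^ 2 →
      ⟪b, v⟫ + c * k + ⟪S v, v⟫ / 2 ≤ (1 + K) * m ^ 3 := fun v k hv hk => by
    have a1 := (abs_le.1 (h v k m (by linarith) hv hk)).1
    have a2 := h2 v k (by linarith) (by nlinarith)
    linarith
  have c1 : |c| ≤ (1 + K) * m := by
    have a1 := u 0 (m ^ 2) (by simpa using m0.le) (abs_of_pos (pow_pos m0 2)).le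
    have a2 := u 0 (-m ^ 2) (by simpa using m0.le) (by rw [abs_neg, abs_of_pos (pow_pos m0 2)])
    simp only [inner_zero_right, zero_add, zero_div, add_zero] at a1 a2
    rw [abs_le]
    constructor <;> nlinarith only [a1, a2, pow_pos m0 2]
  have s4 : ∀ v, ⟪S v, v⟫ ≤ 2 * ((1 + K) * m) * ‖v‖ ^ 2 := hom (f := fun v => ⟪S v, v⟫)
    (fun c v => by simp only [map_smul, real_inner_smul_left, real_inner_smul_right]; ring) m0
    fun v hv => by
      have a1 := u v 0 hv.le (by simpa using sq_nonneg m)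
      have a2 := u (-v) 0 (by simpa using hv.le) (by simpa using sq_nonneg m)
      simp only [map_neg, inner_neg_left, inner_neg_right, neg_neg] at a2
      linarith
  have b2 : ‖b‖ ≤ (1 + K) * m := by
    rcases eq_or_ne b 0 with rfl | hb
    · rw [norm_zero]; positivity
    have b0 := norm_pos_iff.2 hb
    have n1 : ‖(m / ‖b‖) • b‖ = m := by
      rw [norm_smul, Real.norm_of_nonneg (by positivity)]; field_simp
    have a1 := u _ 0 n1.le (by simpa using sq_nonneg m)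
    have a2 : ⟪b, (m / ‖b‖) • b⟫ = m * ‖b‖ := by
      rw [real_inner_smul_right, real_inner_self_eq_norm_sq]; field_simp
    rw [a2] at a1
    generalize (m / ‖b‖) • b = v at *
    have a3 : |⟪S v, v⟫| ≤ K * m * m := (abs_real_inner_le_norm _ _).trans
      (mul_le_mul ((S.le_opNorm v).trans (by gcongr; exact n1.le)) n1.le (norm_nonneg _)
        (by positivity))
    have a4 : (1 + K) * m ^ 3 ≤ (1 + K) * m ^ 2 * (1 / 16) := by
      rw [pow_succ, ← mul_assoc]; gcongr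
    refine le_of_mul_le_mul_left ?_ m0
    nlinarith only [a1, (abs_le.1 a3).1, a4, sq_nonneg m, mul_nonneg K0 (sq_nonneg m)]
  have q0 : 0 ≤ (1 + K) * m := by positivity
  obtain ⟨e, e1, e2⟩ := dir s2 s4 (by linarith [(abs_le.1 c1).2])
  refine ⟨e, e1, fun v k hv hk h3 => (e2 v).trans ?_⟩
  have a1 := (abs_le.1 (h v k η η1 hv hk)).2
  have a2 : ⟪b, v⟫ ≤ (1 + K) * m * η := (real_inner_le_norm _ _).trans (by gcongr)
  have a3 : c * k ≤ (1 + K) * m * η ^ 2 := (le_abs_self _).trans (by rw [abs_mul]; gcongr)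
  have a4 : 2 * ((1 + K) * m) * ‖v‖ ^ 2 ≤ 2 * ((1 + K) * m) * η ^ 2 := by gcongr
  have a5 : (1 + K) * m * η ^ 2 ≤ (1 + K) * m * η := by gcongr; nlinarith
  have a6 : (1 + K) * m * η = (1 + K) * η ^ 3 := by rw [hm]; ring
  have a7 : η ^ 6 ≤ η ^ 3 := pow_le_pow_of_le_one η0.le (by linarith) (by norm_num)
  have a8 : 0 ≤ K * η ^ 3 := by positivity
  linarith only [a1, a2, a3, a4, a5, a6, a7, a8, h0, h3, pow_pos η0 3]

variable {μ : ℝ → Measure E3} {T : ℝ → Set E3} {a b Λ t ρ σ : ℝ} {x e : E3}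

/-- **initial flatness** -/
theorem ini (hΛ : 0 ≤ Λ) (σ0 : 0 < σ) : ∃ η > (0 : ℝ), η ≤ 1 / 4 ∧ ∃ δ > (0 : ℝ),
    ∀ (μ : ℝ → Measure E3) (T : ℝ → Set E3) (a b t ρ : ℝ) (x : E3), Wf μ T a b Λ → 0 < ρ →
      a < t - ρ ^ 2 → t < b → x ∈ T t → (∀ y τ, ‖y - x‖ ≤ ρ → |τ - ρ ^ 2| ≤ ρ ^ 2 / 16 →
        gs (μ (t - ρ ^ 2)) y √τ ≤ 1 + δ) → ∃ e, ‖e‖ = 1 ∧ Slab T t x (η * ρ) e (σ * (η * ρ)) := by
  have K0 : 0 ≤ KK Λ := by have := Gs.C0_pos; unfold KK; positivity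
  obtain ⟨η, η0, η1, η2⟩ : ∃ η > (0 : ℝ), η ≤ 1 / 4 ∧ 60 * (1 + KK Λ) * η ≤ σ ^ 2 :=
    ⟨min (1 / 4) (σ ^ 2 / (60 * (1 + KK Λ))), by positivity, min_le_left _ _,
      (le_div_iff₀' (by positivity)).1 (min_le_right _ _)⟩
  refine ⟨η, η0, η1, η ^ 6, by positivity, fun μ T a b t ρ x hW hρ ha hb hx hU => ?_⟩
  have r0 := pow_pos hρ 2
  have z : ∀ y τ, 0 ≤ τ → Ig (zm (μ (t - ρ ^ 2)) x ρ⁻¹) (fun _ => 1) (ρ⁻¹ • (y - x)) (τ / ρ ^ 2) =
      gs (μ (t - ρ ^ 2)) y √τ := fun y τ h => (Ig_zm _ (fun _ => 1) x hρ y τ).trans (Ig_one _ _ h)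
  obtain ⟨e, e1, e2⟩ := ini0 hΛ η0 η1 (zm_ar (hW.ar (t - ρ ^ 2) ⟨ha, by linarith⟩) x (inv_pos.2 hρ))
    (by
      have := hW.ld t _ x ha (by linarith) hb hx
      rw [sub_sub_cancel, ← z x _ r0.le] at this
      simpa [r0.ne'] using this) fun v k hv hk => by
      obtain ⟨k1, k2⟩ := abs_le.1 hk
      have := hU (x + ρ • v) ((1 + k) * ρ ^ 2) (by
        rw [add_sub_cancel_left, norm_smul, Real.norm_of_nonneg hρ.le]; nlinarith) (by
        rw [abs_le]; constructor <;> nlinarith)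
      rw [← z _ _ (by nlinarith)] at this
      simpa [r0.ne', hρ.ne'] using this
  refine ⟨e, e1, fun s hs y hy hd => ?_⟩
  have r1 : (η * ρ) ^ 2 < ρ ^ 2 := pow_lt_pow_left₀ (by nlinarith) (by positivity) two_ne_zero
  have a1 := hW.ld s (t - ρ ^ 2) y ha (by linarith [hs.1]) (hs.2.trans_lt hb) hy
  rw [← z y _ (by linarith [hs.1])] at a1
  have a2 := e2 (ρ⁻¹ • (y - x)) ((s - t) / ρ ^ 2) (by
    rwa [norm_smul, Real.norm_of_nonneg (by positivity), inv_mul_le_iff₀ hρ, mul_comm]) (by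
    rw [abs_div, abs_of_pos r0, div_le_iff₀ r0, ← mul_pow, abs_le]
    constructor <;> linarith [hs.1, hs.2, sq_nonneg (η * ρ)])
    (a1.trans_eq (by congr 1; field_simp; ring))
  rw [real_inner_smul_left, mul_pow, inv_pow, inv_mul_le_iff₀ r0] at a2
  refine abs_le_of_sq_le_sq' (a2.trans ?_) (by positivity) |> abs_le.2
  nlinarith only [mul_le_mul_of_nonneg_left η2 (show 0 ≤ (η * ρ) ^ 2 by positivity)]

/-- the Gaussian integral over a graph with small slope -/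
theorem gra_le {A : Set E3} (he : ‖e‖ = 1) {K : ℝ≥0} (hK : 1 ≤ (K : ℝ) ^ 2 * (1 - σ ^ 2))
    (h : ∀ p ∈ A, ∀ q ∈ A, |⟪q - p, e⟫| ≤ σ * ‖q - p‖) (x : E3) {c : ℝ} (hc : 0 < c) :
    ∫ z in A, Real.exp (-‖z - x‖ ^ 2 / c) ∂H2 ≤ K ^ 2 * (Real.pi * c) := by
  obtain ⟨L, hL⟩ := Gs.ex_fr he
  have n1 : ∀ v : E3, ‖v‖ ^ 2 = ‖adj L v‖ ^ 2 + ⟪e, v⟫ ^ 2 := fun v => by
    simpa using (congrArg (fun u => ‖u‖ ^ 2) (hL.dec v)).symm.trans (hL.norm_sq _ _)
  have l1 : ∀ p ∈ A, ∀ q ∈ A, ‖q - p‖ ≤ K * ‖adj L (q - x) - adj L (p - x)‖ := fun p hp q hq => by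
    rw [← map_sub, sub_sub_sub_cancel_right]
    refine le_of_sq_le_sq ?_ (by positivity)
    have a1 := sq_le_sq' (abs_le.1 (h p hp q hq)).1 (abs_le.1 (h p hp q hq)).2
    rw [real_inner_comm] at a1
    have a2 := n1 (q - p)
    nlinarith [mul_le_mul_of_nonneg_left hK (sq_nonneg ‖q - p‖), sq_nonneg (K : ℝ)]
  have mπ : Measurable fun z : E3 => adj L (z - x) := by fun_prop
  have m1 : (H2.restrict A).map (fun z => adj L (z - x)) ≤ (K ^ 2) • (volume : Measure (E 2)) := by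
    refine Measure.le_iff.2 fun B hB => ?_
    let f := Function.invFunOn (fun z : E3 => adj L (z - x)) A
    have lf : LipschitzOnWith K f (B ∩ (fun z : E3 => adj L (z - x)) '' A) :=
      LipschitzOnWith.of_dist_le_mul fun u hu w hw => by
        have := l1 _ (Function.invFunOn_mem hw.2) _ (Function.invFunOn_mem hu.2)
        rwa [Function.invFunOn_eq hw.2, Function.invFunOn_eq hu.2, ← dist_eq_norm,
          ← dist_eq_norm] at this
    have sub : (fun z : E3 => adj L (z - x)) ⁻¹' B ∩ A ⊆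
        f '' (B ∩ (fun z : E3 => adj L (z - x)) '' A) := fun z hz => by
      refine ⟨_, ⟨hz.1, z, hz.2, rfl⟩, ?_⟩
      have h1 : ∃ w ∈ A, adj L (w - x) = adj L (z - x) := ⟨z, hz.2, rfl⟩
      have := l1 _ hz.2 _ (Function.invFunOn_mem h1)
      rw [Function.invFunOn_eq h1, sub_self, norm_zero, mul_zero] at this
      exact sub_eq_zero.1 (norm_le_zero_iff.1 this)
    rw [Measure.map_apply mπ hB, Measure.restrict_apply (mπ hB),
      ← EuclideanSpace.euclideanHausdorffMeasure_eq_volume]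
    refine (measure_mono sub).trans ?_
    have := (lf.hausdorffMeasure_image_le (d := 2) (by norm_num)).trans
      (mul_le_mul_right (measure_mono inter_subset_left) _)
    simp only [H2, Measure.euclideanHausdorffMeasure_def, Measure.smul_apply, ENNReal.smul_def,
      smul_eq_mul]
    rw [mul_left_comm]
    gcongr
    simpa using this
  have i1 := (Gs.pl_int hc 0).smul_measure_nnreal (c := K ^ 2)
  have i2 := i1.mono_measure m1
  calc _ ≤ ∫ z in A, Real.exp (-‖adj L (z - x) - 0‖ ^ 2 / c) ∂H2 :=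
        integral_mono_of_nonneg (.of_forall fun _ => (Real.exp_pos _).le)
          ((integrable_map_measure i2.1 mπ.aemeasurable).1 i2) (.of_forall fun z => by
            simp only [sub_zero, Real.exp_le_exp]
            gcongr
            exact hL.norm_adj _)
    _ = _ := (integral_map mπ.aemeasurable i2.1).symm
    _ ≤ _ := integral_mono_measure m1 (.of_forall fun _ => (Real.exp_pos _).le) i1
    _ = _ := by rw [integral_smul_nnreal_measure, Gs.pl hc]; simp [NNReal.smul_def]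

end Fl

open Fl in
/-- **The density gap**: a point of the track near which all Gaussian ratios are close to one has
density one -/
theorem flat {Λ : ℝ} (hΛ : 0 ≤ Λ) : ∃ ε > (0 : ℝ), ∀ (μ : ℝ → Measure E3) (T : ℝ → Set E3)
    (a b t ρ : ℝ) (x : E3), Wf μ T a b Λ → (∀ s ∈ Ioo a b, μ s = H2.restrict (T s)) → 0 < ρ →
    a < t - ρ ^ 2 → t < b → x ∈ T t →
    (∀ s s' y, t - ρ ^ 2 ≤ s' → s' < s → s' < t → s ≤ t + ρ ^ 2 → ‖y - x‖ ≤ ρ →
      gs (μ s') y √(s - s') ≤ 1 + ε) →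
    Tendsto (fun r => gs (μ (t - r ^ 2)) x r) (𝓝[>] 0) (𝓝 1) := by
  obtain ⟨δ, δ0, σ₀, σ0, h1⟩ := gra hΛ
  obtain ⟨η, η0, η1, δ', δ1, h2⟩ := ini hΛ σ0
  refine ⟨min δ δ', by positivity, fun μ T a b t ρ x hW hμ hρ ha hb hx hU => ?_⟩
  have r0 := pow_pos hρ 2
  obtain ⟨e, he, hS⟩ := h2 μ T a b t ρ x hW hρ ha hb hx fun y τ hy hτ => by
    obtain ⟨k1, k2⟩ := abs_le.1 hτ
    have := hU (t - ρ ^ 2 + τ) (t - ρ ^ 2) y le_rfl (by linarith) (by linarith) (by linarith) hy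
    rw [add_sub_cancel_left] at this
    linarith [min_le_right δ δ']
  have r1 : η * ρ ≤ ρ := by nlinarith
  have r2 := pow_le_pow_left₀ (by positivity) r1 2
  have h3 := h1 μ T a b t (η * ρ) x e hW (by positivity) (by linarith) hb hx
    (fun s s' a1 a2 a3 y _ hy => (hU s s' y (by linarith) a2 (a2.trans_le a3) (by linarith)
      (hy.trans r1)).trans (by linarith [min_le_left δ δ'])) he hS
  have ev : ∀ R > (0 : ℝ), ∀ᶠ r in 𝓝[>] (0 : ℝ), 0 < r ∧ r ^ 2 ≤ R ^ 2 := fun R hR => by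
    filter_upwards [Ioo_mem_nhdsGT hR] with r hr using ⟨hr.1, pow_le_pow_left₀ hr.1.le hr.2.le 2⟩
  refine tendsto_order.2 ⟨fun c hc => ?_, fun c hc => ?_⟩
  · filter_upwards [ev ρ hρ] with r ⟨a1, a2⟩
    have := hW.ld t (t - r ^ 2) x (by linarith) (by nlinarith) hb hx
    rw [sub_sub_cancel, Real.sqrt_sq a1.le] at this
    linarith
  obtain ⟨θ, θ0, θ1, θ2⟩ : ∃ θ > (0 : ℝ), θ ≤ 1 ∧ 1 + 2 * θ < c :=
    ⟨min 1 ((c - 1) / 3), by simp [hc], min_le_left _ _, by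
      linarith [min_le_right 1 ((c - 1) / 3)]⟩
  obtain ⟨R, R0, e', he', h4⟩ := h3 (θ / 2) (by positivity)
  filter_upwards [ev ρ hρ, ev R R0, Gs.small (r := R) (Gs.C0 * Λ) θ0] with r ⟨a1, a2⟩ ⟨_, a3⟩ a4
  have t0 : t - r ^ 2 ∈ Ioo a b := ⟨by linarith, by nlinarith⟩
  have p := Real.pi_pos
  have a5 := Gs.tail_gs (y := x) hΛ (hW.ar _ t0) a1 R0 (measurableSet_ball (x := x) (ε := R)).compl
    (.of_forall fun z hz => not_lt.1 fun h => hz (mem_ball_iff_norm.2 h))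
  have a6 := gra_le (A := ball x R ∩ T (t - r ^ 2)) (K := (√(1 + θ)).toNNReal) he'
    (σ := θ / 2) (by
      rw [Real.coe_toNNReal _ (Real.sqrt_nonneg _), Real.sq_sqrt (by linarith)]
      nlinarith [mul_le_one₀ θ1 θ0.le θ1])
    (fun p hp q hq => h4 _ ⟨by linarith, by nlinarith⟩ p ⟨hp.2, hp.1⟩ q ⟨hq.2, hq.1⟩) x
    (c := 4 * r ^ 2) (by positivity)
  rw [Real.coe_toNNReal _ (Real.sqrt_nonneg _), Real.sq_sqrt (by linarith), ← Measure.restrict_restrict measurableSet_ball, ← hμ _ t0] at a6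
  have a7 := mul_le_mul_of_nonneg_left a6 (show 0 ≤ (4 * Real.pi * r ^ 2)⁻¹ by positivity)
  have a8 : (4 * Real.pi * r ^ 2)⁻¹ * ((1 + θ) * (Real.pi * (4 * r ^ 2))) = 1 + θ := by field_simp
  rw [gs, ← integral_add_compl (measurableSet_ball (x := x) (ε := R))
    (Gs.intg hΛ (hW.ar _ t0) x (by positivity)), mul_add]
  linarith only [a4, a5, a7, a8, θ2]

end Vale.Agent.P218Z
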