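import Vale.Agent.P218Z.Pre
import Vale.Agent.P218R.WFin

/-!
# P218Z: White's theorem for local flows
-/

open MeasureTheory Metric Filter Topology Set
open scoped ContDiff ENNReal RealInnerProductSpace
open Vale.Agent.P366.Stmt (E)
open Vale.Agent.P366W (trc dvg Fr adj)
open Vale.Agent.P218R
open Vale.Agent.P218R.Wh (Pair dist_two align same_sign Gr_mono TLs)

noncomputable section

namespace Vale.Agent.P218Z

namespace Whl

variable {F : Flw} {a b s t ρ σ K R η r : ℝ} {x y e : E3} {L : E 2 →ₗᵢ[ℝ] E3} {B : Set E3}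

theorem cb_sub {z : E3} {p q : ℝ} (hz : z ∈ ball y p) (hq : q ≤ p) :
    closedBall z q ⊆ ball y (2 * p) := fun w hw => by
  have h1 := dist_triangle w z y
  have h2 := mem_closedBall.1 hw
  have h3 := mem_ball.1 hz
  exact mem_ball.2 (by linarith)

theorem pair {c : ℝ} {C : ℕ → ℝ} (hl : LBL σ R c C) (c0 : 0 < c) (c1 : c ≤ 1 / 4) (C0 : 0 ≤ C 0)
    (R1 : 1 ≤ R) (hK : 1 ≤ K) (hη : 0 < η) :
    ∃ δ > (0 : ℝ), ∀ (F : Flw) (a b s ρ : ℝ) (y : E3) (B : Set E3), OkL F a b B → Anc F a b B R →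
      Two F a b B R (2 * K) δ (η / 2) → 0 < ρ → a ≤ s - 5 * ρ ^ 2 → s < b →
      ball y (2 * (K * ρ)) ⊆ B → (∀ t ∈ Ioc (s - 4 * ρ ^ 2) s, ∀ z ∈ ball y (K * ρ),
        F.u (t, z) = 0 → F.TL t z (ρ / 2) σ) → Pair F s y ρ K η := by
  obtain ⟨δ, d0, d1, d2, d3⟩ : ∃ δ > (0 : ℝ), δ ≤ 1 / 2 ∧ δ * (8 * R) ≤ c ∧
      δ * (32 * K * R * C 0 + 1) ≤ η := ⟨min (1 / 2) (min (c / (8 * R))
        (η / (32 * K * R * C 0 + 1))), by positivity, min_le_left _ _,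
      (le_div_iff₀ (by positivity)).1 ((min_le_right _ _).trans (min_le_left _ _)),
      (le_div_iff₀ (by positivity)).1 ((min_le_right _ _).trans (min_le_right _ _))⟩
  refine ⟨δ, d0, fun F a b s ρ y B hF hA e1 hρ h2 h3 hB h t ht τ hτ z hz y₁ a1 y₂ a2 z0 b1 b2 => ?_⟩
  have r2 : 0 < ρ ^ 2 := by positivity
  have Kρ : ρ ≤ K * ρ := le_mul_of_one_le_left hρ.le hK
  have d4 : (δ * ρ) ^ 2 ≤ ρ ^ 2 / 4 := by
    rw [mul_pow]; nlinarith only [mul_le_mul d1 d1 d0.le (by norm_num), r2]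
  have dρ : 0 < δ * ρ := by positivity
  have d8 := mul_le_mul_of_nonneg_right d2 hρ.le
  have d5 : δ * ρ * 8 ≤ c * ρ := by linarith only [mul_le_mul_of_nonneg_left R1 dρ.le, d8]
  have d6 : 2 * R * δ * ρ < c * (ρ / 2) := by linarith only [mul_pos c0 hρ, d8]
  have d7 : c * (ρ / 2) ≤ ρ := by linarith only [mul_le_mul_of_nonneg_right c1 hρ.le, hρ]
  have d9 : 2 * (δ * ρ) ^ 2 ≤ (c * (ρ / 2)) ^ 2 := by
    nlinarith only [mul_le_mul d5 d5 (by positivity) (by positivity), dρ]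
  have sb : ball y (K * ρ) ⊆ B := (ball_subset_ball (by linarith)).trans hB
  obtain ⟨t', t1, z', z1, z2, z3⟩ := e1 τ t ρ y₁ y₂ z hρ (by linarith [ht.1]) hτ.1
    (by linarith only [ht.1, hτ.2, mul_le_mul Kρ Kρ hρ.le (hρ.le.trans Kρ)])
    (hτ.2.trans_lt h3) b1 b2 z0 ((dist_two a1 hz).trans_eq (mul_assoc _ _ _).symm)
    ((dist_two a2 hz).trans_eq (mul_assoc _ _ _).symm) (sb a1) (sb a2)
    ((cb_sub hz (by linarith)).trans hB)
  obtain ⟨L, -, v, hv⟩ := hl F a b t (ρ / 2) z B hF hA (by positivity) (by linarith [ht.1])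
    (ht.2.trans_lt h3) ((cb_sub hz (by linarith)).trans hB) z0 (h t ht z hz z0)
  have n1 := (hv t' ⟨by linarith only [t1.1, d9], by linarith only [t1.2, sq_nonneg (δ * ρ)]⟩).2.2.2 z'
    (mem_ball_iff_norm.2 (z2.trans_lt d6)) z1
  have n2 : ‖z' - z‖ / (ρ / 2) ≤ 4 * R * δ := by rw [div_le_iff₀ (by positivity)]; linarith
  have n3 : (t - t') / (ρ / 2) ^ 2 ≤ 4 * R * δ := by
    rw [div_le_iff₀ (by positivity)]
    have : δ * ρ ^ 2 * (2 * δ) ≤ δ * ρ ^ 2 * R := by gcongr; linarith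
    linarith only [t1.1, this]
  have n4 : ‖F.n (t', z') - F.n (t, z)‖ ≤ C 0 * (8 * R * δ) :=
    n1.trans (mul_le_mul_of_nonneg_left (by linarith) C0)
  have n5 := (abs_real_inner_le_norm (y₁ - y₂) (F.n (t', z') - F.n (t, z))).trans
    (mul_le_mul (dist_two a1 a2) n4 (norm_nonneg _) (by positivity))
  rw [inner_sub_right] at n5
  have n6 := mul_le_mul_of_nonneg_right d3 hρ.le
  rw [abs_le] at n5 z3 ⊢
  constructor <;> linarith only [n5.1, n5.2, z3.1, z3.2, n6, dρ]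

theorem sign_far (hF : Pre F a b) (ht : t ∈ Ioo a b) (he : ‖e‖ = 1) {z q : E3} {ε : ℝ}
    (hε : ε = 1 ∨ ε = -1) (hρ : 0 < ρ) (hσ : σ ≤ 1 / 16) (z0 : F.u (t, z) = 0)
    (hT : F.TL t z (ρ / 2) σ) (hN : ‖F.n (t, z) - ε • e‖ ≤ σ) {D : Set E3} (hD : Convex ℝ D)
    (h1 : z + (ρ / 4) • e ∈ D) (h2 : q ∈ D) (h3 : ρ / 4 ≤ ⟪q - z, e⟫)
    (sl : ∀ w ∈ D, F.u (t, w) = 0 → |⟪w - z, e⟫| ≤ ρ / 8) : 0 < ε * F.u (t, q) := by
  have ee : ⟪e, e⟫ = 1 := by rw [real_inner_self_eq_norm_sq, he, one_pow]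
  have ε2 : ε * ε = 1 := by rcases hε with rfl | rfl <;> norm_num
  have ε1 : |ε| = 1 := by rcases hε with rfl | rfl <;> norm_num
  have ε0 : ε ≠ 0 := by rcases hε with rfl | rfl <;> norm_num
  have k1 := P366W.pos_of_cross (fun x => (hF.line ht z ((ρ / 4) • e) x).const_mul ε)
    (by simp [z0]) fun x hx h0 => by
      have w0 : (F.sl t).w (z + x • (ρ / 4) • e) = 0 := (mul_eq_zero.1 h0).resolve_left ε0
      have w1 := hT t ⟨by nlinarith, le_rfl⟩ _ (by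
        rw [mem_ball_iff_norm, add_sub_cancel_left, norm_smul, norm_smul, he,
          Real.norm_of_nonneg hx.1, Real.norm_of_nonneg (by positivity)]
        nlinarith [hx.2]) w0
      have w2 := (abs_real_inner_le_norm (F.n (t, z + x • (ρ / 4) • e) - ε • e) (ε • e)).trans
        (mul_le_mul_of_nonneg_right ((norm_sub_le_norm_sub_add_norm_sub _ _ _).trans
          (add_le_add w1 hN)) (norm_nonneg _))
      rw [inner_sub_left, norm_smul, he, Real.norm_eq_abs, ε1, real_inner_smul_right,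
        real_inner_smul_right, real_inner_smul_left, ee] at w2
      have w3 : 0 < ε * ⟪(F.sl t).n (z + x • (ρ / 4) • e), e⟫ := by
        change 0 < ε * ⟪F.n (t, z + x • (ρ / 4) • e), e⟫
        linarith [(abs_le.1 w2).1]
      rw [(hF.sl ht).fderiv_w w0, real_inner_smul_right]
      nlinarith [mul_pos (mul_pos ((hF.sl ht).gpos w0) hρ) w3]
  rw [one_smul] at k1
  have k2 := (same_sign (f := fun x => ε * F.u (t, z + (ρ / 4) • e + x • (q - (z + (ρ / 4) • e))))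
    zero_le_one (fun x _ => ((hF.line ht _ _ x).const_mul ε).continuousAt.continuousWithinAt)
    fun x hx h0 => ?_).1 (by simpa using k1)
  · simpa using k2
  have k3 := (abs_le.1 (sl _ (hD.add_smul_sub_mem h1 h2 hx)
    ((mul_eq_zero.1 h0).resolve_left ε0))).2
  have k4 : z + (ρ / 4) • e + x • (q - (z + (ρ / 4) • e)) - z =
      ((1 - x) * (ρ / 4)) • e + x • (q - z) := by module
  rw [k4, inner_add_left, real_inner_smul_left, real_inner_smul_left, ee] at k3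
  nlinarith [hx.1, mul_le_mul_of_nonneg_left h3 hx.1]

theorem improve (hF : Pre F a b) (hL : Fr (F.n (s, y)) L) (hρ : 0 < ρ) (ha : a ≤ s - 4 * ρ ^ 2)
    (hb : s < b) (h0 : F.u (s, y) = 0) (R1 : 1 ≤ R) (hσ : σ ≤ 1 / 16) {c : ℝ} (c0 : 0 < c)
    (η0 : 0 < η) (η1 : 32 * η / c ≤ σ) (η2 : η + 2 * (2 * R + 3) * (32 * η / c) ≤ 1 / 8)
    (hP : Pair F s y ρ (2 * R + 3) η)
    (hT : ∀ t ∈ Ioc (s - 4 * ρ ^ 2) s, ∀ z ∈ ball y ((2 * R + 3) * ρ), F.u (t, z) = 0 →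
      F.TL t z (ρ / 2) σ)
    (anc : ∀ t ∈ Ioc (s - 4 * ρ ^ 2) s, ∃ z, F.u (t, z) = 0 ∧ ‖z - y‖ ≤ 2 * R * ρ)
    (pts : ∀ i, ∃ v : ℝ, y + L ((c * ρ / 4) • EuclideanSpace.single i 1) + v • F.n (s, y) ∈
      ball y ((2 * R + 3) * ρ) ∧
      F.u (s, y + L ((c * ρ / 4) • EuclideanSpace.single i 1) + v • F.n (s, y)) = 0) :
    F.TL s y (2 * ρ) σ := by
  have r2 : 0 < ρ ^ 2 := by positivity
  have Rρ : ρ ≤ R * ρ := le_mul_of_one_le_left hρ.le R1
  have hs : s ∈ Ioc (s - 4 * ρ ^ 2) s := ⟨by linarith, le_rfl⟩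
  have hy : y ∈ ball y ((2 * R + 3) * ρ) := mem_ball_self (by positivity)
  have dom : ∀ t ∈ Ioc (s - 4 * ρ ^ 2) s, t ∈ Ioo a b := fun t h =>
    ⟨ha.trans_lt h.1, h.2.trans_lt hb⟩
  have al : ∀ t ∈ Ioc (s - 4 * ρ ^ 2) s, ∀ z ∈ ball y ((2 * R + 3) * ρ), F.u (t, z) = 0 →
      ∃ ε : ℝ, (ε = 1 ∨ ε = -1) ∧ ‖F.n (t, z) - ε • F.n (s, y)‖ ≤ 32 * η / c := fun t ht z hz z0 => by
    have hN : ‖F.n (t, z)‖ = 1 := (hF.sl (dom t ht)).norm_n (x := z) z0
    obtain ⟨ε, e1, e2⟩ := align hL hN (θ := 8 * η / c) fun i => by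
      obtain ⟨v, v1, v2⟩ := pts i
      have p1 := hP t ht s ⟨ht.2, le_rfl⟩ z hz _ v1 y hy z0 v2 h0
      have p2 := hP s hs s ⟨le_rfl, le_rfl⟩ y hy _ v1 y hy h0 v2 h0
      rw [add_assoc, add_sub_cancel_left] at p1 p2
      rw [real_inner_comm, hL.e_pt] at p2
      rw [inner_add_left, map_smul, real_inner_smul_left, real_inner_smul_left] at p1
      have p3 : |v * ⟪F.n (s, y), F.n (t, z)⟫| ≤ η * ρ := by
        rw [abs_mul]
        exact (mul_le_of_le_one_right (abs_nonneg _) (by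
          simpa [hL.one, hN] using abs_real_inner_le_norm (F.n (s, y)) (F.n (t, z)))).trans p2
      have p4 : |c * ρ / 4 * ⟪L (EuclideanSpace.single i 1), F.n (t, z)⟫| ≤ 2 * (η * ρ) := by
        rw [abs_le] at p1 p3 ⊢; constructor <;> linarith
      rw [abs_mul, abs_of_pos (by positivity)] at p4
      rw [le_div_iff₀ c0]
      refine le_of_mul_le_mul_right ?_ hρ
      linarith
    exact ⟨ε, e1, e2.trans_eq (by ring)⟩
  have sl : ∀ t ∈ Ioc (s - 4 * ρ ^ 2) s, ∀ z ∈ ball y ((2 * R + 3) * ρ), F.u (t, z) = 0 →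
      ∀ w ∈ ball y ((2 * R + 3) * ρ), F.u (t, w) = 0 → |⟪w - z, F.n (s, y)⟫| ≤ ρ / 8 :=
    fun t ht z hz z0 w hw w0 => by
      obtain ⟨ε, e1, e2⟩ := al t ht z hz z0
      have p1 := hP t ht t ⟨le_rfl, ht.2⟩ z hz w hw z hz z0 w0 z0
      have p2 := (abs_real_inner_le_norm (w - z) _).trans
        (mul_le_mul (dist_two hw hz) e2 (norm_nonneg _) (by positivity))
      rw [inner_sub_right, real_inner_smul_right] at p2
      have p3 := mul_le_mul_of_nonneg_right η2 hρ.le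
      rw [abs_le] at p1 p2 ⊢
      rcases e1 with rfl | rfl <;> constructor <;> linarith
  obtain ⟨q, hq⟩ : ∃ q, q = y + ((2 * R + 1) * ρ) • F.n (s, y) := ⟨_, rfl⟩
  have q1 : q ∈ ball y ((2 * R + 3) * ρ) := by
    rw [hq, mem_ball_iff_norm, add_sub_cancel_left, norm_smul, hL.one,
      Real.norm_of_nonneg (by positivity)]
    linarith
  have q2 : ∀ t ∈ Ioc (s - 4 * ρ ^ 2) s, ∀ z ∈ ball y ((2 * R + 3) * ρ), F.u (t, z) = 0 →
      ρ / 4 ≤ ⟪q - z, F.n (s, y)⟫ := fun t ht z hz z0 => by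
    obtain ⟨w, w0, w1⟩ := anc t ht
    have p1 := (abs_le.1 (sl t ht z hz z0 w (mem_ball_iff_norm.2 (by linarith)) w0)).1
    have p2 := (abs_le.1 ((abs_real_inner_le_norm (w - y) (F.n (s, y))).trans
      (mul_le_mul_of_nonneg_right w1 (norm_nonneg _)))).2
    have p3 : q - z = ((2 * R + 1) * ρ) • F.n (s, y) - (w - y) + (w - z) := by rw [hq]; abel
    rw [p3, inner_add_left, inner_sub_left, real_inner_smul_left, hL.ee]
    rw [hL.one] at p2
    linarith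
  have sg : ∀ t ∈ Ioc (s - 4 * ρ ^ 2) s, ∀ z ∈ ball y (2 * ρ), F.u (t, z) = 0 → ∀ ε : ℝ,
      (ε = 1 ∨ ε = -1) → ‖F.n (t, z) - ε • F.n (s, y)‖ ≤ σ → 0 < ε * F.u (t, q) :=
    fun t ht z hz z0 ε e1 e2 => by
      have hz' : z ∈ ball y ((2 * R + 3) * ρ) := ball_subset_ball (by linarith) hz
      refine sign_far hF (dom t ht) hL.one e1 hρ hσ z0 (hT t ht z hz' z0) e2 (convex_ball _ _) ?_ q1
        (q2 t ht z hz' z0) (sl t ht z hz' z0)
      rw [mem_ball_iff_norm, add_sub_right_comm]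
      refine (norm_add_le _ _).trans_lt ?_
      rw [norm_smul, hL.one, Real.norm_of_nonneg (by positivity)]
      linarith [mem_ball_iff_norm.1 hz]
  intro t ht z hz z0
  have ht' : t ∈ Ioc (s - 4 * ρ ^ 2) s := ⟨by linarith [ht.1], ht.2⟩
  obtain ⟨ε, e1, e2⟩ := al t ht' z (ball_subset_ball (by linarith) hz) z0
  rcases e1 with rfl | rfl
  · simpa using e2.trans η1
  have k1 := sg t ht' z hz z0 (-1) (.inr rfl) (e2.trans η1)
  have k2 := sg s hs y (mem_ball_self (by positivity)) h0 1 (.inl rfl)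
    (by simpa using le_trans (by positivity) η1)
  have k3 := (same_sign (f := fun x => F.u (x, q)) ht.2 (fun x hx =>
    (ContinuousAt.comp (f := fun x => (x, q)) (hF.cu (dom x ⟨ht'.1.trans_le hx.1, hx.2⟩) q)
      (by fun_prop)).continuousWithinAt) fun x hx x0 => ?_).2 (by simpa using k2)
  · linarith
  have := q2 x ⟨ht'.1.trans_le hx.1, hx.2⟩ q q1 x0
  rw [sub_self, inner_zero_left] at this
  linarith

theorem key {c : ℝ} {C : ℕ → ℝ} (s0 : 0 < σ) (s1 : σ ≤ 1 / 16) (hl : LBL σ R c C) (c0 : 0 < c)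
    (c1 : c ≤ 1 / 4) (C0 : 0 ≤ C 0) (R1 : 1 ≤ R) : ∃ δ > (0 : ℝ), ∃ η > (0 : ℝ),
    ∀ (F : Flw) (a b s ρ : ℝ) (y : E3) (B : Set E3), OkL F a b B → Anc F a b B R →
      Two F a b B R (2 * (2 * R + 3)) δ η → 0 < ρ → a ≤ s - 5 * ρ ^ 2 → s < b →
      ball y (2 * ((2 * R + 3) * ρ)) ⊆ B → F.u (s, y) = 0 →
      (∀ t ∈ Ioc (s - 4 * ρ ^ 2) s, ∀ z ∈ ball y ((2 * R + 3) * ρ),
        F.u (t, z) = 0 → F.TL t z (ρ / 2) σ) → F.TL s y (2 * ρ) σ := by
  obtain ⟨θ, θ0, θ1, θ2⟩ : ∃ θ > (0 : ℝ), θ ≤ σ ∧ θ * (2 * (2 * R + 3) + 1) ≤ 1 / 8 :=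
    ⟨min σ (1 / 8 / (2 * (2 * R + 3) + 1)), by positivity, min_le_left _ _,
      (le_div_iff₀ (by positivity)).1 (min_le_right _ _)⟩
  have e1 : 32 * (θ * c / 32) / c = θ := by field_simp
  obtain ⟨δ, d0, h⟩ := pair (K := 2 * R + 3) (η := θ * c / 32) hl c0 c1 C0 R1 (by linarith)
    (by positivity)
  refine ⟨δ, d0, θ * c / 32 / 2, by positivity, fun F a b s ρ y B hF anc h1 hρ h2 h3 hB h0 h4 => ?_⟩
  have r2 : 0 < ρ ^ 2 := by positivity
  have Rρ : ρ ≤ R * ρ := le_mul_of_one_le_left hρ.le R1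
  have hs : s ∈ Ioc (s - 4 * ρ ^ 2) s := ⟨by linarith, le_rfl⟩
  have hy : y ∈ ball y ((2 * R + 3) * ρ) := mem_ball_self (by positivity)
  obtain ⟨L, hL, v, hv⟩ := hl F a b s (ρ / 2) y B hF anc (by positivity) (by linarith) h3
    ((cb_sub hy (by linarith)).trans hB) h0 (h4 s hs y hy h0)
  refine improve hF.toPre hL hρ (by linarith) h3 h0 R1 s1 c0 (by positivity) (e1.trans_le θ1)
    (by rw [e1]; nlinarith) (h F a b s ρ y B hF anc h1 hρ h2 h3 hB h4) h4 (fun t ht => ?_)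
    fun i => ?_
  · rcases ht.2.eq_or_lt with rfl | h5
    · exact ⟨y, h0, by rw [sub_self, norm_zero]; positivity⟩
    have : √(s - t) ≤ 2 * ρ := Real.sqrt_le_iff.2 ⟨by positivity, by linarith [ht.1]⟩
    have h6 : R * √(s - t) ≤ 2 * R * ρ := by nlinarith
    obtain ⟨z, z0, z1⟩ := anc s t y (by linarith [ht.1]) h5 h3 h0
      ((cb_sub hy (by linarith)).trans hB)
    exact ⟨z, z0, z1.trans h6⟩
  · have cρ : 0 < c * ρ := by positivity
    have n1 : ‖(c * ρ / 4) • (EuclideanSpace.single i 1 : E 2)‖ = c * ρ / 4 := by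
      rw [norm_smul, Real.norm_of_nonneg (by positivity)]; simp
    obtain ⟨g1, g2⟩ := (hv s ⟨sub_lt_self _ (by positivity), le_rfl⟩).2.1 _
      (n1.trans_lt (by linarith))
    refine ⟨_, ?_, (g2 _ g1).2.2 rfl⟩
    rw [mem_ball_iff_norm, add_assoc, add_sub_cancel_left]
    refine (hL.norm_le _ _).trans_lt ?_
    rw [n1]
    nlinarith

theorem tls_small (hF : Pre F a b) (hr : 0 < r) (ha : a < t - 2 * r ^ 2) (hb : s < b)
    (hσ : 0 < σ) (hK : 0 ≤ K) : ∃ δ > (0 : ℝ), ∀ ρ, 0 < ρ → ρ ≤ δ → TLs F t s r K σ x ρ := by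
  have r2 : 0 < r ^ 2 := by positivity
  have hc : ContinuousOn F.n (Icc (t - 2 * r ^ 2) s ×ˢ closedBall x (2 * r)) := fun p hp =>
    (hF.cn ⟨by linarith [hp.1.1], hp.1.2.trans_lt hb⟩ p.2).continuousWithinAt
  obtain ⟨δ, d0, d1⟩ := Metric.uniformContinuousOn_iff_le.1
    ((isCompact_Icc.prod (isCompact_closedBall x (2 * r))).uniformContinuousOn_of_continuous hc)
    σ hσ
  refine ⟨min (min (δ / 2) (1 / 2)) (r / 4), by positivity, fun ρ h0 h1 s' hs y hy _ t' ht z hz _ =>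
    ?_⟩
  have h2 : ρ ≤ δ / 2 := h1.trans ((min_le_left _ _).trans (min_le_left _ _))
  have h3 : ρ ≤ 1 / 2 := h1.trans ((min_le_left _ _).trans (min_le_right _ _))
  have h4 : ρ ≤ r / 4 := h1.trans (min_le_right _ _)
  have h5 : 0 ≤ K * ρ := by positivity
  have h6 := mem_ball.1 hy
  have h7 := mem_ball.1 hz
  rw [← dist_eq_norm]
  refine d1 _ ⟨⟨by nlinarith [ht.1, hs.1], ht.2.trans hs.2⟩, mem_closedBall.2 ?_⟩ _
    ⟨⟨by nlinarith [hs.1], hs.2⟩, mem_closedBall.2 (by linarith)⟩ ?_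
  · linarith [dist_triangle z y x]
  · rw [Prod.dist_eq, max_le_iff, Real.dist_eq, abs_sub_comm, abs_of_nonneg (sub_nonneg.2 ht.2)]
    exact ⟨by nlinarith [ht.1], by linarith⟩

theorem tls_all (hF : Pre F (t - 3 * r ^ 2) t) (hr : 0 < r) (hs : s < t) (hσ : 0 < σ) (hK : 2 ≤ K)
    (key : ∀ (s ρ : ℝ) (y : E3), 0 < ρ → t - 3 * r ^ 2 ≤ s - 5 * ρ ^ 2 → s < t →
      ball y (2 * (K * ρ)) ⊆ ball x (2 * r) → F.u (s, y) = 0 →
      (∀ t ∈ Ioc (s - 4 * ρ ^ 2) s, ∀ z ∈ ball y (K * ρ), F.u (t, z) = 0 →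
        F.TL t z (ρ / 2) σ) → F.TL s y (2 * ρ) σ)
    (h0 : 0 < ρ) (h1 : 4 * K * ρ ≤ r) : TLs F t s r K σ x ρ := by
  have r0 : 0 < r ^ 2 := by positivity
  obtain ⟨δ, d0, d1⟩ := tls_small (x := x) (t := t) hF hr (by linarith) hs hσ (by linarith : 0 ≤ K)
  obtain ⟨n, hn⟩ := pow_unbounded_of_one_lt (ρ / δ) (show (1 : ℝ) < 4 by norm_num)
  replace hn := ((div_lt_iff₀ d0).1 hn).le
  induction n generalizing ρ with
  | zero => exact d1 ρ h0 (by simpa using hn)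
  | succ n ih =>
    have k := ih (ρ := ρ / 4) (by positivity) (by nlinarith) (by rw [pow_succ] at hn; linarith)
    intro s' hs' y hy y0
    have r2 : 0 < ρ ^ 2 := by positivity
    have r4 : 0 < K * ρ := by positivity
    have h3 := mem_ball.1 hy
    refine key s' ρ y h0 (by linarith [hs'.1]) (hs'.2.trans_lt hs)
      (ball_subset_ball' (by linarith)) y0 fun t' ht z hz z0 => ?_
    have h2 := dist_triangle z y x
    have h4 := mem_ball.1 hz
    have := k t' ⟨by linarith [ht.1, hs'.1], ht.2.trans hs'.2⟩ z (mem_ball.2 (by linarith)) z0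
    rwa [show 2 * (ρ / 4) = ρ / 2 by ring] at this

end Whl

open Whl in
/-- White's theorem for local flows -/
theorem whl (h : WLZ) : WHL := fun R R1 => by
  obtain ⟨σ, s0, s1, hl⟩ := h
  obtain ⟨c, c0, c1, C, C0, hl⟩ := hl R R1
  obtain ⟨δ, δ0, η, η0, hk⟩ := key s0 s1 hl c0 c1 (C0 0) R1
  refine ⟨2 * (2 * R + 3), δ, η, δ0, η0, fun σ₁ h1 => ?_⟩
  have K2 : 2 ≤ 2 * R + 3 := by linarith
  generalize 2 * R + 3 = K at hk K2 ⊢
  obtain ⟨τ, τ0, τ1, τ2⟩ : ∃ τ > (0 : ℝ), τ ≤ σ₁ ∧ τ ≤ 1 / 2 :=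
    ⟨min σ₁ (1 / 2), by positivity, min_le_left _ _, min_le_right _ _⟩
  have A0 := C0 0
  obtain ⟨d, d0, d1, d2⟩ : ∃ d > (0 : ℝ), d ≤ c ∧ d * (2 * C 0 + 1) ≤ τ :=
    ⟨min c (τ / (2 * C 0 + 1)), by positivity, min_le_left _ _,
      (le_div_iff₀ (by positivity)).1 (min_le_right _ _)⟩
  refine ⟨d / (2 * K), by positivity, by rw [div_le_iff₀ (by positivity)]; linarith,
    fun k => if k ≤ 1 then τ else C k, by simpa, by simpa,
    fun F t r x hr hF hA h2 s hs y hy y0 => ?_⟩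
  obtain ⟨ρ, ρ0, ρ1⟩ : ∃ ρ > (0 : ℝ), 4 * K * ρ = r := ⟨r / (4 * K), by positivity, by field_simp⟩
  have r1 : 8 * ρ ≤ r := by nlinarith
  have r3 : 64 * ρ ^ 2 ≤ r ^ 2 := by nlinarith
  have r2 : 0 < ρ ^ 2 := by positivity
  have hT := tls_all hF.toPre hr hs.2 s0 K2 (fun s ρ y => hk F _ t s ρ y _ hF hA h2) ρ0 ρ1.le s
    ⟨by linarith [hs.1], le_rfl⟩ y (ball_subset_ball (by linarith) hy) y0
  obtain ⟨L, hL, v, hv⟩ := hl F _ t s (2 * ρ) y _ hF hA (by positivity) (by linarith [hs.1])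
    hs.2 (cb_sub hy (by linarith)) y0 hT
  rw [show d / (2 * K) * r = d * (2 * ρ) by rw [← ρ1]; field_simp; norm_num]
  have q0 : 0 < 2 * ρ := by positivity
  generalize 2 * ρ = q at *
  have q1 : d * q ≤ c * q := by gcongr
  have q2 : 0 < d * q := by positivity
  refine ⟨L, hL, fun s' hs' => ?_⟩
  obtain ⟨v1, v2, v3, -⟩ := hv s' ⟨by nlinarith [hs'.1], hs'.2⟩
  have v4 : ∀ z : E 2, ‖z‖ < d * q → |v (s', z)| ≤ τ * (d * q) := fun z hz => by
    refine (v3 z (hz.trans_le q1)).1.trans ?_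
    rw [div_le_iff₀ q0]
    have h2 : ‖z‖ ^ 2 ≤ (d * q) ^ 2 := pow_le_pow_left₀ (norm_nonneg _) hz.le 2
    have h3 : C 0 * (‖z‖ ^ 2 + (s - s')) ≤ C 0 * (2 * (d * q) ^ 2) :=
      mul_le_mul_of_nonneg_left (by linarith [hs'.1]) A0
    have h4 : 0 < d * q ^ 2 := by positivity
    nlinarith [mul_le_mul_of_nonneg_right d2 h4.le, mul_pos d0 h4]
  refine ⟨_, v1.mono (ball_subset_ball q1), Gr_mono v2 q1 fun z hz =>
    (v4 z hz).trans_lt (by nlinarith), fun k z hz => ?_⟩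
  rcases k with _ | _ | k
  · simpa using v4 z hz
  · rw [norm_iteratedFDeriv_one]
    refine (v3 z (hz.trans_le q1)).2.1.trans ?_
    have h2 : ‖z‖ / q ≤ d := by rw [div_le_iff₀ q0]; exact hz.le
    have h3 : (s - s') / q ^ 2 ≤ d := by
      rw [div_le_iff₀ (by positivity)]
      have : d * q ^ 2 * d ≤ d * q ^ 2 := mul_le_of_le_one_right (by positivity) (by linarith)
      nlinarith [hs'.1]
    have h4 := mul_le_mul_of_nonneg_left (add_le_add h2 h3) A0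
    simp only [zero_add, le_refl, if_true, pow_one, mul_div_assoc, div_self q2.ne', mul_one]
    linarith
  · refine ((v3 z (hz.trans_le q1)).2.2 _ (by omega)).trans ?_
    beta_reduce
    rw [if_neg (by omega), mul_div_assoc, mul_div_assoc]
    refine mul_le_mul_of_nonneg_left ?_ (C0 _)
    rw [pow_succ' q, pow_succ' (d * q), div_mul_cancel_left₀ q0.ne', div_mul_cancel_left₀ q2.ne']
    exact inv_anti₀ (by positivity)
      (pow_le_pow_left₀ q2.le (mul_le_of_le_one_left q0.le (by linarith)) _)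

end Vale.Agent.P218Z
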