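import Vale.Agent.P218.H552.Key2

/-!
# P218Z: the weighted monotonicity formula for integral Brakke flows
-/

open MeasureTheory Set Filter Topology Metric
open scoped ENNReal NNReal RealInnerProductSpace
open Vale.Agent.P214 (proj divAlong)
open Vale.Agent.P218.H552

noncomputable section

namespace Vale.Agent.P218Z

variable {E : Type*} [NormedAddCommGroup E] [InnerProductSpace ℝ E] [FiniteDimensional ℝ E]
  [MeasurableSpace E] [BorelSpace E] {m : ℕ}

/-- the (unnormalised) backward heat kernel centred at `(x₀, t₀)` -/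
def Ph (m : ℕ) (x₀ : E) (t₀ t : ℝ) (x : E) : ℝ := phi0 m (fun _ => 1) x₀ t₀ t x

/-- the heat operator `∂_t ψ - tr_T D² ψ` along the plane `T` -/
def ho (T : Submodule ℝ E) (ψ : ℝ × E → ℝ) (t : ℝ) (x : E) : ℝ :=
  fderiv ℝ ψ (t, x) (1, 0) - divAlong T (gradient fun y => ψ (t, y)) x

namespace Wm

omit [MeasurableSpace E] [BorelSpace E] in
theorem div_smul (T : Submodule ℝ E) {F : E → ℝ} {Y : E → E} {x : E}
    (hF : DifferentiableAt ℝ F x) (hY : DifferentiableAt ℝ Y x) :
    divAlong T (fun z => F z • Y z) x = F x * divAlong T Y x + fderiv ℝ F x (proj T (Y x)) := by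
  unfold divAlong
  rw [(hF.hasFDerivAt.fun_smul hY.hasFDerivAt).fderiv, ContinuousLinearMap.comp_add]
  have h3 : ((proj T).comp (F x • fderiv ℝ Y x)
      + (proj T).comp ((fderiv ℝ F x).smulRight (Y x))).toLinearMap
      = F x • ((proj T).comp (fderiv ℝ Y x)).toLinearMap
        + ((proj T).comp ((fderiv ℝ F x).smulRight (Y x))).toLinearMap := by
    ext z
    simp
  rw [h3, map_add, map_smul, trace_comp_smulRight, smul_eq_mul]

/-- the trace as a continuous functional -/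
def trL (E : Type*) [NormedAddCommGroup E] [InnerProductSpace ℝ E] [FiniteDimensional ℝ E] :
    (E →L[ℝ] E) →L[ℝ] ℝ :=
  LinearMap.toContinuousLinearMap ((LinearMap.trace ℝ E).comp (ContinuousLinearMap.coeLM ℝ))

omit [MeasurableSpace E] [BorelSpace E] in
theorem div_eq (T : Submodule ℝ E) (X : E → E) (x : E) :
    divAlong T X x = trL E ((proj T).comp (fderiv ℝ X x)) := rfl

variable {ν : Measure E} {T : E → Submodule ℝ E} {H : E → E}

theorem aesm_div (hM : MC m ν T H) {X : E → E} (hX : ContDiff ℝ 1 X) :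
    AEStronglyMeasurable (fun x => divAlong (T x) X x) ν := by
  simp_rw [div_eq]
  refine (trL E).continuous.comp_aestronglyMeasurable ?_
  exact (isBoundedBilinearMap_comp (𝕜 := ℝ) (E := E) (F := E) (G := E)).continuous
    |>.comp_aestronglyMeasurable (hM.Tmeas.prodMk
      (hX.continuous_fderiv one_ne_zero).aestronglyMeasurable)

omit [MeasurableSpace E] [BorelSpace E] in
theorem abs_div (T : Submodule ℝ E) (X : E → E) (x : E) :
    |divAlong T X x| ≤ ‖trL E‖ * ‖fderiv ℝ X x‖ := by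
  rw [div_eq, ← Real.norm_eq_abs]
  refine ((trL E).le_opNorm _).trans (mul_le_mul_of_nonneg_left ?_ (norm_nonneg _))
  refine (ContinuousLinearMap.opNorm_comp_le _ _).trans ?_
  simpa using mul_le_mul_of_nonneg_right (norm_proj_le T) (norm_nonneg (fderiv ℝ X x))

theorem int_mul_div (hM : MC m ν T H) {X : E → E} (hX : ContDiff ℝ 1 X)
    (hc : HasCompactSupport X) {F : E → ℝ} (hF : Continuous F) :
    Integrable (fun x => F x * divAlong (T x) X x) ν := by
  have := hM.fin
  have c1 := hX.continuous_fderiv one_ne_zero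
  have h1 : Integrable (fun x => |F x| * (‖trL E‖ * ‖fderiv ℝ X x‖)) ν :=
    (by fun_prop : Continuous fun x => |F x| * (‖trL E‖ * ‖fderiv ℝ X x‖))
      |>.integrable_of_hasCompactSupport (((hc.fderiv ℝ).norm.mul_left).mul_left)
  refine h1.mono' (hF.aestronglyMeasurable.mul (aesm_div hM hX)) (.of_forall fun x => ?_)
  rw [Real.norm_eq_abs, abs_mul]
  exact mul_le_mul_of_nonneg_left (abs_div _ _ _) (abs_nonneg _)

theorem int_div (hM : MC m ν T H) {X : E → E} (hX : ContDiff ℝ 1 X)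
    (hc : HasCompactSupport X) : Integrable (fun x => divAlong (T x) X x) ν := by
  simpa using int_mul_div hM hX hc (F := fun _ => 1) continuous_const

/-- the first variation identity with both terms on one side -/
theorem fv0 (hM : MC m ν T H) {X : E → E} (hX : ContDiff ℝ 1 X) (hc : HasCompactSupport X) :
    Integrable (fun x => divAlong (T x) X x + ⟪X x, H x⟫) ν ∧
      ∫ x, (divAlong (T x) X x + ⟪X x, H x⟫) ∂ν = 0 := by
  have h1 := int_div hM hX hc
  have h2 := integrable_inner_of_cpt hM hX.continuous hc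
  exact ⟨h1.add h2, by rw [integral_add h1 h2, hM.fv X hX hc, neg_add_cancel]⟩

omit [FiniteDimensional ℝ E] [MeasurableSpace E] [BorelSpace E] in
theorem ph_eq (x₀ : E) (t₀ t : ℝ) (x : E) :
    Ph m x₀ t₀ t x = Lam t₀ t ^ m * Real.exp (-‖yy (Lam t₀ t) x₀ x‖ ^ 2 / 4) := by
  simp [Ph, phi0, gF]

omit [FiniteDimensional ℝ E] [MeasurableSpace E] [BorelSpace E] in
theorem ph_cd (x₀ : E) (t₀ t : ℝ) : ContDiff ℝ 1 (Ph m x₀ t₀ t) :=
  contDiff_const.mul (contDiff_gF_yy contDiff_const _ x₀)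

omit [FiniteDimensional ℝ E] [MeasurableSpace E] [BorelSpace E] in
theorem ph_fd (x₀ : E) (t₀ t : ℝ) (x v : E) : fderiv ℝ (Ph m x₀ t₀ t) x v =
    -(Lam t₀ t ^ 2 / 2 * Ph m x₀ t₀ t x * ⟪x - x₀, v⟫) := by
  rw [ph_eq]
  unfold Ph
  rw [fderiv_phi0 contDiff_const, fderiv_gF contDiff_const]
  simp only [fderiv_fun_const, Pi.zero_apply, zero_apply, yy,
    real_inner_smul_left]
  ring

omit [FiniteDimensional ℝ E] [MeasurableSpace E] [BorelSpace E] in
theorem ph_dt (x₀ : E) {t₀ t : ℝ} (h : t < t₀) (x : E) : HasDerivAt (fun s => Ph m x₀ t₀ s x)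
    (Ph m x₀ t₀ t x * (m * Lam t₀ t ^ 2 / 2 - Lam t₀ t ^ 4 / 4 * ⟪x - x₀, x - x₀⟫)) t := by
  refine (hasDerivAt_phi0 (m := m) (f := fun _ => 1) contDiff_const x₀ h x).congr_deriv ?_
  rw [ph_eq, fderiv_gF contDiff_const]
  simp only [fderiv_fun_const, Pi.zero_apply, zero_apply, gF]
  generalize Real.exp _ = e
  simp only [yy, real_inner_smul_left, real_inner_smul_right]
  ring

omit [MeasurableSpace E] [BorelSpace E] in
theorem cd_grad {f : E → ℝ} (hf : ContDiff ℝ 2 f) : ContDiff ℝ 1 (gradient f) :=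
  (InnerProductSpace.toDual ℝ E).symm.contDiff.comp (hf.fderiv_right (m := 1) le_rfl)

omit [MeasurableSpace E] [BorelSpace E] in
theorem fd_grad (f : E → ℝ) (x v : E) : fderiv ℝ f x v = ⟪gradient f x, v⟫ := by
  simp [gradient]

/-- one time slice -/
theorem slice (hM : MC m ν T H) {f d : E → ℝ} (hf : ContDiff ℝ 2 f) (hc : HasCompactSupport f)
    (h0 : ∀ x, 0 ≤ f x) (hd : Continuous d) (dc : HasCompactSupport d) (x₀ : E) (t₀ t : ℝ) :
    ∫ x, (d x * Ph m x₀ t₀ t x + f x * (Ph m x₀ t₀ t x *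
        (m * Lam t₀ t ^ 2 / 2 - Lam t₀ t ^ 4 / 4 * ⟪x - x₀, x - x₀⟫)) +
      fderiv ℝ (fun y => f y * Ph m x₀ t₀ t y) x (H x) - f x * Ph m x₀ t₀ t x * ‖H x‖ ^ 2) ∂ν ≤
      ∫ x, Ph m x₀ t₀ t x * (d x - divAlong (T x) (gradient f) x) ∂ν := by
  have := hM.fin
  set P := Ph m x₀ t₀ t
  set l := Lam t₀ t
  have cP : ContDiff ℝ 1 P := ph_cd x₀ t₀ t
  have f1 : ContDiff ℝ 1 f := hf.of_le one_le_two
  have cg := cd_grad hf
  have gc : HasCompactSupport (gradient f) :=
    (hc.fderiv ℝ).comp_left (g := (InnerProductSpace.toDual ℝ E).symm) (map_zero _)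
  have cF : ContDiff ℝ 1 fun y => f y * P y := f1.mul cP
  obtain ⟨i1, e1⟩ := fv0 hM (X := fun z => (f z * P z) • (z - x₀))
    (cF.smul (contDiff_id.sub contDiff_const)) (hc.mul_right.smul_right)
  obtain ⟨i2, e2⟩ := fv0 hM (X := fun z => P z • gradient f z) (cP.smul cg) gc.smul_left
  have i3 : Integrable (fun x => P x * (d x - divAlong (T x) (gradient f) x)) ν := by
    simp_rw [mul_sub]
    exact ((cP.continuous.mul hd).integrable_of_hasCompactSupport dc.mul_left).sub
      (int_mul_div hM cg gc cP.continuous)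
  have i4 : Integrable (fun x => d x * P x + f x * (P x *
      (m * l ^ 2 / 2 - l ^ 4 / 4 * ⟪x - x₀, x - x₀⟫)) +
      fderiv ℝ (fun y => f y * P y) x (H x) - f x * P x * ‖H x‖ ^ 2) ν := by
    refine (Integrable.add (Integrable.add ?_ ?_) ?_).sub
      (integrable_mul_H_sq hM cF.continuous hc.mul_right)
    · exact (hd.mul cP.continuous).integrable_of_hasCompactSupport dc.mul_right
    · refine Continuous.integrable_of_hasCompactSupport ?_ hc.mul_right
      have := f1.continuous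
      have := cP.continuous
      fun_prop
    · simp_rw [fd_grad (fun y => f y * P y)]
      refine integrable_inner_of_cpt hM ((InnerProductSpace.toDual ℝ E).symm.continuous.comp
        (cF.continuous_fderiv one_ne_zero)) ?_
      exact (hc.mul_right.fderiv ℝ).comp_left (g := (InnerProductSpace.toDual ℝ E).symm)
        (map_zero _)
  refine (integral_mono_ae i4 ((i3.add (i1.const_mul (l ^ 2 / 2))).add i2) ?_).trans_eq ?_
  · filter_upwards [hM.dim, hM.normal] with x h1 h2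
    have df := f1.differentiable one_ne_zero x
    have dP := cP.differentiable one_ne_zero x
    have hF : ∀ v, fderiv ℝ (fun y => f y * P y) x v =
        P x * ⟪gradient f x, v⟫ - l ^ 2 / 2 * (f x * P x) * ⟪x - x₀, v⟫ := fun v => by
      rw [fderiv_fun_mul df dP]
      simp only [add_apply, smul_apply, smul_eq_mul]
      rw [ph_fd, fd_grad]
      ring
    simp only [Pi.add_apply]
    rw [divAlong_smul_sub _ _ _ _ (df.fun_mul dP), h1, div_smul _ dP
      (cg.differentiable one_ne_zero x), hF, hF, ph_fd, real_inner_smul_left, real_inner_smul_left]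
    generalize x - x₀ = z
    set w := z - proj (T x) z with hw
    have a1 : ⟪z, proj (T x) (gradient f x)⟫ = ⟪gradient f x, proj (T x) z⟫ := by
      rw [← inner_proj_left, real_inner_comm]
    have a2 : ⟪proj (T x) z, w⟫ = 0 := inner_proj_of_mem_orthogonal _ _ _ (sub_proj_mem _ _)
    have a3 : ⟪proj (T x) z, H x⟫ = 0 := inner_proj_of_mem_orthogonal _ _ _ h2
    have a4 : ⟪z, z⟫ = ⟪z, proj (T x) z⟫ + ‖w‖ ^ 2 := by
      have : z = proj (T x) z + w := by rw [hw]; abel
      rw [← real_inner_self_eq_norm_sq]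
      nth_rw 2 [this]
      rw [inner_add_right]
      congr 1
      nth_rw 1 [this]
      rw [inner_add_left, a2, zero_add]
    have a5 : ⟪z, H x⟫ = ⟪w, H x⟫ := by rw [hw, inner_sub_left, a3, sub_zero]
    have a6 : 0 ≤ ‖H x + (l ^ 2 / 2) • w‖ ^ 2 := sq_nonneg _
    rw [norm_add_sq_real, real_inner_smul_right, norm_smul, mul_pow, Real.norm_eq_abs, sq_abs,
      real_inner_comm] at a6
    have a7 : 0 ≤ f x * P x := mul_nonneg (h0 x) (by
      simp only [P, ph_eq]
      exact mul_nonneg (pow_nonneg (inv_nonneg.2 (Real.sqrt_nonneg _)) _) (Real.exp_pos _).le)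
    rw [a1, a4, a5]
    nlinarith [mul_nonneg a7 a6]
  · rw [integral_add' (i3.add (i1.const_mul _)) i2, integral_add' i3 (i1.const_mul _),
      integral_const_mul, e1, e2]
    simp

end Wm

open Wm

variable {μ : ℝ → Measure E} {T : ℝ → E → Submodule ℝ E} {H : ℝ → E → E}

omit [FiniteDimensional ℝ E] [MeasurableSpace E] [BorelSpace E] in
theorem Ph_pos (x₀ : E) {t₀ t : ℝ} (h : t < t₀) (x : E) : 0 < Ph m x₀ t₀ t x := by
  rw [ph_eq]
  exact mul_pos (pow_pos (Lam_pos h) _) (Real.exp_pos _)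

/-- **Weighted monotonicity formula.**  `g` is any integrable bound of the error term. -/
theorem wm (hB : BF m μ T H) {ψ : ℝ × E → ℝ} (hψ : ContDiff ℝ 2 ψ) (h0 : ∀ p, 0 ≤ ψ p)
    {K : Set E} (hK : IsCompact K) (hs : ∀ t x, x ∉ K → ψ (t, x) = 0) (x₀ : E) {t₀ a b : ℝ}
    (ha : 0 ≤ a) (hab : a ≤ b) (hb : b < t₀) {g : ℝ → ℝ} (hg : IntervalIntegrable g volume a b)
    (hle : ∀ᵐ t, t ∈ Ioc a b → MC m (μ t) (T t) (H t) →
      ∫ x, Ph m x₀ t₀ t x * ho (T t x) ψ t x ∂μ t ≤ g t) :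
    ∫ x, ψ (b, x) * Ph m x₀ t₀ b x ∂μ b ≤
      ∫ x, ψ (a, x) * Ph m x₀ t₀ a x ∂μ a + ∫ t in a..b, g t := by
  obtain ⟨χ, hχ, χ0, χ1, c, d, hd, hcd⟩ := exists_cutoff hab hb
  have f1 : ContDiff ℝ 1 ψ := hψ.of_le one_le_two
  obtain ⟨hI, hq⟩ := hB.ineq (fun t x => ψ (t, x) * (χ t * Ph m x₀ t₀ t x))
    (f1.mul (contDiff_iff_contDiffAt.2 fun p => by
      by_cases hp : p.1 < t₀
      · exact (hχ.contDiffAt.comp p contDiffAt_fst).mul (contDiffAt_phi0 contDiff_const x₀ hp)
      · refine (contDiffAt_const (c := 0)).congr_of_eventuallyEq ?_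
        filter_upwards [(isOpen_lt continuous_const continuous_fst).mem_nhds
          (show d < p.1 by linarith)] with q hq
        rw [show χ q.1 = 0 from by_contra fun h => (hcd _ h).2.not_gt hq, zero_mul]))
    (HasCompactSupport.intro (isCompact_Icc.prod hK : IsCompact (Icc c d ×ˢ K)) fun p hp => by
      by_contra h
      exact hp ⟨hcd _ (left_ne_zero_of_mul (right_ne_zero_of_mul h)),
        by_contra fun h' => left_ne_zero_of_mul h (hs _ _ h')⟩)
    (fun t x => mul_nonneg (h0 _) (mul_nonneg (χ0 t) (by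
      rw [ph_eq]
      exact mul_nonneg (pow_nonneg (inv_nonneg.2 (Real.sqrt_nonneg _)) _) (Real.exp_pos _).le)))
    a b ha hab
  simp only [(χ1 a ⟨le_rfl, hab⟩).self_of_nhds, (χ1 b ⟨hab, le_rfl⟩).self_of_nhds, one_mul] at hq
  refine sub_le_iff_le_add'.1 (hq.trans (intervalIntegral.integral_mono_ae_restrict hab hI hg ?_))
  rw [← Measure.restrict_congr_set Ioc_ae_eq_Icc]
  filter_upwards [ae_restrict_of_ae_restrict_of_subset (show Ioc a b ⊆ Ici 0 from fun t ht =>
    ha.trans ht.1.le) hB.mc, ae_restrict_mem measurableSet_Ioc, ae_restrict_of_ae hle]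
    with t h1 h2 h3
  refine le_trans ?_ (h3 h2 h1)
  have ht : t < t₀ := h2.2.trans_lt hb
  have e1 := χ1 t ⟨h2.1.le, h2.2⟩
  have c1 : Continuous fun x => fderiv ℝ ψ (t, x) (1, 0) := by
    have := f1.continuous_fderiv one_ne_zero
    fun_prop
  have dt : ∀ x, HasDerivAt (fun s => ψ (s, x)) (fderiv ℝ ψ (t, x) (1, 0)) t := fun x =>
    (f1.differentiable one_ne_zero (t, x)).hasFDerivAt.comp_hasDerivAt t
      ((hasDerivAt_id t).prodMk (hasDerivAt_const t x))
  refine le_of_eq_of_le ?_ (slice h1 (f := fun y => ψ (t, y))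
    (hψ.comp (contDiff_prodMk_right t)) (HasCompactSupport.intro hK (hs t)) (fun x => h0 _) c1
    (HasCompactSupport.intro hK fun x hx => ?_) x₀ t₀ t)
  · refine integral_congr_ae (.of_forall fun x => ?_)
    have e2 : (fun s => ψ (s, x) * (χ s * Ph m x₀ t₀ s x)) =ᶠ[𝓝 t]
        fun s => ψ (s, x) * Ph m x₀ t₀ s x := e1.mono fun s h => by simp [h]
    simp only [e2.deriv_eq, e1.self_of_nhds, one_mul]
    rw [((dt x).fun_mul (ph_dt x₀ ht x)).deriv]
  · refine (dt x).unique ?_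
    simp_rw [fun s => hs s x hx]
    exact hasDerivAt_const t 0

/-- monotonicity for weights which are subsolutions on the supports -/
theorem wm0 (hB : BF m μ T H) {ψ : ℝ × E → ℝ} (hψ : ContDiff ℝ 2 ψ) (h0 : ∀ p, 0 ≤ ψ p)
    {K : Set E} (hK : IsCompact K) (hs : ∀ t x, x ∉ K → ψ (t, x) = 0) (x₀ : E) {t₀ a b : ℝ}
    (ha : 0 ≤ a) (hab : a ≤ b) (hb : b < t₀)
    (hle : ∀ᵐ t, t ∈ Ioc a b → ∀ᵐ x ∂μ t, Module.finrank ℝ (T t x) = m → ho (T t x) ψ t x ≤ 0) :
    ∫ x, ψ (b, x) * Ph m x₀ t₀ b x ∂μ b ≤ ∫ x, ψ (a, x) * Ph m x₀ t₀ a x ∂μ a := by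
  simpa using wm hB hψ h0 hK hs x₀ ha hab hb (g := fun _ => 0) intervalIntegrable_const
    (hle.mono fun t h1 h2 h3 => integral_nonpos_of_ae <| by
      filter_upwards [h1 h2, h3.dim] with x h4 h5
      exact mul_nonpos_of_nonneg_of_nonpos (Ph_pos x₀ (h2.2.trans_lt hb) x).le (h4 h5))

end Vale.Agent.P218Z
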