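import Vale.Agent.P218Z.Ho
import Vale.Agent.P218Z.Defs

/-!
# P218Z: the weighted monotonicity formula with `hop`, `hk`; Brakke flows are in the class `Wk`
-/

open MeasureTheory Set Filter Topology Metric
open scoped ENNReal NNReal RealInnerProductSpace
open Vale.Agent.P214 (proj divAlong)
open Vale.Agent.P218.H552
open Vale.Agent.P366W (trc dvg trc_eq_trace trc_sub trc_smulRight dvg_eq)
open Vale.Agent.P218R

noncomputable section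

namespace Vale.Agent.P218Z

/-- a plane has a unit normal -/
theorem ex_unit {T : Submodule ℝ E3} (hT : Module.finrank ℝ T = 2) :
    ∃ ν : E3, ‖ν‖ = 1 ∧ ν ∈ Tᗮ ∧ ∀ v, proj T v = v - ⟪ν, v⟫ • ν := by
  have h1 : Module.finrank ℝ Tᗮ = 1 := by
    have := T.finrank_add_finrank_orthogonal
    rw [hT, finrank_euclideanSpace_fin] at this
    omega
  obtain ⟨w, w0, hw⟩ := finrank_eq_one_iff'.1 h1
  have n0 : ‖(w : E3)‖ ≠ 0 := by simpa using w0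
  have n1 : ‖‖(w : E3)‖⁻¹ • (w : E3)‖ = 1 := norm_smul_inv_norm (by simpa using w0)
  have m : ‖(w : E3)‖⁻¹ • (w : E3) ∈ Tᗮ := Tᗮ.smul_mem _ w.2
  refine ⟨_, n1, m, fun v => ?_⟩
  obtain ⟨c, hc⟩ := hw ⟨_, sub_proj_mem T v⟩
  have e : v - proj T v = (c * ‖(w : E3)‖) • ‖(w : E3)‖⁻¹ • (w : E3) := by
    rw [smul_smul, mul_assoc, mul_inv_cancel₀ n0, mul_one]
    exact (congrArg Subtype.val hc).symm
  generalize ‖(w : E3)‖⁻¹ • (w : E3) = ν at *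
  have e2 : ⟪ν, v - proj T v⟫ = c * ‖(w : E3)‖ := by
    rw [e, real_inner_smul_right, real_inner_self_eq_norm_sq, n1]
    ring
  rw [inner_sub_right, real_inner_comm (proj T v), inner_proj_of_mem_orthogonal T v ν m,
    sub_zero] at e2
  rw [e2, ← e, sub_sub_cancel]

theorem div_unit {T : Submodule ℝ E3} {ν : E3} (h : ∀ v, proj T v = v - ⟪ν, v⟫ • ν)
    (X : E3 → E3) (x : E3) : divAlong T X x = dvg X x - ⟪fderiv ℝ X x ν, ν⟫ := by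
  have : (proj T).comp (fderiv ℝ X x) =
      fderiv ℝ X x - ((innerSL ℝ ν).comp (fderiv ℝ X x)).smulRight ν := by
    ext1 v
    simp [h]
  rw [divAlong, ← trc_eq_trace, this, trc_sub, trc_smulRight, dvg_eq, real_inner_comm]
  rfl

theorem ho_hop {T : Submodule ℝ E3} {ν : E3} (h : ∀ v, proj T v = v - ⟪ν, v⟫ • ν)
    {ψ : ℝ × E3 → ℝ} {t : ℝ} {x : E3} (hψ : DifferentiableAt ℝ ψ (t, x)) :
    ho T ψ t x = hop ψ t x ν := by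
  rw [ho, hop, div_unit h, (hψ.hasFDerivAt.comp_hasDerivAt t
    ((hasDerivAt_id t).prodMk (hasDerivAt_const t x))).deriv.symm]
  rfl

theorem hop_congr {ψ φ : ℝ × E3 → ℝ} {t : ℝ} {x : E3} (h : ψ =ᶠ[𝓝 (t, x)] φ) (ν : E3) :
    hop ψ t x ν = hop φ t x ν := by
  have h1 : (fun y => ψ (t, y)) =ᶠ[𝓝 x] fun y => φ (t, y) :=
    (Continuous.prodMk_right t).continuousAt.eventually h
  have h2 : (fun s => ψ (s, x)) =ᶠ[𝓝 t] fun s => φ (s, x) :=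
    (Continuous.prodMk_left x).continuousAt.eventually h
  have h3 : (gradient fun y => ψ (t, y)) =ᶠ[𝓝 x] gradient fun y => φ (t, y) :=
    h1.eventuallyEq_nhds.mono fun y hy => hy.gradient_eq
  rw [hop, hop, h2.deriv_eq, dvg_eq, dvg_eq, h3.fderiv_eq]

theorem hk_Ph (y : E3) {s t : ℝ} (h : t < s) (x : E3) :
    hk y s t x = (4 * Real.pi)⁻¹ * Ph 2 y s t x := by
  rw [hk, Ph2 y h, mul_inv _ (s - t), mul_assoc]

/-- a weight which is smooth after the time `c` can be made smooth -/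
theorem ex_glob {ψ : ℝ × E3 → ℝ} {c s : ℝ} (hc : c < s) (hψ : ContDiffOn ℝ 2 ψ (Ioi c ×ˢ univ)) :
    ∃ θ : ℝ → ℝ, (∀ t, 0 ≤ θ t) ∧ (∀ t, s ≤ t → ∀ᶠ r in 𝓝 t, θ r = 1) ∧
      ContDiff ℝ 2 fun p : ℝ × E3 => θ p.1 * ψ p := by
  have h0 := sub_pos.2 hc
  refine ⟨fun t => Real.smoothTransition (3 * (t - c) / (s - c) - 1),
    fun t => Real.smoothTransition.nonneg _, fun t ht => ?_, contDiff_iff_contDiffAt.2 fun p => ?_⟩
  · filter_upwards [lt_mem_nhds (show c + 2 / 3 * (s - c) < t by linarith)] with r hr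
    refine Real.smoothTransition.one_of_one_le ?_
    rw [le_sub_iff_add_le, le_div_iff₀ h0]
    linarith
  · by_cases hp : c < p.1
    · exact (Real.smoothTransition.contDiffAt.comp p (by fun_prop)).mul
        (hψ.contDiffAt ((isOpen_Ioi.prod isOpen_univ).mem_nhds ⟨hp, trivial⟩))
    · refine (contDiffAt_const (c := 0)).congr_of_eventuallyEq ?_
      filter_upwards [continuous_fst.continuousAt.eventually_lt continuousAt_const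
        (show p.1 < c + 1 / 3 * (s - c) by linarith)] with q hq
      rw [Real.smoothTransition.zero_of_nonpos, zero_mul]
      rw [sub_nonpos, div_le_iff₀ h0]
      linarith

variable {μ : ℝ → Measure E3} {T : ℝ → E3 → Submodule ℝ E3} {H : ℝ → E3 → E3}

theorem ho_glob {ψ : ℝ × E3 → ℝ} {θ : ℝ → ℝ} (h2 : ContDiff ℝ 2 fun p : ℝ × E3 => θ p.1 * ψ p)
    {t : ℝ} (h1 : ∀ᶠ r in 𝓝 t, θ r = 1) {x : E3} (h : ∀ ν, ‖ν‖ = 1 → hop ψ t x ν ≤ 0)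
    {S : Submodule ℝ E3} (hS : Module.finrank ℝ S = 2) :
    ho S (fun p => θ p.1 * ψ p) t x ≤ 0 := by
  obtain ⟨ν, n1, -, n2⟩ := ex_unit hS
  rw [ho_hop n2 (h2.differentiable two_ne_zero _), hop_congr (φ := ψ)
    ((continuous_fst.continuousAt.eventually (show ∀ᶠ r in 𝓝 (t, x).1, θ r = 1 from h1)).mono
      fun p hp => by simp [hp])]
  exact h ν n1

/-- **Z.WM** -/
theorem wmz (hB : BF 2 μ T H) {ψ : ℝ × E3 → ℝ} {c s₁ s₂ t₀ : ℝ} (h0 : 0 ≤ s₁) (h1 : s₁ ≤ s₂)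
    (h2 : s₂ < t₀) (hc : c < s₁) (hψ : ContDiffOn ℝ 2 ψ (Ioi c ×ˢ univ)) (p0 : ∀ p, 0 ≤ ψ p)
    {K : Set E3} (hK : IsCompact K) (hs : ∀ t, ∀ x ∉ K, ψ (t, x) = 0)
    (hle : ∀ᵐ t, t ∈ Ioc s₁ s₂ → ∀ᵐ x ∂μ t, ∀ ν, ‖ν‖ = 1 → hop ψ t x ν ≤ 0) (x₀ : E3) :
    ∫ x, ψ (s₂, x) * hk x₀ t₀ s₂ x ∂μ s₂ ≤ ∫ x, ψ (s₁, x) * hk x₀ t₀ s₁ x ∂μ s₁ := by
  obtain ⟨θ, a1, a2, a3⟩ := ex_glob hc hψ
  have := wm0 hB a3 (fun p => mul_nonneg (a1 _) (p0 p)) hK (fun t x hx => by simp [hs t x hx]) x₀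
    h0 h1 h2 (hle.mono fun t ht hm => (ht hm).mono fun x hx hS =>
      ho_glob a3 (a2 t hm.1.le) hx hS)
  simp only [(a2 s₁ le_rfl).self_of_nhds, (a2 s₂ h1).self_of_nhds, one_mul] at this
  simp_rw [hk_Ph x₀ h2, hk_Ph x₀ (h1.trans_lt h2), mul_left_comm (ψ _), integral_const_mul]
  exact mul_le_mul_of_nonneg_left this (by have := Real.pi_pos; positivity)

/-- the mean value inequality with `hop`, `hk` -/
theorem mvz (hB : BF 2 μ T H) (h0 : μ 0 univ < ⊤) {ψ : ℝ × E3 → ℝ} {c s t θ : ℝ} (ha : 0 ≤ s)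
    (hb : s < t) (hc : c < s) (hψ : ContDiffOn ℝ 2 ψ (Ioi c ×ˢ univ)) (p0 : ∀ p, 0 ≤ ψ p)
    {K : Set E3} (hK : IsCompact K) (hs : ∀ t, ∀ x ∉ K, ψ (t, x) = 0)
    (hle : ∀ᵐ r, r ∈ Ioo s t → ∀ᵐ x ∂μ r, ∀ ν, ‖ν‖ = 1 → hop ψ r x ν ≤ 0) {x : E3} (hθ : 0 ≤ θ)
    (hd : ∃ᶠ r in 𝓝[<] t, θ ≤ gs (μ r) x √(t - r)) :
    θ * ψ (t, x) ≤ ∫ y, ψ (s, y) * hk x t s y ∂μ s := by
  obtain ⟨χ, a1, a2, a3⟩ := ex_glob hc hψ
  have := mv0 hB h0 a3 (fun p => mul_nonneg (a1 _) (p0 p)) hK (fun t x hx => by simp [hs t x hx])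
    ha hb hθ (hle.mono fun t ht hm => (ht hm).mono fun x hx hS =>
      ho_glob a3 (a2 t hm.1.le) hx hS) hd
  simp only [(a2 s le_rfl).self_of_nhds, (a2 t hb.le).self_of_nhds, one_mul] at this
  simp_rw [hk, mul_left_comm (ψ _), integral_const_mul]
  exact this

/-- the field `mv` of `Wk` for a Brakke flow with density at least one on its carrier -/
theorem wk_mv (hB : BF 2 μ T H) (h0 : μ 0 univ < ⊤) {M : ℝ → Set E3} {a b : ℝ} (ha : 0 ≤ a)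
    (car : ∀ᵐ t, t ∈ Ioo a b → ∀ᵐ x ∂μ t, x ∈ M t)
    (ld : ∀ t ∈ Ioo a b, ∀ x ∈ M t, ∃ᶠ r in 𝓝[<] t, 1 ≤ gs (μ r) x √(t - r))
    (ψ : ℝ × E3 → ℝ) (s t : ℝ) (x : E3) (h1 : a < s) (h2 : s < t) (h3 : t < b) (hx : x ∈ M t)
    (h : Adm M ψ s t) : ψ (t, x) ≤ ∫ y, ψ (s, y) * hk x t s y ∂μ s := by
  obtain ⟨c, hc, hψ⟩ := h.sm
  obtain ⟨K, hK, hs⟩ := h.cs
  simpa using mvz hB h0 (ha.trans h1.le) h2 hc hψ h.nn hK hs (car.mono fun r hr hm =>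
    (hr ⟨h1.trans hm.1, hm.2.trans h3⟩).mono fun y hy => h.sub r ⟨hm.1.le, hm.2.le⟩ y hy)
    zero_le_one (ld t ⟨h1.trans h2, h3⟩ x hx)

theorem wk_of (hB : BF 2 μ T H) (h0 : μ 0 univ < ⊤) {M : ℝ → Set E3} {a b Λ : ℝ} (ha : 0 ≤ a)
    (ar : ∀ t ∈ Ioo a b, AR Λ (μ t)) (car : ∀ t ∈ Ioo a b, ∀ᵐ x ∂μ t, x ∈ M t)
    (ld : ∀ t ∈ Ioo a b, ∀ x ∈ M t, ∃ᶠ r in 𝓝[<] t, 1 ≤ gs (μ r) x √(t - r)) : Wk μ M a b Λ :=
  ⟨ar, car, wk_mv hB h0 ha (.of_forall car) ld⟩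

end Vale.Agent.P218Z
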